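import Vale.Agent.P321.Super.Coef
import Mathlib.Algebra.Polynomial.AlgebraMap
import Mathlib.Algebra.Polynomial.Inductions

/-! An inner product on formal combinations and a bound for renewal recursions of such products. -/

namespace Vale.Agent.P321.Super

open Finset Polynomial Poly
open MonoidAlgebra (single)

/-- The inner product behind the quadratic form. -/
noncomputable def ip (h : ℝ) (c d : Cf) : ℝ :=
  c.coeff.sum fun w v => v * d.coeff w * h ^ (FreeMonoid.toList w).count true

/-- A polynomial in the letter of the slot law. -/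
noncomputable def pl (P : ℝ[X]) : Cf := aeval cx P

/-- The scalar product of coefficient sequences. -/
noncomputable def dot (P Q : ℝ[X]) : ℝ := P.sum fun k v => v * Q.coeff k

variable {h : ℝ}

lemma qf_eq_ip (c : Cf) : qf h c = ip h c c :=
  sum_congr rfl fun w _ => by ring

lemma ip_single (w : FreeMonoid Bool) (v : ℝ) (d : Cf) :
    ip h (single w v) d = v * d.coeff w * h ^ (FreeMonoid.toList w).count true := by
  simp [ip, Finsupp.sum_single_index]

lemma ip_add_left (c c' d : Cf) : ip h (c + c') d = ip h c d + ip h c' d := by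
  simp [ip, Finsupp.sum_add_index', add_mul]

lemma ip_add_right (c d d' : Cf) : ip h c (d + d') = ip h c d + ip h c d' := by
  simp [ip, Finsupp.sum, mul_add, add_mul, sum_add_distrib]

@[simp] lemma ip_zero_left (d : Cf) : ip h 0 d = 0 := by simp [ip]

@[simp] lemma ip_zero_right (c : Cf) : ip h c 0 = 0 := by simp [ip]

lemma ip_sum_left {ι : Type*} (s : Finset ι) (f : ι → Cf) (d : Cf) :
    ip h (∑ i ∈ s, f i) d = ∑ i ∈ s, ip h (f i) d := by
  classical
  induction s using Finset.induction_on with
  | empty => simp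
  | insert a s ha ih => rw [sum_insert ha, sum_insert ha, ip_add_left, ih]

lemma ip_sum_right {ι : Type*} (s : Finset ι) (c : Cf) (f : ι → Cf) :
    ip h c (∑ i ∈ s, f i) = ∑ i ∈ s, ip h c (f i) := by
  classical
  induction s using Finset.induction_on with
  | empty => simp
  | insert a s ha ih => rw [sum_insert ha, sum_insert ha, ip_add_right, ih]

lemma dot_add_left (P P' Q : ℝ[X]) : dot (P + P') Q = dot P Q + dot P' Q :=
  Polynomial.sum_add_index _ _ _ (fun _ => zero_mul _) fun _ _ _ => add_mul _ _ _

lemma dot_monomial (k : ℕ) (v : ℝ) (Q : ℝ[X]) : dot (monomial k v) Q = v * Q.coeff k :=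
  Polynomial.sum_monomial_index _ _ (zero_mul _)

lemma dot_add_right (P Q Q' : ℝ[X]) : dot P (Q + Q') = dot P Q + dot P Q' := by
  induction P using Polynomial.induction_on' with
  | add p p' e e' => rw [dot_add_left, dot_add_left, dot_add_left, e, e']; ring
  | monomial k v => simp [dot_monomial, mul_add]

lemma dot_eq_sum {P Q : ℝ[X]} {N : ℕ} (hP : P.natDegree < N) :
    dot P Q = ∑ k ∈ range N, P.coeff k * Q.coeff k :=
  Polynomial.sum_over_range' P (f := fun k v => v * Q.coeff k) (fun _ => zero_mul _) N hP

lemma pl_monomial (k : ℕ) (v : ℝ) :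
    pl (monomial k v) = single (FreeMonoid.of false ^ k) v := by
  rw [pl, aeval_monomial, cx, MonoidAlgebra.single_pow, one_pow, ← Algebra.smul_def,
    MonoidAlgebra.smul_single]
  simp

lemma toList_of_pow (k : ℕ) :
    FreeMonoid.toList (FreeMonoid.of false ^ k) = List.replicate k false := by
  induction k with
  | zero => simp
  | succ k ih => simp [pow_succ', List.replicate_succ, ih]

lemma replicate_cons_inj : ∀ k l : ℕ, ∀ u v : List Bool,
    List.replicate k false ++ true :: u = List.replicate l false ++ true :: v → k = l ∧ u = v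
  | 0, 0, u, v, e => by simpa using e
  | 0, l + 1, u, v, e => by simp [List.replicate_succ] at e
  | k + 1, 0, u, v, e => by simp [List.replicate_succ] at e
  | k + 1, l + 1, u, v, e => by
    simp only [List.replicate_succ, List.cons_append, List.cons.injEq, true_and] at e
    obtain ⟨e1, e2⟩ := replicate_cons_inj k l u v e
    exact ⟨congrArg (· + 1) e1, e2⟩

lemma count_replicate_false (k : ℕ) : (List.replicate k false).count true = 0 :=
  List.count_eq_zero.2 fun hm => Bool.noConfusion (List.eq_of_mem_replicate hm)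

lemma ip_pl_pl (P Q : ℝ[X]) : ip h (pl P) (pl Q) = dot P Q := by
  induction P using Polynomial.induction_on' with
  | add p p' e e' => rw [pl, map_add, ip_add_left, ← pl, ← pl, e, e', dot_add_left]
  | monomial k v =>
    induction Q using Polynomial.induction_on' with
    | add p p' e e' => rw [pl, pl, map_add, ip_add_right, ← pl, ← pl, ← pl, e, e', dot_add_right]
    | monomial l u =>
      classical
      rw [pl_monomial, pl_monomial, ip_single, dot_monomial, coeff_monomial, toList_of_pow,
        count_replicate_false, pow_zero, mul_one, MonoidAlgebra.coeff_single, Finsupp.single_apply]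
      congr 1
      refine if_congr ⟨fun e => ?_, fun e => e ▸ rfl⟩ rfl rfl
      simpa [toList_of_pow] using congrArg List.length (congrArg FreeMonoid.toList e)

lemma pl_ce_single (k : ℕ) (v : ℝ) (z : FreeMonoid Bool) (a : ℝ) :
    pl (monomial k v) * ce * single z a
      = single (FreeMonoid.of false ^ k * FreeMonoid.of true * z) (v * a) := by
  rw [pl_monomial, ce, MonoidAlgebra.single_mul_single, MonoidAlgebra.single_mul_single, mul_one]

lemma ip_pl_cross (P Q : ℝ[X]) (v : Cf) :
    ip h (pl P) (pl Q * ce * v) = 0 ∧ ip h (pl Q * ce * v) (pl P) = 0 := by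
  induction P using Polynomial.induction_on' with
  | add p p' e e' =>
    rw [pl, map_add, ip_add_left, ip_add_right, ← pl, ← pl, e.1, e'.1, e.2, e'.2, add_zero]
    exact ⟨rfl, rfl⟩
  | monomial k a =>
    induction Q using Polynomial.induction_on' with
    | add p p' e e' =>
      rw [pl, pl, map_add, add_mul, add_mul, ip_add_left, ip_add_right, ← pl, ← pl, ← pl, e.1, e'.1,
        e.2, e'.2, add_zero]
      exact ⟨rfl, rfl⟩
    | monomial l b =>
      induction v using MonoidAlgebra.induction_linear with
      | zero => simp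
      | add x y ex ey =>
        rw [mul_add, ip_add_left, ip_add_right, ex.1, ey.1, ex.2, ey.2, add_zero]
        exact ⟨rfl, rfl⟩
      | single z c =>
        classical
        have hne : FreeMonoid.of false ^ k ≠ FreeMonoid.of false ^ l * FreeMonoid.of true * z := by
          intro e
          have := congrArg FreeMonoid.toList e
          simp only [toList_of_pow, FreeMonoid.toList_mul, FreeMonoid.toList_of, List.append_assoc,
            List.singleton_append] at this
          have h2 := congrArg (List.count true) this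
          simp [count_replicate_false] at h2
        rw [pl_monomial, pl_ce_single, ip_single, ip_single, MonoidAlgebra.coeff_single,
          MonoidAlgebra.coeff_single, Finsupp.single_eq_of_ne hne, Finsupp.single_eq_of_ne hne.symm]
        simp

lemma ip_mul (P Q : ℝ[X]) (u v : Cf) :
    ip h (pl P * ce * u) (pl Q * ce * v) = dot P Q * (h * ip h u v) := by
  induction P using Polynomial.induction_on' with
  | add p p' e e' =>
    rw [pl, map_add, add_mul, add_mul, ip_add_left, ← pl, ← pl, e, e', dot_add_left, add_mul]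
  | monomial k a =>
    induction Q using Polynomial.induction_on' with
    | add p p' e e' =>
      rw [pl, pl, map_add, add_mul, add_mul, ip_add_right, ← pl, ← pl, ← pl, e, e', dot_add_right,
        add_mul]
    | monomial l b =>
      induction u using MonoidAlgebra.induction_linear with
      | zero => simp
      | add x y ex ey => rw [mul_add, ip_add_left, ex, ey, ip_add_left]; ring
      | single z c =>
        induction v using MonoidAlgebra.induction_linear with
        | zero => simp
        | add x y ex ey => rw [mul_add, ip_add_right, ex, ey, ip_add_right]; ring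
        | single y e =>
          classical
          have hiff : FreeMonoid.of false ^ l * FreeMonoid.of true * y
              = FreeMonoid.of false ^ k * FreeMonoid.of true * z ↔ l = k ∧ y = z := by
            refine ⟨fun he => ?_, fun he => by rw [he.1, he.2]⟩
            have := congrArg FreeMonoid.toList he
            simp only [toList_of_pow, FreeMonoid.toList_mul, FreeMonoid.toList_of, List.append_assoc,
              List.singleton_append] at this
            obtain ⟨h1, h2⟩ := replicate_cons_inj _ _ _ _ this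
            exact ⟨h1, FreeMonoid.toList.injective h2⟩
          rw [pl_ce_single, pl_ce_single, ip_single, ip_single, dot_monomial, coeff_monomial,
            MonoidAlgebra.coeff_single, MonoidAlgebra.coeff_single, Finsupp.single_apply,
            Finsupp.single_apply, FreeMonoid.toList_mul, FreeMonoid.toList_mul, List.count_append,
            List.count_append, toList_of_pow, count_replicate_false, FreeMonoid.toList_of,
            List.count_singleton_self, zero_add, pow_add, pow_one]
          have hp : FreeMonoid.of false ^ l = FreeMonoid.of false ^ k ↔ l = k :=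
            ⟨fun he => (by simpa [toList_of_pow] using congrArg (fun m => (FreeMonoid.toList m).length) he),
              fun he => by rw [he]⟩
          by_cases h1 : l = k <;> by_cases h2 : y = z <;> simp [hiff, hp, h1, h2]
          ring

/-- Regrouping a triangle. -/
lemma sum_triangle_le {f : ℕ → ℕ → ℝ} {n : ℕ} (hf : ∀ i < n, ∀ k < n, 0 ≤ f i k) :
    ∑ T ∈ range n, ∑ i ∈ range T, f i (T - 1 - i) ≤ ∑ i ∈ range n, ∑ k ∈ range n, f i k := by
  rw [← sum_product', sum_sigma' (range n) fun T => range T,
    ← sum_image (f := fun p : ℕ × ℕ => f p.1 p.2)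
      (g := fun x : (_ : ℕ) × ℕ => (x.2, x.1 - 1 - x.2))]
  · refine sum_le_sum_of_subset_of_nonneg (fun p hp => ?_) fun p hp _ => ?_
    · obtain ⟨⟨T, i⟩, hx, rfl⟩ := mem_image.1 hp
      simp only [mem_sigma, mem_range] at hx
      simp only [mem_product, mem_range]
      omega
    · simp only [mem_product, mem_range] at hp
      exact hf _ hp.1 _ hp.2
  · rintro ⟨T, i⟩ hx ⟨T', i'⟩ hy he
    simp only [mem_coe, mem_sigma, mem_range] at hx hy
    simp only [Prod.mk.injEq] at he
    obtain ⟨rfl, he⟩ := he
    obtain rfl : T = T' := by omega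
    rfl

/-- Renewal recursions for inner products. -/
structure Renew (I w0 w1 : ℕ → ℕ → ℝ) (A : ℕ → ℝ) (h β : ℝ) (n : ℕ) : Prop where
  hh : 0 ≤ h
  hβ : h * β ≤ 1 / 8
  hA : ∀ j T, T ≤ 2 * j + 1 → A j ≤ 2 * A T
  hA0 : ∀ j, 0 ≤ A j
  w0_nonneg : ∀ i j, 0 ≤ w0 i j
  w1_nonneg : ∀ i j, 0 ≤ w1 i j
  w0_le : ∀ i j, w0 i j ≤ A j
  w1_le : ∀ i j, w1 i j ≤ A j
  w0_sum : ∑ i ∈ range n, ∑ j ∈ range n, w0 i j ≤ β
  w1_sum : ∑ i ∈ range n, ∑ j ∈ range n, w1 i j ≤ β
  eqn : ∀ T T', I T T' = w0 T T'
    + h * ∑ i ∈ range T, ∑ j ∈ range T', w1 i j * I (T - 1 - i) (T' - 1 - j)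

namespace Renew

variable {I w0 w1 : ℕ → ℕ → ℝ} {A : ℕ → ℝ} {β : ℝ} {n : ℕ}

lemma nonneg (hR : Renew I w0 w1 A h β n) : ∀ T T', 0 ≤ I T T' := by
  intro T
  induction T using Nat.strong_induction_on with
  | _ T ih =>
    intro T'
    rw [hR.eqn]
    refine add_nonneg (hR.w0_nonneg _ _) (mul_nonneg hR.hh (sum_nonneg fun i hi =>
      sum_nonneg fun j _ => mul_nonneg (hR.w1_nonneg _ _) (ih _ ?_ _)))
    rw [mem_range] at hi
    omega

lemma total (hR : Renew I w0 w1 A h β n) :
    ∑ T ∈ range n, ∑ T' ∈ range n, I T T' ≤ 2 * β := by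
  set S := ∑ T ∈ range n, ∑ T' ∈ range n, I T T' with hS
  have hnn := hR.nonneg
  have hS0 : 0 ≤ S := sum_nonneg fun i _ => sum_nonneg fun j _ => hnn i j
  have e1 : ∑ T ∈ range n, ∑ T' ∈ range n, ∑ i ∈ range T, ∑ j ∈ range T',
      w1 i j * I (T - 1 - i) (T' - 1 - j) ≤ β * S := by
    rw [sum_congr rfl fun T _ => sum_comm]
    refine le_trans (sum_le_sum fun T _ => sum_le_sum fun i _ =>
      sum_triangle_le (f := fun j k => w1 i j * I (T - 1 - i) k)
        fun j _ k _ => mul_nonneg (hR.w1_nonneg _ _) (hnn _ _)) ?_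
    refine le_trans (sum_triangle_le (f := fun i l => ∑ j ∈ range n, ∑ k ∈ range n, w1 i j * I l k)
      fun i _ l _ => sum_nonneg fun j _ => sum_nonneg fun k _ =>
        mul_nonneg (hR.w1_nonneg _ _) (hnn _ _)) ?_
    calc ∑ i ∈ range n, ∑ l ∈ range n, ∑ j ∈ range n, ∑ k ∈ range n, w1 i j * I l k
        = (∑ i ∈ range n, ∑ j ∈ range n, w1 i j) * S := by
          rw [hS, sum_mul]
          refine sum_congr rfl fun i _ => ?_
          rw [sum_mul, sum_comm]
          refine sum_congr rfl fun j _ => ?_
          rw [mul_sum]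
          exact sum_congr rfl fun l _ => (mul_sum _ _ _).symm
      _ ≤ β * S := mul_le_mul_of_nonneg_right hR.w1_sum hS0
  have e2 : S = (∑ T ∈ range n, ∑ T' ∈ range n, w0 T T') + h * ∑ T ∈ range n, ∑ T' ∈ range n,
      ∑ i ∈ range T, ∑ j ∈ range T', w1 i j * I (T - 1 - i) (T' - 1 - j) := by
    simp only [hS, mul_sum, ← sum_add_distrib]
    refine sum_congr rfl fun T _ => sum_congr rfl fun T' _ => ?_
    rw [hR.eqn, mul_sum]
    simp only [mul_sum]
  have e3 := mul_le_mul_of_nonneg_left e1 hR.hh
  have e4 := mul_le_mul_of_nonneg_right hR.hβ hS0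
  linarith [hR.w0_sum]

/-- One step of the recursion, splitting at the half. -/
lemma step (hR : Renew I w0 w1 A h β n) {w : ℕ → ℕ → ℝ} (hw : ∀ i j, 0 ≤ w i j)
    (hwA : ∀ i j, w i j ≤ A j) (hwβ : ∑ i ∈ range n, ∑ j ∈ range n, w i j ≤ β) {T T' : ℕ}
    (hT : T < n) (hT' : T' < n) (ih : ∀ l < T, ∀ k < T', I l k ≤ 2 * A k) :
    ∑ i ∈ range T, ∑ j ∈ range T', w i j * I (T - 1 - i) (T' - 1 - j) ≤ 8 * β * A T' := by
  have hnn := hR.nonneg
  have hA := hR.hA0 T'
  have key : ∀ i ∈ range T, ∀ j ∈ range T', w i j * I (T - 1 - i) (T' - 1 - j)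
      ≤ 2 * A T' * I (T - 1 - i) (T' - 1 - j) + 4 * A T' * w i j := by
    intro i hi j hj
    rw [mem_range] at hi hj
    have h1 := hnn (T - 1 - i) (T' - 1 - j)
    rcases le_total T' (2 * j + 1) with hb | hb
    · have := mul_le_mul_of_nonneg_right ((hwA i j).trans (hR.hA j T' hb)) h1
      have := mul_nonneg (mul_nonneg (by norm_num : (0 : ℝ) ≤ 4) hA) (hw i j)
      linarith
    · have h2 : I (T - 1 - i) (T' - 1 - j) ≤ 4 * A T' := by
        refine (ih _ (by omega) _ (by omega)).trans ?_
        linarith [hR.hA (T' - 1 - j) T' (by omega)]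
      have := mul_le_mul_of_nonneg_left h2 (hw i j)
      have := mul_nonneg (mul_nonneg (by norm_num : (0 : ℝ) ≤ 2) hA) h1
      linarith
  refine (sum_le_sum fun i hi => sum_le_sum (key i hi)).trans ?_
  simp only [sum_add_distrib, ← mul_sum]
  have s1 : ∑ i ∈ range T, ∑ j ∈ range T', I (T - 1 - i) (T' - 1 - j) ≤ 2 * β := by
    rw [sum_congr rfl fun i _ => sum_range_reflect (fun k => I (T - 1 - i) k) T',
      sum_range_reflect (fun l => ∑ k ∈ range T', I l k) T]
    refine le_trans ?_ hR.total
    refine (sum_le_sum fun l _ => sum_le_sum_of_subset_of_nonneg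
      (range_subset_range.2 hT'.le) fun k _ _ => hnn l k).trans ?_
    exact sum_le_sum_of_subset_of_nonneg (range_subset_range.2 hT.le)
      fun l _ _ => sum_nonneg fun k _ => hnn l k
  have s2 : ∑ i ∈ range T, ∑ j ∈ range T', w i j ≤ β := by
    refine le_trans ((sum_le_sum fun l _ => sum_le_sum_of_subset_of_nonneg
      (range_subset_range.2 hT'.le) fun k _ _ => hw l k).trans ?_) hwβ
    exact sum_le_sum_of_subset_of_nonneg (range_subset_range.2 hT.le)
      fun l _ _ => sum_nonneg fun k _ => hw l k
  have := mul_le_mul_of_nonneg_left s1 (by linarith : 0 ≤ 2 * A T')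
  have := mul_le_mul_of_nonneg_left s2 (by linarith : 0 ≤ 4 * A T')
  linarith

/-- The uniform bound. -/
lemma le_two (hR : Renew I w0 w1 A h β n) : ∀ T < n, ∀ T' < n, I T T' ≤ 2 * A T' := by
  intro T
  induction T using Nat.strong_induction_on with
  | _ T ih =>
    intro hT T' hT'
    have hs := hR.step hR.w1_nonneg hR.w1_le hR.w1_sum hT hT'
      fun l hl k hk => ih l hl (by omega) k (by omega)
    have h1 := mul_le_mul_of_nonneg_left hs hR.hh
    have h2 := mul_le_mul_of_nonneg_right hR.hβ (hR.hA0 T')
    rw [hR.eqn]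
    linarith [hR.w0_le T T', hR.hA0 T']

/-- The bound for a form fed by the recursion. -/
lemma fed_le (hR : Renew I w0 w1 A h β n) {w : ℕ → ℕ → ℝ} (hw : ∀ i j, 0 ≤ w i j)
    (hwA : ∀ i j, w i j ≤ A j) (hwβ : ∑ i ∈ range n, ∑ j ∈ range n, w i j ≤ β) {T : ℕ}
    (hT : T < n) :
    ∑ i ∈ range T, ∑ j ∈ range T, w i j * I (T - 1 - i) (T - 1 - j) ≤ 8 * β * A T :=
  hR.step hw hwA hwβ hT hT fun l hl k hk => hR.le_two l (by omega) k (by omega)

end Renew

end Vale.Agent.P321.Super
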