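import Vale.Agent.P321.Super.BaseBinom
import Vale.Agent.P321.Super.BaseForm
import Mathlib.Tactic.NoncommRing

/-! The quadratic form of the defects of a power of the base period. -/

namespace Vale.Agent.P321.Super

open Finset Polynomial

/-- The surrogate of one period: `ℓ` whole slots and one slot present with probability `μ`. -/
noncomputable def perP (r μ : ℝ) (ℓ : ℕ) : ℝ[X] :=
  trial r ^ ℓ * (C (1 - μ) + C μ * trial r)

/-- The law of a gap of `n` slots and `g` periods. -/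
noncomputable def gapP (r μ : ℝ) (ℓ n g : ℕ) : ℝ[X] := trial r ^ n * perP r μ ℓ ^ g

variable {r μ : ℝ} {ℓ : ℕ}

lemma gap_succ (n g : ℕ) : gapP r μ ℓ n (g + 1)
    = C (1 - μ) * gapP r μ ℓ (n + ℓ) g + C μ * gapP r μ ℓ (n + ℓ + 1) g := by
  simp only [gapP, perP, pow_succ, pow_add]
  ring

lemma gap_zero (n : ℕ) : gapP r μ ℓ n 0 = trial r ^ n := by simp [gapP]

lemma coeff_gap_succ (n g k : ℕ) : (gapP r μ ℓ n (g + 1)).coeff k
    = (1 - μ) * (gapP r μ ℓ (n + ℓ) g).coeff k + μ * (gapP r μ ℓ (n + ℓ + 1) g).coeff k := by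
  rw [gap_succ, coeff_add, coeff_C_mul, coeff_C_mul]

variable (hr : 0 < r) (hr2 : r ≤ 1 / 2) (hμ0 : 0 ≤ μ) (hμ1 : μ ≤ 1)
include hr hr2 hμ0 hμ1

lemma gap_nonneg : ∀ g n k : ℕ, 0 ≤ (gapP r μ ℓ n g).coeff k
  | 0, n, k => by rw [gap_zero]; exact pmf_nonneg hr.le (by linarith) n k
  | g + 1, n, k => by
    rw [coeff_gap_succ]
    exact add_nonneg (mul_nonneg (by linarith) (gap_nonneg g _ k))
      (mul_nonneg hμ0 (gap_nonneg g _ k))

lemma gap_mass_le : ∀ g n N : ℕ, ∑ k ∈ range N, (gapP r μ ℓ n g).coeff k ≤ 1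
  | 0, n, N => by
    rw [gap_zero]
    exact (sum_le_sum_of_subset_of_nonneg (range_subset_range.2 (by omega : N ≤ n + N + 1))
      fun j _ _ => pmf_nonneg hr.le (by linarith) n j).trans (sum_pmf n _ (by omega)).le
  | g + 1, n, N => by
    simp only [coeff_gap_succ, sum_add_distrib, ← mul_sum]
    have h1 := mul_le_mul_of_nonneg_left (gap_mass_le g (n + ℓ) N) (show 0 ≤ 1 - μ by linarith)
    have h2 := mul_le_mul_of_nonneg_left (gap_mass_le g (n + ℓ + 1) N) hμ0
    linarith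

lemma gap_le : ∀ g n k : ℕ,
    (gapP r μ ℓ n g).coeff k ≤ 2 / Real.sqrt (r * (((n + g * ℓ : ℕ) : ℝ) + 1))
  | 0, n, k => by rw [gap_zero, zero_mul, add_zero]; exact pmf_le hr hr2 n k
  | g + 1, n, k => by
    rw [coeff_gap_succ]
    have mono : ∀ m m' : ℕ, m ≤ m' →
        2 / Real.sqrt (r * ((m' : ℝ) + 1)) ≤ 2 / Real.sqrt (r * ((m : ℝ) + 1)) := fun m m' h => by
      refine div_le_div_of_nonneg_left zero_le_two (by positivity) ?_
      gcongr
    have h1 := mul_le_mul_of_nonneg_left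
      ((gap_le g (n + ℓ) k).trans (mono (n + (g + 1) * ℓ) _ (by rw [add_mul]; omega)))
      (show 0 ≤ 1 - μ by linarith)
    have h2 := mul_le_mul_of_nonneg_left
      ((gap_le g (n + ℓ + 1) k).trans (mono (n + (g + 1) * ℓ) _ (by rw [add_mul]; omega))) hμ0
    linarith

/-- One outcome summed over the numbers of periods. -/
lemma sum_gap_le_window (hℓ : 1 ≤ ℓ) (k : ℕ) : ∀ T n M : ℕ, T * (ℓ + 1) ≤ M →
    ∑ g ∈ range T, (gapP r μ ℓ n g).coeff k
      ≤ ∑ i ∈ range M, (pmf r (n + i) k / ℓ + |pmf r (n + i + 1) k - pmf r (n + i) k|)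
  | 0, n, M, _ => by
    rw [sum_range_zero]
    exact sum_nonneg fun i _ => add_nonneg
      (div_nonneg (pmf_nonneg hr.le (by linarith) _ _) (by positivity)) (abs_nonneg _)
  | T + 1, n, M, hM => by
    set F := fun i : ℕ => pmf r i k / ℓ + |pmf r (i + 1) k - pmf r i k| with hF
    have hF0 : ∀ i, 0 ≤ F i := fun i => add_nonneg
      (div_nonneg (pmf_nonneg hr.le (by linarith) _ _) (by positivity)) (abs_nonneg _)
    rw [add_mul, one_mul] at hM
    obtain ⟨L, rfl⟩ : ∃ L, M = ℓ + L := ⟨M - ℓ, by omega⟩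
    rw [sum_range_succ', gap_zero, sum_range_add,
      show (∑ g ∈ range T, (gapP r μ ℓ n (g + 1)).coeff k)
        = (1 - μ) * ∑ g ∈ range T, (gapP r μ ℓ (n + ℓ) g).coeff k
          + μ * ∑ g ∈ range T, (gapP r μ ℓ (n + ℓ + 1) g).coeff k by
        simp only [coeff_gap_succ, sum_add_distrib, ← mul_sum]]
    change _ + pmf r n k ≤ _
    have a1 := sum_gap_le_window hℓ k T (n + ℓ) L (by omega)
    have a2 := (sum_gap_le_window hℓ k T (n + ℓ + 1) (L - 1) (by omega))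
    have e1 : ∑ i ∈ range (L - 1), F (n + ℓ + 1 + i) ≤ ∑ i ∈ range L, F (n + ℓ + i) := by
      rcases L with _ | L
      · simp
      · rw [Nat.add_sub_cancel, sum_range_succ']
        refine le_add_of_le_of_nonneg (le_of_eq (sum_congr rfl fun i _ => ?_)) (hF0 _)
        rw [show n + ℓ + (i + 1) = n + ℓ + 1 + i by omega]
    have e2 : pmf r n k ≤ ∑ i ∈ range ℓ, F (n + i) := by
      have tel : ∀ i, i < ℓ → pmf r n k
          ≤ pmf r (n + i) k + ∑ j ∈ range ℓ, |pmf r (n + j + 1) k - pmf r (n + j) k| := by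
        intro i hi
        have h1 := sum_range_sub (fun j => pmf r (n + j) k) i
        simp only [add_zero] at h1
        have h2 := sum_le_sum_of_subset_of_nonneg (f := fun j => |pmf r (n + j + 1) k - pmf r (n + j) k|)
          (range_subset_range.2 hi.le) fun j _ _ => abs_nonneg _
        have h3 := abs_sum_le_sum_abs (fun j => pmf r (n + j + 1) k - pmf r (n + j) k) (range i)
        rw [show ∑ j ∈ range i, (pmf r (n + j + 1) k - pmf r (n + j) k)
          = pmf r (n + i) k - pmf r n k from h1] at h3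
        linarith [neg_abs_le (pmf r (n + i) k - pmf r n k)]
      have h4 : ∑ _i ∈ range ℓ, pmf r n k ≤ ∑ i ∈ range ℓ, (pmf r (n + i) k
          + ∑ j ∈ range ℓ, |pmf r (n + j + 1) k - pmf r (n + j) k|) :=
        sum_le_sum fun i hi => tel i (mem_range.1 hi)
      have hl : (0 : ℝ) < ℓ := by exact_mod_cast hℓ
      simp only [sum_const, card_range, nsmul_eq_mul, sum_add_distrib] at h4
      simp only [hF, sum_add_distrib, ← sum_div]
      rw [div_add' _ _ _ hl.ne', le_div_iff₀ hl]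
      linarith
    have b1 := mul_le_mul_of_nonneg_left a1 (show 0 ≤ 1 - μ by linarith)
    have b2 := mul_le_mul_of_nonneg_left (a2.trans e1) hμ0
    simp only [hF, ← add_assoc] at b1 b2 e2 ⊢
    linarith

lemma sum_gap_le (hℓ : 1 ≤ ℓ) (k T n : ℕ) :
    ∑ g ∈ range T, (gapP r μ ℓ n g).coeff k ≤ 1 / (r * ℓ) + 2 * atomBd r k := by
  refine (sum_gap_le_window hr hr2 hμ0 hμ1 hℓ k T n _ le_rfl).trans ?_
  rw [sum_add_distrib, ← sum_div]
  refine add_le_add ?_ (sum_abs_pmf_le hr hr2 n k _)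
  rw [← div_div]
  exact div_le_div_of_nonneg_right (sum_range_pmf_le hr (by linarith) n k _) (by positivity)

lemma pairing_le : ∀ g n N : ℕ,
    ∑ k ∈ range N, (gapP r μ ℓ n g).coeff k * (1 / (r * ℓ) + 2 * atomBd r k)
      ≤ 1 / (r * ℓ) + 4 / (r * Real.sqrt (((n + g * ℓ : ℕ) : ℝ) + 1))
  | 0, n, N => by
    rw [gap_zero, zero_mul, add_zero]
    simp only [mul_add, sum_add_distrib]
    refine add_le_add ?_ ?_
    · rw [← sum_mul]
      refine mul_le_of_le_one_left (by positivity) ?_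
      have := gap_mass_le (ℓ := ℓ) hr hr2 hμ0 hμ1 0 n N
      rwa [gap_zero] at this
    · have e : ∀ k : ℕ, (trial r ^ n).coeff k * (2 * atomBd r k)
          = 4 / Real.sqrt r * (pmf r n k / Real.sqrt ((k : ℝ) + 1)) := fun k => by
        rw [atomBd, Real.sqrt_mul hr.le, pmf]
        ring
      rw [sum_congr rfl fun k _ => e k, ← mul_sum]
      refine (mul_le_mul_of_nonneg_left (sum_pmf_div_sqrt_le hr (by linarith) n N)
        (by positivity)).trans (le_of_eq ?_)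
      rw [Real.sqrt_mul hr.le, div_mul_div_comm, mul_one, ← mul_assoc, Real.mul_self_sqrt hr.le]
  | g + 1, n, N => by
    simp only [coeff_gap_succ, add_mul, sum_add_distrib, mul_assoc, ← mul_sum]
    have mono : ∀ m m' : ℕ, m ≤ m' →
        4 / (r * Real.sqrt ((m' : ℝ) + 1)) ≤ 4 / (r * Real.sqrt ((m : ℝ) + 1)) := fun m m' h => by
      refine div_le_div_of_nonneg_left (by norm_num) (by positivity) ?_
      gcongr
    have h1 := mul_le_mul_of_nonneg_left ((pairing_le g (n + ℓ) N).trans (add_le_add le_rfl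
      (mono (n + (g + 1) * ℓ) _ (by rw [add_mul]; omega)))) (show 0 ≤ 1 - μ by linarith)
    have h2 := mul_le_mul_of_nonneg_left ((pairing_le g (n + ℓ + 1) N).trans (add_le_add le_rfl
      (mono (n + (g + 1) * ℓ) _ (by rw [add_mul]; omega)))) hμ0
    simp only [add_mul, one_mul] at h1 h2 ⊢
    linarith

lemma dot_gap_nonneg (n m i j : ℕ) : 0 ≤ dot (gapP r μ ℓ n i) (gapP r μ ℓ m j) := by
  rw [dot_eq_sum (Nat.lt_succ_self _)]
  exact sum_nonneg fun k _ => mul_nonneg (gap_nonneg hr hr2 hμ0 hμ1 _ _ _)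
    (gap_nonneg hr hr2 hμ0 hμ1 _ _ _)

lemma dot_gap_le {a : ℕ} (n m i j : ℕ) (hm : a ≤ m) :
    dot (gapP r μ ℓ n i) (gapP r μ ℓ m j)
      ≤ 2 / Real.sqrt (r * (((a + j * ℓ : ℕ) : ℝ) + 1)) := by
  rw [dot_eq_sum (Nat.lt_succ_self _)]
  have hle : ∀ k, (gapP r μ ℓ m j).coeff k
      ≤ 2 / Real.sqrt (r * (((a + j * ℓ : ℕ) : ℝ) + 1)) := fun k => by
    refine (gap_le hr hr2 hμ0 hμ1 j m k).trans (div_le_div_of_nonneg_left zero_le_two
      (by positivity) ?_)
    gcongr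
  refine (sum_le_sum fun k _ => mul_le_mul_of_nonneg_left (hle k)
    (gap_nonneg hr hr2 hμ0 hμ1 _ _ _)).trans ?_
  · rw [← sum_mul]
    exact mul_le_of_le_one_left (by positivity) (gap_mass_le hr hr2 hμ0 hμ1 _ _ _)

lemma sum_dot_gap_le {a : ℕ} (hℓ : ℓ = 2 * a + 1) (n : ℕ) (hn : a ≤ n) {N : ℕ} {ρ : ℝ}
    (hρ : 1 ≤ ρ) (hN : (N : ℝ) ≤ ρ * ℓ) :
    ∑ i ∈ range N, ∑ j ∈ range N, dot (gapP r μ ℓ n i) (gapP r μ ℓ n j) ≤ 13 * ρ / r := by
  have hℓ1 : 1 ≤ ℓ := by omega
  have hl : (0 : ℝ) < ℓ := by exact_mod_cast hℓ1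
  have hsr : ∀ M : ℕ, ∑ i ∈ range M, 1 / Real.sqrt ((i : ℝ) + 1) ≤ 2 * Real.sqrt M := by
    intro M
    induction M with
    | zero => simp
    | succ M ih =>
      rw [sum_range_succ, Nat.cast_succ]
      have h1 : (0 : ℝ) < M + 1 := by positivity
      have h2 := Real.mul_self_sqrt h1.le
      have h3 := Real.mul_self_sqrt (Nat.cast_nonneg (α := ℝ) M)
      have h4 := Real.sqrt_pos.2 h1
      have h5 : Real.sqrt M ≤ Real.sqrt (M + 1) := Real.sqrt_le_sqrt (by linarith)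
      have h6 : 1 / Real.sqrt (M + 1) ≤ 2 * (Real.sqrt (M + 1) - Real.sqrt M) := by
        rw [div_le_iff₀ h4]
        nlinarith [Real.sqrt_nonneg (M : ℝ)]
      linarith
  have key : ∀ i ∈ range N, ∑ j ∈ range N, dot (gapP r μ ℓ n i) (gapP r μ ℓ n j)
      ≤ 1 / (r * ℓ) + 6 / (r * Real.sqrt ℓ) * (1 / Real.sqrt ((i : ℝ) + 1)) := by
    intro i _
    rw [sum_congr rfl fun j _ => dot_eq_sum (Nat.lt_succ_self _), sum_comm,
      sum_congr rfl fun k _ => (mul_sum _ _ _).symm]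
    refine (sum_le_sum fun k _ => mul_le_mul_of_nonneg_left
      (sum_gap_le hr hr2 hμ0 hμ1 hℓ1 k N n) (gap_nonneg hr hr2 hμ0 hμ1 _ _ _)).trans ?_
    refine (pairing_le hr hr2 hμ0 hμ1 i n _).trans (add_le_add le_rfl ?_)
    have hge : ((i : ℝ) + 1) * ℓ ≤ 2 * (((n + i * ℓ : ℕ) : ℝ) + 1) := by
      have e1 : (ℓ : ℝ) = 2 * a + 1 := by exact_mod_cast hℓ
      have e2 : (a : ℝ) ≤ n := by exact_mod_cast hn
      have e3 : (0 : ℝ) ≤ (i : ℝ) * ℓ := by positivity
      push_cast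
      linarith
    have hs : Real.sqrt ℓ * Real.sqrt ((i : ℝ) + 1)
        ≤ 3 / 2 * Real.sqrt (((n + i * ℓ : ℕ) : ℝ) + 1) := by
      rw [← Real.sqrt_mul hl.le, Real.sqrt_le_left (by positivity), mul_pow,
        Real.sq_sqrt (by positivity)]
      nlinarith
    rw [div_mul_div_comm, mul_one, mul_assoc,
      div_le_div_iff₀ (by positivity) (mul_pos hr (mul_pos (Real.sqrt_pos.2 hl) (by positivity)))]
    have := mul_le_mul_of_nonneg_left hs hr.le
    linarith
  refine (sum_le_sum key).trans ?_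
  rw [sum_add_distrib, sum_const, card_range, nsmul_eq_mul, ← mul_sum]
  have h1 := mul_le_mul_of_nonneg_left (hsr N) (show 0 ≤ 6 / (r * Real.sqrt ℓ) by positivity)
  have h2 : (N : ℝ) * (1 / (r * ℓ)) ≤ ρ / r := by
    rw [mul_one_div, div_le_div_iff₀ (by positivity) hr]
    have := mul_le_mul_of_nonneg_left hN hr.le
    linarith
  have h3 : Real.sqrt N ≤ ρ * Real.sqrt ℓ := by
    refine (Real.sqrt_le_sqrt hN).trans ?_
    rw [Real.sqrt_mul (by linarith)]
    exact mul_le_mul_of_nonneg_right (Real.sqrt_le_iff.2 ⟨by linarith, by nlinarith⟩)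
      (Real.sqrt_nonneg _)
  have h4 : 6 / (r * Real.sqrt ℓ) * (2 * Real.sqrt N) ≤ 12 * ρ / r := by
    refine (mul_le_mul_of_nonneg_left (mul_le_mul_of_nonneg_left h3 zero_le_two)
      (by positivity)).trans (le_of_eq ?_)
    have := Real.sqrt_pos.2 hl
    field_simp
    ring
  have h5 : 13 * ρ / r = ρ / r + 12 * ρ / r := by ring
  linarith

omit hr hr2 hμ0 hμ1

/-- The defects of a power of the base period. -/
noncomputable def defect (r μ : ℝ) (a T : ℕ) : Cf :=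
  (pl (perP r μ (2 * a + 1)) + pl (trial r ^ a) * ce * pl (trial r ^ (a + 1))) ^ T
    - pl (perP r μ (2 * a + 1)) ^ T

/-- First return expansion of a power of a sum. -/
lemma add_pow_first {R : Type*} [Ring R] (K e : R) : ∀ T : ℕ,
    (K + e) ^ T = K ^ T + ∑ i ∈ range T, K ^ i * e * (K + e) ^ (T - 1 - i)
  | 0 => by simp
  | T + 1 => by
    rw [pow_succ', add_mul, sum_range_succ']
    nth_rw 1 [add_pow_first K e T]
    simp only [mul_add, mul_sum, pow_succ', pow_zero, one_mul, Nat.sub_zero, Nat.add_sub_cancel,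
      mul_assoc, Nat.sub_add_eq, Nat.sub_right_comm]
    abel

include hr hr2 hμ0 hμ1

lemma qf_defect_le {h ρ : ℝ} (hh : 0 ≤ h) (hρ : 1 ≤ ρ) {a N T : ℕ} (hT : T < N)
    (hN : (N : ℝ) ≤ ρ * (2 * a + 1)) (hsmall : h * (13 * ρ / r) ≤ 1 / 8) :
    qf h (defect r μ a T)
      ≤ 8 * (h * (13 * ρ / r)) * (2 / Real.sqrt (r * (((a + T * (2 * a + 1) : ℕ) : ℝ) + 1))) := by
  set ℓ := 2 * a + 1 with hℓ
  set K := pl (perP r μ ℓ)
  set e := pl (trial r ^ a) * ce * pl (trial r ^ (a + 1))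
  set G := fun T => pl (trial r ^ (a + 1)) * (K + e) ^ T
  have hpl : ∀ n g, pl (trial r ^ n) * K ^ g = pl (gapP r μ ℓ n g) := fun n g => by
    simp only [pl, K, gapP, map_mul, map_pow]
  have hG : ∀ T, G T = pl (gapP r μ ℓ (a + 1) T)
      + ∑ i ∈ range T, pl (gapP r μ ℓ (2 * a + 1) i) * ce * G (T - 1 - i) := fun T => by
    simp only [G]
    rw [add_pow_first, mul_add, hpl, mul_sum]
    refine congrArg _ (sum_congr rfl fun i _ => ?_)
    have : pl (gapP r μ ℓ (2 * a + 1) i) = pl (trial r ^ (a + 1)) * K ^ i * pl (trial r ^ a) := by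
      simp only [pl, K, gapP, ← map_pow, ← map_mul]
      congr 1
      ring
    simp only [e, this, mul_assoc]
  have hD : defect r μ a T = ∑ i ∈ range T, pl (gapP r μ ℓ a i) * ce * G (T - 1 - i) := by
    rw [defect, add_pow_first, add_sub_cancel_left]
    refine sum_congr rfl fun i _ => ?_
    have : pl (gapP r μ ℓ a i) = K ^ i * pl (trial r ^ a) := by
      simp only [pl, K, gapP, ← map_pow, ← map_mul]
      congr 1
      ring
    simp only [G, e, this, mul_assoc, ← hℓ]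
    rfl
  have hN' : (N : ℝ) ≤ ρ * (ℓ : ℝ) := by rw [hℓ]; push_cast; exact hN
  have hR : Renew (fun T T' => ip h (G T) (G T'))
      (fun i j => dot (gapP r μ ℓ (a + 1) i) (gapP r μ ℓ (a + 1) j))
      (fun i j => dot (gapP r μ ℓ (2 * a + 1) i) (gapP r μ ℓ (2 * a + 1) j))
      (fun j => 2 / Real.sqrt (r * (((a + j * ℓ : ℕ) : ℝ) + 1))) h (13 * ρ / r) N := by
    refine ⟨hh, hsmall, fun j T hj => ?_, fun j => by positivity,
      fun i j => dot_gap_nonneg hr hr2 hμ0 hμ1 _ _ _ _,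
      fun i j => dot_gap_nonneg hr hr2 hμ0 hμ1 _ _ _ _,
      fun i j => dot_gap_le hr hr2 hμ0 hμ1 _ _ _ _ (by omega),
      fun i j => dot_gap_le hr hr2 hμ0 hμ1 _ _ _ _ (by omega),
      sum_dot_gap_le hr hr2 hμ0 hμ1 hℓ _ (by omega) hρ hN',
      sum_dot_gap_le hr hr2 hμ0 hμ1 hℓ _ (by omega) hρ hN', fun T T' => ?_⟩
    · have hnat : T * ℓ + a + 1 ≤ 4 * (a + j * ℓ + 1) := by
        have h1 := Nat.mul_le_mul_right ℓ hj
        rw [add_mul, one_mul, mul_assoc] at h1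
        omega
      have hc : r * (((a + T * ℓ : ℕ) : ℝ) + 1) ≤ 2 ^ 2 * (r * (((a + j * ℓ : ℕ) : ℝ) + 1)) := by
        have h2 : (((a + T * ℓ : ℕ) : ℝ) + 1) ≤ 4 * (((a + j * ℓ : ℕ) : ℝ) + 1) := by
          exact_mod_cast (show a + T * ℓ + 1 ≤ 4 * (a + j * ℓ + 1) by omega)
        have := mul_le_mul_of_nonneg_left h2 hr.le
        linarith
      have h3 := Real.sqrt_le_sqrt hc
      rw [Real.sqrt_mul (show (0 : ℝ) ≤ 2 ^ 2 by norm_num), Real.sqrt_sq zero_le_two] at h3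
      rw [← mul_div_assoc, div_le_div_iff₀ (by positivity) (by positivity)]
      linarith
    · show ip h (G T) (G T') = _
      rw [hG T, hG T', ip_add_left, ip_add_right, ip_add_right, ip_pl_pl, ip_sum_right,
        ip_sum_left, ip_sum_left,
        sum_eq_zero fun i _ => (ip_pl_cross _ _ _).1, sum_eq_zero fun i _ => (ip_pl_cross _ _ _).2,
        add_zero, zero_add, mul_sum]
      refine congrArg _ (sum_congr rfl fun i _ => ?_)
      rw [ip_sum_right, mul_sum]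
      refine sum_congr rfl fun j _ => ?_
      rw [ip_mul]
      ring
  have hfed := hR.fed_le (w := fun i j => dot (gapP r μ ℓ a i) (gapP r μ ℓ a j))
    (fun i j => dot_gap_nonneg hr hr2 hμ0 hμ1 _ _ _ _)
    (fun i j => dot_gap_le hr hr2 hμ0 hμ1 _ _ _ _ le_rfl)
    (sum_dot_gap_le hr hr2 hμ0 hμ1 hℓ _ le_rfl hρ hN') hT
  rw [qf_eq_ip, hD, ip_sum_left]
  refine le_trans (le_of_eq ?_) ((mul_le_mul_of_nonneg_left hfed hh).trans (le_of_eq (by ring)))
  rw [mul_sum]
  refine sum_congr rfl fun i _ => ?_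
  rw [ip_sum_right, mul_sum]
  refine sum_congr rfl fun j _ => ?_
  rw [ip_mul]
  ring

end Vale.Agent.P321.Super
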