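import Vale.Agent.P321.Super.BaseShift
import Vale.Agent.P321.Super.BaseGap

/-! Atoms of binomial laws and of the gaps of the base period, at every success probability in
`(0, 1)`. -/

namespace Vale.Agent.P321.Super

open Finset Polynomial

/-- The constant in the bound on the atoms. -/
noncomputable def Bd (r : ℝ) : ℝ := 1 / (r * Real.sqrt (1 - r))

variable {r : ℝ}

lemma Bd_pos (hr : 0 < r) (hr1 : r < 1) : 0 < Bd r :=
  div_pos one_pos (mul_pos hr (Real.sqrt_pos.2 (by linarith)))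

/-- The atoms of a binomial law. -/
lemma pmf_le_Bd (hr : 0 < r) (hr1 : r < 1) (n k : ℕ) :
    pmf r n k ≤ Bd r / Real.sqrt ((n : ℝ) + 1) := by
  have key : ∀ j : ℕ, r * (pmf r n j - pmf r n (j + 1)) = pmf r (n + 1) (j + 1) - pmf r n (j + 1) :=
    fun j => by rw [pmf_succ_succ]; ring
  set N := n + k + 2
  have tel := sum_range_sub' (fun j => pmf r n (k + j)) (n + 1)
  rw [pmf_eq_zero (show n < k + (n + 1) by omega), sub_zero, add_zero] at tel
  have h1 : r * pmf r n k ≤ ∑ j ∈ range (N + 1), |pmf r (n + 1) j - pmf r n j| := by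
    rw [← tel, mul_sum]
    refine (le_abs_self _).trans ((abs_sum_le_sum_abs _ _).trans ?_)
    rw [← sum_image (f := fun j => |pmf r (n + 1) j - pmf r n j|) (g := fun j => k + j + 1)
      (fun a _ b _ h => by simpa using h) |>.trans
      (sum_congr rfl fun j _ => by rw [← key, add_assoc])]
    refine sum_le_sum_of_subset_of_nonneg (fun j hj => ?_) fun j _ _ => abs_nonneg _
    obtain ⟨i, hi, rfl⟩ := mem_image.1 hj
    rw [mem_range] at hi ⊢
    omega
  have h2 : ∑ j ∈ range (N + 1), |pmf r (n + 1) j - pmf r n j|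
      ≤ Real.sqrt (r / ((1 - r) * ((n : ℝ) + 1))) :=
    Real.le_sqrt_of_sq_le (sum_abs_pmf_succ_le hr.le hr1 n (N + 1) (by omega))
  have h3 : Real.sqrt (r / ((1 - r) * ((n : ℝ) + 1)))
      ≤ 1 / Real.sqrt (1 - r) / Real.sqrt ((n : ℝ) + 1) := by
    rw [div_div, ← Real.sqrt_mul (by linarith : (0 : ℝ) ≤ 1 - r)]
    refine (Real.sqrt_le_sqrt (div_le_div_of_nonneg_right hr1.le ?_)).trans (le_of_eq ?_)
    · have : 0 ≤ 1 - r := by linarith
      positivity
    · rw [Real.sqrt_div zero_le_one, Real.sqrt_one]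
  calc pmf r n k = r * pmf r n k / r := by field_simp
    _ ≤ 1 / Real.sqrt (1 - r) / Real.sqrt ((n : ℝ) + 1) / r :=
        div_le_div_of_nonneg_right (h1.trans (h2.trans h3)) hr.le
    _ = _ := by rw [Bd]; ring

lemma pmf_le_outcome (hr : 0 < r) (hr1 : r < 1) (n k : ℕ) :
    pmf r n k ≤ Bd r / Real.sqrt ((k : ℝ) + 1) := by
  have := Bd_pos hr hr1
  rcases le_or_gt k n with h | h
  · refine (pmf_le_Bd hr hr1 n k).trans (div_le_div_of_nonneg_left this.le (by positivity) ?_)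
    gcongr
  · rw [pmf_eq_zero h]; positivity

/-- The variation of one outcome over the numbers of trials. -/
lemma sum_abs_pmf_le_Bd (hr : 0 < r) (hr1 : r < 1) (n k N : ℕ) :
    ∑ i ∈ range N, |pmf r (n + i + 1) k - pmf r (n + i) k|
      ≤ 2 * (Bd r / Real.sqrt ((k : ℝ) + 1)) := by
  set m := ⌊(k : ℝ) / r⌋₊
  have hnn : ∀ i, 0 ≤ pmf r i k := fun i => pmf_nonneg hr.le hr1.le i k
  have key : ∀ i : ℕ, (pmf r (i + 1) k - pmf r i k) * (((i : ℝ) + 1) * (1 - r))
      = pmf r (i + 1) k * ((k : ℝ) - ((i : ℝ) + 1) * r) := fun i => by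
    linear_combination pmf_ratio (r := r) i k
  have hu : ∀ i, i < m → pmf r i k ≤ pmf r (i + 1) k := fun i hi => by
    have h1 : ((i : ℝ) + 1) * r ≤ k := by
      rw [← le_div_iff₀ hr]
      calc ((i : ℝ) + 1) ≤ m := by exact_mod_cast hi
        _ ≤ k / r := Nat.floor_le (by positivity)
    have h2 := mul_nonneg (hnn (i + 1)) (sub_nonneg.2 h1)
    rw [← key] at h2
    exact sub_nonneg.1 (nonneg_of_mul_nonneg_left h2 (mul_pos (by positivity) (by linarith)))
  have hd : ∀ i, m ≤ i → pmf r (i + 1) k ≤ pmf r i k := fun i hi => by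
    have h1 : (k : ℝ) ≤ ((i : ℝ) + 1) * r := by
      rw [← div_le_iff₀ hr]
      calc (k : ℝ) / r ≤ m + 1 := (Nat.lt_floor_add_one _).le
        _ ≤ _ := by gcongr
    have h2 := mul_nonpos_of_nonneg_of_nonpos (hnn (i + 1)) (sub_nonpos.2 h1)
    rw [← key] at h2
    exact sub_nonpos.1 (nonpos_of_mul_nonpos_left h2 (mul_pos (by positivity) (by linarith)))
  have h := sum_abs_unimodal hnn hu hd (n + N)
  rw [sum_range_add] at h
  have h0 : 0 ≤ ∑ i ∈ range n, |pmf r (i + 1) k - pmf r i k| := sum_nonneg fun i _ => abs_nonneg _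
  have hM := fun i => pmf_le_outcome hr hr1 i k
  have hA : 0 ≤ Bd r / Real.sqrt ((k : ℝ) + 1) :=
    div_nonneg (Bd_pos hr hr1).le (Real.sqrt_nonneg _)
  split_ifs at h
  · linarith [hM (n + N)]
  · linarith [hM m, hnn (n + N)]

variable {μ : ℝ} {ℓ : ℕ} (hr : 0 < r) (hr1 : r < 1) (hμ0 : 0 ≤ μ) (hμ1 : μ ≤ 1)
include hr hr1 hμ0 hμ1

lemma gap_nonneg' : ∀ g n k : ℕ, 0 ≤ (gapP r μ ℓ n g).coeff k
  | 0, n, k => by rw [gap_zero]; exact pmf_nonneg hr.le hr1.le n k
  | g + 1, n, k => by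
    rw [coeff_gap_succ]
    exact add_nonneg (mul_nonneg (by linarith) (gap_nonneg' g _ k))
      (mul_nonneg hμ0 (gap_nonneg' g _ k))

omit hr hr1 hμ0 hμ1 in
lemma gap_mass : ∀ g n N : ℕ, n + g * (ℓ + 1) < N →
    ∑ k ∈ range N, (gapP r μ ℓ n g).coeff k = 1
  | 0, n, N, h => by rw [gap_zero]; exact sum_pmf n N (by omega)
  | g + 1, n, N, h => by
    simp only [coeff_gap_succ, sum_add_distrib, ← mul_sum]
    rw [add_mul, one_mul] at h
    rw [gap_mass g (n + ℓ) N (by omega), gap_mass g (n + ℓ + 1) N (by omega)]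
    ring

lemma gap_mass_le' : ∀ g n N : ℕ, ∑ k ∈ range N, (gapP r μ ℓ n g).coeff k ≤ 1 := fun g n N =>
  (sum_le_sum_of_subset_of_nonneg (range_subset_range.2 (by omega : N ≤ N + (n + g * (ℓ + 1)) + 1))
    fun j _ _ => gap_nonneg' hr hr1 hμ0 hμ1 g n j).trans
    (gap_mass g n _ (by omega)).le

lemma gap_le' : ∀ g n k : ℕ,
    (gapP r μ ℓ n g).coeff k ≤ Bd r / Real.sqrt (((n + g * ℓ : ℕ) : ℝ) + 1)
  | 0, n, k => by rw [gap_zero, zero_mul, add_zero]; exact pmf_le_Bd hr hr1 n k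
  | g + 1, n, k => by
    rw [coeff_gap_succ]
    have mono : ∀ m m' : ℕ, m ≤ m' →
        Bd r / Real.sqrt ((m' : ℝ) + 1) ≤ Bd r / Real.sqrt ((m : ℝ) + 1) := fun m m' h => by
      refine div_le_div_of_nonneg_left (Bd_pos hr hr1).le (by positivity) ?_
      gcongr
    have h1 := mul_le_mul_of_nonneg_left
      ((gap_le' g (n + ℓ) k).trans (mono (n + (g + 1) * ℓ) _ (by rw [add_mul]; omega)))
      (show 0 ≤ 1 - μ by linarith)
    have h2 := mul_le_mul_of_nonneg_left
      ((gap_le' g (n + ℓ + 1) k).trans (mono (n + (g + 1) * ℓ) _ (by rw [add_mul]; omega))) hμ0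
    linarith

/-- One outcome summed over the numbers of periods. -/
lemma sum_gap_le_window' (hℓ : 1 ≤ ℓ) (k : ℕ) : ∀ T n M : ℕ, T * (ℓ + 1) ≤ M →
    ∑ g ∈ range T, (gapP r μ ℓ n g).coeff k
      ≤ ∑ i ∈ range M, (pmf r (n + i) k / ℓ + |pmf r (n + i + 1) k - pmf r (n + i) k|)
  | 0, n, M, _ => by
    rw [sum_range_zero]
    exact sum_nonneg fun i _ => add_nonneg
      (div_nonneg (pmf_nonneg hr.le hr1.le _ _) (by positivity)) (abs_nonneg _)
  | T + 1, n, M, hM => by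
    set F := fun i : ℕ => pmf r i k / ℓ + |pmf r (i + 1) k - pmf r i k| with hF
    have hF0 : ∀ i, 0 ≤ F i := fun i => add_nonneg
      (div_nonneg (pmf_nonneg hr.le hr1.le _ _) (by positivity)) (abs_nonneg _)
    rw [add_mul, one_mul] at hM
    obtain ⟨L, rfl⟩ : ∃ L, M = ℓ + L := ⟨M - ℓ, by omega⟩
    rw [sum_range_succ', gap_zero, sum_range_add,
      show (∑ g ∈ range T, (gapP r μ ℓ n (g + 1)).coeff k)
        = (1 - μ) * ∑ g ∈ range T, (gapP r μ ℓ (n + ℓ) g).coeff k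
          + μ * ∑ g ∈ range T, (gapP r μ ℓ (n + ℓ + 1) g).coeff k by
        simp only [coeff_gap_succ, sum_add_distrib, ← mul_sum]]
    change _ + pmf r n k ≤ _
    have a1 := sum_gap_le_window' hℓ k T (n + ℓ) L (by omega)
    have a2 := (sum_gap_le_window' hℓ k T (n + ℓ + 1) (L - 1) (by omega))
    have e1 : ∑ i ∈ range (L - 1), F (n + ℓ + 1 + i) ≤ ∑ i ∈ range L, F (n + ℓ + i) := by
      rcases L with _ | L
      · simp
      · rw [Nat.add_sub_cancel, sum_range_succ']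
        refine le_add_of_le_of_nonneg (le_of_eq (sum_congr rfl fun i _ => ?_)) (hF0 _)
        rw [show n + ℓ + (i + 1) = n + ℓ + 1 + i by omega]
    have e2 : pmf r n k ≤ ∑ i ∈ range ℓ, F (n + i) := by
      have tel : ∀ i, i < ℓ → pmf r n k
          ≤ pmf r (n + i) k + ∑ j ∈ range ℓ, |pmf r (n + j + 1) k - pmf r (n + j) k| := by
        intro i hi
        have h1 := sum_range_sub (fun j => pmf r (n + j) k) i
        simp only [add_zero] at h1
        have h2 := sum_le_sum_of_subset_of_nonneg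
          (f := fun j => |pmf r (n + j + 1) k - pmf r (n + j) k|)
          (range_subset_range.2 hi.le) fun j _ _ => abs_nonneg _
        have h3 := abs_sum_le_sum_abs (fun j => pmf r (n + j + 1) k - pmf r (n + j) k) (range i)
        rw [show ∑ j ∈ range i, (pmf r (n + j + 1) k - pmf r (n + j) k)
          = pmf r (n + i) k - pmf r n k from h1] at h3
        linarith [neg_abs_le (pmf r (n + i) k - pmf r n k)]
      have h4 : ∑ _i ∈ range ℓ, pmf r n k ≤ ∑ i ∈ range ℓ, (pmf r (n + i) k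
          + ∑ j ∈ range ℓ, |pmf r (n + j + 1) k - pmf r (n + j) k|) :=
        sum_le_sum fun i hi => tel i (mem_range.1 hi)
      have hl : (0 : ℝ) < ℓ := by exact_mod_cast hℓ
      simp only [sum_const, card_range, nsmul_eq_mul, sum_add_distrib] at h4
      simp only [hF, sum_add_distrib, ← sum_div]
      rw [div_add' _ _ _ hl.ne', le_div_iff₀ hl]
      linarith
    have b1 := mul_le_mul_of_nonneg_left a1 (show 0 ≤ 1 - μ by linarith)
    have b2 := mul_le_mul_of_nonneg_left (a2.trans e1) hμ0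
    simp only [hF, ← add_assoc] at b1 b2 e2 ⊢
    linarith

lemma sum_gap_le' (hℓ : 1 ≤ ℓ) (k T n : ℕ) :
    ∑ g ∈ range T, (gapP r μ ℓ n g).coeff k
      ≤ 1 / (r * ℓ) + 2 * (Bd r / Real.sqrt ((k : ℝ) + 1)) := by
  refine (sum_gap_le_window' hr hr1 hμ0 hμ1 hℓ k T n _ le_rfl).trans ?_
  rw [sum_add_distrib, ← sum_div]
  refine add_le_add ?_ (sum_abs_pmf_le_Bd hr hr1 n k _)
  rw [← div_div]
  exact div_le_div_of_nonneg_right (sum_range_pmf_le hr hr1.le n k _) (by positivity)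

lemma pairing_le' : ∀ g n N : ℕ,
    ∑ k ∈ range N, (gapP r μ ℓ n g).coeff k * (1 / (r * ℓ) + 2 * (Bd r / Real.sqrt ((k : ℝ) + 1)))
      ≤ 1 / (r * ℓ) + 2 * Bd r / Real.sqrt r / Real.sqrt (((n + g * ℓ : ℕ) : ℝ) + 1)
  | 0, n, N => by
    rw [gap_zero, zero_mul, add_zero]
    simp only [mul_add, sum_add_distrib]
    refine add_le_add ?_ ?_
    · rw [← sum_mul]
      refine mul_le_of_le_one_left (by positivity) ?_
      have := gap_mass_le' (ℓ := ℓ) hr hr1 hμ0 hμ1 0 n N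
      rwa [gap_zero] at this
    · have e : ∀ k : ℕ, (trial r ^ n).coeff k * (2 * (Bd r / Real.sqrt ((k : ℝ) + 1)))
          = 2 * Bd r * (pmf r n k / Real.sqrt ((k : ℝ) + 1)) := fun k => by
        rw [pmf]; ring
      rw [sum_congr rfl fun k _ => e k, ← mul_sum]
      refine (mul_le_mul_of_nonneg_left (sum_pmf_div_sqrt_le hr hr1.le n N)
        (mul_nonneg zero_le_two (Bd_pos hr hr1).le)).trans (le_of_eq ?_)
      rw [Real.sqrt_mul hr.le]
      ring
  | g + 1, n, N => by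
    simp only [coeff_gap_succ, add_mul, sum_add_distrib, mul_assoc, ← mul_sum]
    have mono : ∀ m m' : ℕ, m ≤ m' → 2 * Bd r / Real.sqrt r / Real.sqrt ((m' : ℝ) + 1)
        ≤ 2 * Bd r / Real.sqrt r / Real.sqrt ((m : ℝ) + 1) := fun m m' h => by
      refine div_le_div_of_nonneg_left ?_ (by positivity) ?_
      · have := Bd_pos hr hr1; positivity
      · gcongr
    have h1 := mul_le_mul_of_nonneg_left ((pairing_le' g (n + ℓ) N).trans (add_le_add le_rfl
      (mono (n + (g + 1) * ℓ) _ (by rw [add_mul]; omega)))) (show 0 ≤ 1 - μ by linarith)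
    have h2 := mul_le_mul_of_nonneg_left ((pairing_le' g (n + ℓ + 1) N).trans (add_le_add le_rfl
      (mono (n + (g + 1) * ℓ) _ (by rw [add_mul]; omega)))) hμ0
    simp only [add_mul, one_mul] at h1 h2 ⊢
    linarith

lemma dot_gap_nonneg' (n m i j : ℕ) : 0 ≤ dot (gapP r μ ℓ n i) (gapP r μ ℓ m j) := by
  rw [dot_eq_sum (Nat.lt_succ_self _)]
  exact sum_nonneg fun k _ => mul_nonneg (gap_nonneg' hr hr1 hμ0 hμ1 _ _ _)
    (gap_nonneg' hr hr1 hμ0 hμ1 _ _ _)

lemma dot_gap_le' {a : ℕ} (n m i j : ℕ) (hm : a ≤ m) :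
    dot (gapP r μ ℓ n i) (gapP r μ ℓ m j)
      ≤ Bd r / Real.sqrt (((a + j * ℓ : ℕ) : ℝ) + 1) := by
  rw [dot_eq_sum (Nat.lt_succ_self _)]
  have hle : ∀ k, (gapP r μ ℓ m j).coeff k
      ≤ Bd r / Real.sqrt (((a + j * ℓ : ℕ) : ℝ) + 1) := fun k => by
    refine (gap_le' hr hr1 hμ0 hμ1 j m k).trans (div_le_div_of_nonneg_left (Bd_pos hr hr1).le
      (by positivity) ?_)
    gcongr
  refine (sum_le_sum fun k _ => mul_le_mul_of_nonneg_left (hle k)
    (gap_nonneg' hr hr1 hμ0 hμ1 _ _ _)).trans ?_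
  rw [← sum_mul]
  exact mul_le_of_le_one_left (div_nonneg (Bd_pos hr hr1).le (Real.sqrt_nonneg _))
    (gap_mass_le' hr hr1 hμ0 hμ1 _ _ _)

/-- The second moment of a gap about a point near its mean. -/
lemma gap_sq_le : ∀ (g n N : ℕ) (x D : ℝ), n + g * (ℓ + 1) < N →
    (∀ m : ℕ, n + g * ℓ ≤ m → m ≤ n + g * (ℓ + 1) → ((m : ℝ) * r - x) ^ 2 ≤ D) →
    ∑ k ∈ range N, (gapP r μ ℓ n g).coeff k * ((k : ℝ) - x) ^ 2
      ≤ ((n + g * (ℓ + 1) : ℕ) : ℝ) + D
  | 0, n, N, x, D, hN, hD => by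
    rw [gap_zero, zero_mul, add_zero]
    have e1 := sum_pmf (r := r) n N (by omega)
    have e2 := sum_mul_pmf (r := r) n N (by omega)
    have e3 := sum_sq_pmf (r := r) n N (by omega)
    have e : ∀ k : ℕ, (trial r ^ n).coeff k * ((k : ℝ) - x) ^ 2
        = ((k : ℝ) - n * r) ^ 2 * pmf r n k + (2 * ((n : ℝ) * r - x) * ((k : ℝ) * pmf r n k)
          + (x ^ 2 - ((n : ℝ) * r) ^ 2) * pmf r n k) := fun k => by
      rw [pmf]; ring
    rw [sum_congr rfl fun k _ => e k, sum_add_distrib, sum_add_distrib, ← mul_sum, ← mul_sum, e1,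
      e2, e3]
    have h1 := hD n (by simp) (by simp)
    have h2 : (n : ℝ) * (r * (1 - r)) ≤ n :=
      mul_le_of_le_one_right (Nat.cast_nonneg n) (by nlinarith)
    linarith
  | g + 1, n, N, x, D, hN, hD => by
    simp only [coeff_gap_succ, add_mul, sum_add_distrib, mul_assoc, ← mul_sum]
    simp only [add_mul, one_mul] at hN hD ⊢
    have h1 := mul_le_mul_of_nonneg_left (gap_sq_le g (n + ℓ) N x D (by omega)
      fun m g1 g2 => hD m (by omega) (by omega)) (show 0 ≤ 1 - μ by linarith)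
    have h2 := mul_le_mul_of_nonneg_left (gap_sq_le g (n + ℓ + 1) N x D (by omega)
      fun m g1 g2 => hD m (by omega) (by omega)) hμ0
    push_cast at h1 h2 ⊢
    nlinarith

end Vale.Agent.P321.Super
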