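import Vale.Agent.P321.Super.AllBinom
import Mathlib.Analysis.SpecialFunctions.Exp

/-! The quadratic form of the defects of a power of the base period, at every weight. -/

namespace Vale.Agent.P321.Super

open Finset Polynomial

lemma sum_geom_tilt (M : ℕ) : ∀ N : ℕ,
    ∑ i ∈ range N, ((M : ℝ) / (M + 1)) ^ i ≤ (M : ℝ) + 1 := by
  intro N
  have h := geom_sum_mul_neg ((M : ℝ) / (M + 1)) N
  have e : 1 - (M : ℝ) / (M + 1) = 1 / (M + 1) := by field_simp; ring
  rw [e, mul_one_div, div_eq_iff (by positivity)] at h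
  rw [h]
  refine mul_le_of_le_one_left (by positivity) ?_
  have : (0 : ℝ) ≤ ((M : ℝ) / (M + 1)) ^ N := by positivity
  linarith

lemma sum_inv_sqrt_succ_le : ∀ M : ℕ,
    ∑ i ∈ range M, 1 / Real.sqrt ((i : ℝ) + 1) ≤ 2 * Real.sqrt M
  | 0 => by simp
  | M + 1 => by
    rw [sum_range_succ, Nat.cast_succ]
    have ih := sum_inv_sqrt_succ_le M
    have h1 : (0 : ℝ) < M + 1 := by positivity
    have h2 := Real.mul_self_sqrt h1.le
    have h3 := Real.mul_self_sqrt (Nat.cast_nonneg (α := ℝ) M)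
    have h4 := Real.sqrt_pos.2 h1
    have h5 : Real.sqrt M ≤ Real.sqrt (M + 1) := Real.sqrt_le_sqrt (by linarith)
    have h6 : 1 / Real.sqrt (M + 1) ≤ 2 * (Real.sqrt (M + 1) - Real.sqrt M) := by
      rw [div_le_iff₀ h4]
      nlinarith [Real.sqrt_nonneg (M : ℝ)]
    linarith

lemma sum_tilt_div_sqrt_le (M N : ℕ) :
    ∑ i ∈ range N, ((M : ℝ) / (M + 1)) ^ i * (1 / Real.sqrt ((i : ℝ) + 1))
      ≤ 3 * Real.sqrt ((M : ℝ) + 1) := by
  have hθ0 : (0 : ℝ) ≤ (M : ℝ) / (M + 1) := by positivity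
  have hθ1 : (M : ℝ) / (M + 1) ≤ 1 := by rw [div_le_one (by positivity)]; linarith
  refine (sum_le_sum_of_subset_of_nonneg
    (range_subset_range.2 (by omega : N ≤ (M + 1) + N)) fun i _ _ => by positivity).trans ?_
  rw [sum_range_add]
  have h1 : ∑ i ∈ range (M + 1), ((M : ℝ) / (M + 1)) ^ i * (1 / Real.sqrt ((i : ℝ) + 1))
      ≤ 2 * Real.sqrt ((M : ℝ) + 1) := by
    refine (sum_le_sum fun i _ => ?_).trans ((sum_inv_sqrt_succ_le (M + 1)).trans_eq (by push_cast; rfl))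
    exact mul_le_of_le_one_left (by positivity) (pow_le_one₀ hθ0 hθ1)
  have h2 : ∑ i ∈ range N, ((M : ℝ) / (M + 1)) ^ (M + 1 + i)
      * (1 / Real.sqrt (((M + 1 + i : ℕ) : ℝ) + 1)) ≤ Real.sqrt ((M : ℝ) + 1) := by
    calc _ ≤ ∑ i ∈ range N, ((M : ℝ) / (M + 1)) ^ i * (1 / Real.sqrt ((M : ℝ) + 1)) := by
          refine sum_le_sum fun i _ => mul_le_mul (pow_le_pow_of_le_one hθ0 hθ1 (by omega)) ?_
            (by positivity) (by positivity)
          refine one_div_le_one_div_of_le (by positivity) (Real.sqrt_le_sqrt ?_)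
          push_cast
          linarith [(Nat.cast_nonneg i : (0 : ℝ) ≤ i)]
      _ ≤ ((M : ℝ) + 1) * (1 / Real.sqrt ((M : ℝ) + 1)) := by
          rw [← sum_mul]
          exact mul_le_mul_of_nonneg_right (sum_geom_tilt M N) (by positivity)
      _ = _ := by rw [mul_one_div, Real.div_sqrt]
  linarith

variable {r μ : ℝ} (hr : 0 < r) (hr1 : r < 1) (hμ0 : 0 ≤ μ) (hμ1 : μ ≤ 1)
include hr hr1 hμ0 hμ1

lemma sum_tilt_dot_le {a ℓ P M : ℕ} (hℓ : ℓ = 2 * a + 1) (n : ℕ) (hn : a ≤ n) (hP : 0 < P)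
    (hM : (M + 1) * P ≤ 2 * ℓ) (N : ℕ) :
    ∑ i ∈ range N, ∑ j ∈ range N, ((M : ℝ) / (M + 1)) ^ i * ((M : ℝ) / (M + 1)) ^ j
        * dot (gapP r μ ℓ n i) (gapP r μ ℓ n j)
      ≤ 2 / (r * P) + 13 * Bd r / Real.sqrt r / Real.sqrt P := by
  set θ := (M : ℝ) / (M + 1) with hθ
  have hθ0 : 0 ≤ θ := by positivity
  have hθ1 : θ ≤ 1 := by rw [hθ, div_le_one (by positivity)]; linarith
  have hℓ1 : 1 ≤ ℓ := by omega
  have hl : (0 : ℝ) < ℓ := by exact_mod_cast hℓ1
  have hB := Bd_pos hr hr1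
  set C1 := 3 * Bd r / Real.sqrt r / Real.sqrt ℓ with hC1
  have hC10 : 0 ≤ C1 := by positivity
  have key : ∀ i ∈ range N, ∑ j ∈ range N, θ ^ i * θ ^ j * dot (gapP r μ ℓ n i) (gapP r μ ℓ n j)
      ≤ θ ^ i * (1 / (r * ℓ)) + C1 * (θ ^ i * (1 / Real.sqrt ((i : ℝ) + 1))) := by
    intro i _
    calc ∑ j ∈ range N, θ ^ i * θ ^ j * dot (gapP r μ ℓ n i) (gapP r μ ℓ n j)
        ≤ θ ^ i * ∑ j ∈ range N, dot (gapP r μ ℓ n i) (gapP r μ ℓ n j) := by
          rw [mul_sum]
          exact sum_le_sum fun j _ => mul_le_mul_of_nonneg_right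
            (mul_le_of_le_one_right (pow_nonneg hθ0 _) (pow_le_one₀ hθ0 hθ1))
            (dot_gap_nonneg' hr hr1 hμ0 hμ1 _ _ _ _)
      _ ≤ θ ^ i * (1 / (r * ℓ) + C1 * (1 / Real.sqrt ((i : ℝ) + 1))) := by
          refine mul_le_mul_of_nonneg_left ?_ (pow_nonneg hθ0 _)
          rw [sum_congr rfl fun j _ => dot_eq_sum (Nat.lt_succ_self _), sum_comm,
            sum_congr rfl fun k _ => (mul_sum _ _ _).symm]
          refine (sum_le_sum fun k _ => mul_le_mul_of_nonneg_left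
            (sum_gap_le' hr hr1 hμ0 hμ1 hℓ1 k N n) (gap_nonneg' hr hr1 hμ0 hμ1 _ _ _)).trans ?_
          refine (pairing_le' hr hr1 hμ0 hμ1 i n _).trans (add_le_add le_rfl ?_)
          have hge : ((i : ℝ) + 1) * ℓ ≤ 2 * (((n + i * ℓ : ℕ) : ℝ) + 1) := by
            have e1 : (ℓ : ℝ) = 2 * a + 1 := by exact_mod_cast hℓ
            have e2 : (a : ℝ) ≤ n := by exact_mod_cast hn
            have e3 : (0 : ℝ) ≤ (i : ℝ) * ℓ := by positivity
            push_cast
            linarith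
          have hs : Real.sqrt ℓ * Real.sqrt ((i : ℝ) + 1)
              ≤ 3 / 2 * Real.sqrt (((n + i * ℓ : ℕ) : ℝ) + 1) := by
            rw [← Real.sqrt_mul hl.le, Real.sqrt_le_left (by positivity), mul_pow,
              Real.sq_sqrt (by positivity)]
            nlinarith
          rw [show C1 * (1 / Real.sqrt ((i : ℝ) + 1))
            = 2 * Bd r / Real.sqrt r * ((3 / 2) / (Real.sqrt ℓ * Real.sqrt ((i : ℝ) + 1))) by
              rw [hC1]; ring, div_eq_mul_one_div (2 * Bd r / Real.sqrt r)]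
          refine mul_le_mul_of_nonneg_left ?_ (by positivity)
          rw [div_le_div_iff₀ (by positivity) (by positivity)]
          linarith
      _ = _ := by ring
  refine (sum_le_sum key).trans ?_
  rw [sum_add_distrib, ← sum_mul, ← mul_sum]
  have hMr : ((M : ℝ) + 1) * P ≤ 2 * ℓ := by exact_mod_cast hM
  have hP0 : (0 : ℝ) < P := by exact_mod_cast hP
  refine add_le_add ?_ ?_
  · refine (mul_le_mul_of_nonneg_right (sum_geom_tilt M N) (by positivity)).trans ?_
    rw [mul_one_div, div_le_div_iff₀ (by positivity) (by positivity)]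
    have := mul_le_mul_of_nonneg_left hMr hr.le
    linarith
  · refine (mul_le_mul_of_nonneg_left (sum_tilt_div_sqrt_le M N) hC10).trans ?_
    have h1 : Real.sqrt ((M : ℝ) + 1) * Real.sqrt P ≤ 13 / 9 * Real.sqrt ℓ := by
      rw [← Real.sqrt_mul (by positivity), Real.sqrt_le_left (by positivity), mul_pow,
        Real.sq_sqrt hl.le]
      linarith
    rw [hC1, div_mul_eq_mul_div, div_le_div_iff₀ (by positivity) (by positivity)]
    have := mul_le_mul_of_nonneg_left h1 (show 0 ≤ 9 * Bd r / Real.sqrt r by positivity)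
    calc 3 * Bd r / Real.sqrt r * (3 * Real.sqrt ((M : ℝ) + 1)) * Real.sqrt P
        = 9 * Bd r / Real.sqrt r * (Real.sqrt ((M : ℝ) + 1) * Real.sqrt P) := by ring
      _ ≤ _ := this
      _ = _ := by ring

/-- The defects have a form comparable to the atoms, at every weight. -/
theorem qf_defect_bound {h : ℝ} (hh : 0 ≤ h) (ρ : ℕ) :
    ∃ C : ℝ, 0 ≤ C ∧ ∃ a0 : ℕ, ∀ a : ℕ, a0 ≤ a → ∀ T : ℕ, T < (ρ + 1) * (2 * a + 1) →
      qf h (defect r μ a T) ≤ C / Real.sqrt (((a + T * (2 * a + 1) : ℕ) : ℝ) + 1) := by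
  have hB := Bd_pos hr hr1
  set c' := 2 / r + 13 * Bd r / Real.sqrt r with hc'
  have hc'0 : 0 ≤ c' := by positivity
  obtain ⟨k, hk⟩ := exists_nat_gt (8 * h * c')
  have hk0 : (0 : ℝ) < k := lt_of_le_of_lt (by positivity) hk
  set P := k * k with hPdef
  have hP : 0 < P := Nat.mul_pos (by exact_mod_cast hk0) (by exact_mod_cast hk0)
  set β := 2 / (r * P) + 13 * Bd r / Real.sqrt r / Real.sqrt P with hβdef
  have hβ : h * β ≤ 1 / 8 := by
    have h1 : β ≤ c' / k := by
      rw [hβdef, hc', hPdef, add_div]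
      push_cast
      rw [Real.sqrt_mul_self hk0.le]
      refine add_le_add ?_ le_rfl
      rw [div_div]
      refine div_le_div_of_nonneg_left zero_le_two (by positivity) ?_
      have : (1 : ℝ) ≤ k := by exact_mod_cast hk0
      have := mul_le_mul_of_nonneg_left (le_mul_of_one_le_left hk0.le this) hr.le
      linarith
    refine (mul_le_mul_of_nonneg_left h1 hh).trans ?_
    rw [mul_div_assoc', div_le_iff₀ hk0]
    linarith
  set E := 4 * P * (ρ + 1) with hE
  have hβ0 : 0 ≤ β := by rw [hβdef]; positivity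
  refine ⟨Real.exp E * (8 * (h * β) * Bd r), by positivity, P, fun a ha T hT => ?_⟩
  set ℓ := 2 * a + 1 with hℓ
  set M := ℓ / P with hMdef
  have hM1 : 1 ≤ M := by rw [hMdef, Nat.one_le_div_iff hP]; omega
  have hMP : M * P ≤ ℓ := Nat.div_mul_le_self ℓ P
  have hM : (M + 1) * P ≤ 2 * ℓ := by
    rw [add_mul, one_mul]; omega
  have hlM : ℓ ≤ 2 * (M * P) := by
    have h1 := Nat.lt_succ_iff.1 (Nat.lt_succ_of_lt (Nat.lt_div_mul_add hP (a := ℓ)))
    have h2 : P ≤ M * P := Nat.le_mul_of_pos_left P hM1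
    rw [← hMdef] at h1
    omega
  set N := T + 1
  have hNM : 2 * N ≤ E * M := by
    calc 2 * N ≤ 2 * ((ρ + 1) * ℓ) := Nat.mul_le_mul_left 2 (by omega)
      _ ≤ 2 * ((ρ + 1) * (2 * (M * P))) := by gcongr
      _ = E * M := by rw [hE]; ring
  set θ := (M : ℝ) / (M + 1) with hθ
  have hM0 : (0 : ℝ) < M := by exact_mod_cast hM1
  have hθ0 : 0 < θ := by positivity
  have hθ1 : θ ≤ 1 := by rw [hθ, div_le_one (by positivity)]; linarith
  have hθN : 1 ≤ Real.exp E * θ ^ (2 * N) := by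
    have h1 : (1 / θ) ^ (2 * N) ≤ Real.exp E := by
      calc (1 / θ) ^ (2 * N) ≤ (1 / θ) ^ (E * M) :=
            pow_le_pow_right₀ ((one_le_div hθ0).2 hθ1) hNM
        _ = ((1 / θ) ^ M) ^ E := by rw [← pow_mul, mul_comm]
        _ ≤ (Real.exp 1) ^ E := by
            refine pow_le_pow_left₀ (by positivity) ?_ E
            calc (1 / θ) ^ M = (1 + 1 / (M : ℝ)) ^ M := by rw [hθ]; field_simp
              _ ≤ Real.exp (1 / (M : ℝ)) ^ M := pow_le_pow_left₀ (by positivity)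
                  (by linarith [Real.add_one_le_exp (1 / (M : ℝ))]) M
              _ = Real.exp 1 := by rw [← Real.exp_nat_mul]; field_simp
        _ = Real.exp E := by rw [← Real.exp_nat_mul, mul_one]
    rwa [div_pow, one_pow, div_le_iff₀ (pow_pos hθ0 _)] at h1
  -- the expansion
  set K := pl (perP r μ ℓ)
  set e := pl (trial r ^ a) * ce * pl (trial r ^ (a + 1))
  set G := fun T => pl (trial r ^ (a + 1)) * (K + e) ^ T
  have hpl : ∀ n g, pl (trial r ^ n) * K ^ g = pl (gapP r μ ℓ n g) := fun n g => by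
    simp only [pl, K, gapP, map_mul, map_pow]
  have hG : ∀ T, G T = pl (gapP r μ ℓ (a + 1) T)
      + ∑ i ∈ range T, pl (gapP r μ ℓ (2 * a + 1) i) * ce * G (T - 1 - i) := fun T => by
    simp only [G]
    rw [add_pow_first, mul_add, hpl, mul_sum]
    refine congrArg _ (sum_congr rfl fun i _ => ?_)
    have : pl (gapP r μ ℓ (2 * a + 1) i) = pl (trial r ^ (a + 1)) * K ^ i * pl (trial r ^ a) := by
      simp only [pl, K, gapP, ← map_pow, ← map_mul]
      congr 1
      ring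
    simp only [e, this, mul_assoc]
  have hD : defect r μ a T = ∑ i ∈ range T, pl (gapP r μ ℓ a i) * ce * G (T - 1 - i) := by
    rw [defect, add_pow_first, add_sub_cancel_left]
    refine sum_congr rfl fun i _ => ?_
    have : pl (gapP r μ ℓ a i) = K ^ i * pl (trial r ^ a) := by
      simp only [pl, K, gapP, ← map_pow, ← map_mul]
      congr 1
      ring
    simp only [G, e, this, mul_assoc, ← hℓ]
    rfl
  set w := fun (n : ℕ) i j => dot (gapP r μ ℓ n i) (gapP r μ ℓ n j)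
  set wt' := fun (n : ℕ) i j => θ ^ i * θ ^ j * w n i j
  have wt0 : ∀ n i j, 0 ≤ wt' n i j := fun n i j =>
    mul_nonneg (by positivity) (dot_gap_nonneg' hr hr1 hμ0 hμ1 _ _ _ _)
  set A := fun j => Bd r / Real.sqrt (((a + j * ℓ : ℕ) : ℝ) + 1) with hA
  have wtA : ∀ n, a ≤ n → ∀ i j, wt' n i j ≤ A j := fun n hn i j =>
    (mul_le_of_le_one_left (dot_gap_nonneg' hr hr1 hμ0 hμ1 _ _ _ _)
      (mul_le_one₀ (pow_le_one₀ hθ0.le hθ1) (by positivity) (pow_le_one₀ hθ0.le hθ1))).trans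
      (dot_gap_le' hr hr1 hμ0 hμ1 _ _ _ _ hn)
  have wtS : ∀ n, a ≤ n → ∑ i ∈ range N, ∑ j ∈ range N, wt' n i j ≤ β := fun n hn =>
    sum_tilt_dot_le hr hr1 hμ0 hμ1 hℓ n hn hP hM N
  have hR : Renew (fun T T' => θ ^ T * θ ^ T' * ip h (G T) (G T')) (wt' (a + 1))
      (fun i j => θ ^ 2 * wt' (2 * a + 1) i j) A h β N := by
    refine ⟨hh, hβ, fun j T hj => ?_, fun j => div_nonneg hB.le (Real.sqrt_nonneg _),
      wt0 _, fun i j => mul_nonneg (sq_nonneg _) (wt0 _ _ _), wtA _ (by omega),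
      fun i j => (mul_le_of_le_one_left (wt0 _ _ _) (pow_le_one₀ hθ0.le hθ1)).trans
        (wtA _ (by omega) i j), wtS _ (by omega), ?_, fun T T' => ?_⟩
    · have hnat : T * ℓ + a + 1 ≤ 4 * (a + j * ℓ + 1) := by
        have h1 := Nat.mul_le_mul_right ℓ hj
        rw [add_mul, one_mul, mul_assoc] at h1
        omega
      have h2 : (((a + T * ℓ : ℕ) : ℝ) + 1) ≤ 2 ^ 2 * (((a + j * ℓ : ℕ) : ℝ) + 1) := by
        norm_num
        exact_mod_cast (show a + T * ℓ + 1 ≤ 4 * (a + j * ℓ + 1) by omega)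
      have h3 := Real.sqrt_le_sqrt h2
      rw [Real.sqrt_mul (show (0 : ℝ) ≤ 2 ^ 2 by norm_num), Real.sqrt_sq zero_le_two] at h3
      simp only [hA]
      rw [← mul_div_assoc, div_le_div_iff₀ (by positivity) (by positivity)]
      have := mul_le_mul_of_nonneg_left h3 hB.le
      linarith
    · refine le_trans (sum_le_sum fun i _ => sum_le_sum fun j _ => ?_) (wtS _ (by omega : a ≤ 2 * a + 1))
      exact mul_le_of_le_one_left (wt0 _ _ _) (pow_le_one₀ hθ0.le hθ1)
    · show θ ^ T * θ ^ T' * ip h (G T) (G T') = _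
      rw [hG T, hG T', ip_add_left, ip_add_right, ip_add_right, ip_pl_pl, ip_sum_right,
        ip_sum_left, ip_sum_left,
        sum_eq_zero fun i _ => (ip_pl_cross _ _ _).1, sum_eq_zero fun i _ => (ip_pl_cross _ _ _).2,
        add_zero, zero_add, mul_add, mul_sum, mul_sum]
      refine congrArg _ (sum_congr rfl fun i hi => ?_)
      rw [ip_sum_right, mul_sum, mul_sum]
      refine sum_congr rfl fun j hj => ?_
      rw [mem_range] at hi hj
      rw [ip_mul]
      simp only [wt', w]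
      rw [show θ ^ T = θ * θ ^ i * θ ^ (T - 1 - i) by
          rw [← pow_succ', ← pow_add]; congr 1; omega,
        show θ ^ T' = θ * θ ^ j * θ ^ (T' - 1 - j) by
          rw [← pow_succ', ← pow_add]; congr 1; omega]
      ring
  have hfed := hR.fed_le (w := wt' a) (wt0 _) (wtA _ le_rfl) (wtS _ le_rfl) (Nat.lt_succ_self T)
  rw [qf_eq_ip, hD, ip_sum_left]
  have hsum : ∑ i ∈ range T, ip h (pl (gapP r μ ℓ a i) * ce * G (T - 1 - i))
      (∑ j ∈ range T, pl (gapP r μ ℓ a j) * ce * G (T - 1 - j))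
      ≤ Real.exp E * (h * (8 * β * A T)) := by
    refine le_trans ?_ (mul_le_mul_of_nonneg_left (mul_le_mul_of_nonneg_left hfed hh)
      (Real.exp_pos _).le)
    rw [mul_sum, mul_sum]
    refine sum_le_sum fun i hi => ?_
    rw [ip_sum_right, mul_sum, mul_sum]
    refine sum_le_sum fun j hj => ?_
    rw [mem_range] at hi hj
    rw [ip_mul]
    set v := dot (gapP r μ ℓ a i) (gapP r μ ℓ a j) * (h * ip h (G (T - 1 - i)) (G (T - 1 - j)))
      with hv
    have hI : 0 ≤ ip h (G (T - 1 - i)) (G (T - 1 - j)) := by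
      have h1 := hR.nonneg (T - 1 - i) (T - 1 - j)
      exact nonneg_of_mul_nonneg_right h1 (by positivity)
    have hv0 : 0 ≤ v := mul_nonneg (dot_gap_nonneg' hr hr1 hμ0 hμ1 _ _ _ _) (mul_nonneg hh hI)
    have e : Real.exp E * (h * (wt' a i j * (θ ^ (T - 1 - i) * θ ^ (T - 1 - j)
        * ip h (G (T - 1 - i)) (G (T - 1 - j))))) = Real.exp E * θ ^ (2 * (T - 1)) * v := by
      simp only [wt', w, hv]
      rw [show θ ^ (2 * (T - 1)) = θ ^ i * θ ^ (T - 1 - i) * (θ ^ j * θ ^ (T - 1 - j)) by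
        rw [← pow_add, ← pow_add, ← pow_add]; congr 1; omega]
      ring
    rw [e]
    refine le_mul_of_one_le_left hv0 (hθN.trans (mul_le_mul_of_nonneg_left ?_ (Real.exp_pos _).le))
    exact pow_le_pow_of_le_one hθ0.le hθ1 (by omega)
  refine hsum.trans (le_of_eq ?_)
  simp only [hA]
  ring

end Vale.Agent.P321.Super
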