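import Mathlib.Algebra.Polynomial.Eval.Coeff
import Mathlib.Algebra.Order.BigOperators.Ring.Finset
import Mathlib.Algebra.BigOperators.Field
import Mathlib.Analysis.Real.Sqrt
import Mathlib.Data.Nat.Choose.Basic
import Mathlib.Tactic.FieldSimp
import Mathlib.Tactic.Positivity
import Mathlib.Tactic.LinearCombination

/-! Binomial laws as polynomials: atoms, sums over the number of trials, harmonic moments. -/

namespace Vale.Agent.P321.Super

open Finset Polynomial

/-- The generating polynomial of one trial with success probability `r`. -/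
noncomputable def trial (r : ℝ) : ℝ[X] := C (1 - r) + C r * X

/-- The binomial atom. -/
noncomputable def pmf (r : ℝ) (n k : ℕ) : ℝ := (trial r ^ n).coeff k

/-- The bound on the atoms. -/
noncomputable def atomBd (r : ℝ) (k : ℕ) : ℝ := 2 / Real.sqrt (r * ((k : ℝ) + 1))

variable {r : ℝ}

lemma pmf_zero (k : ℕ) : pmf r 0 k = if k = 0 then 1 else 0 := by
  simp [pmf, coeff_one]

lemma pmf_succ_zero (n : ℕ) : pmf r (n + 1) 0 = (1 - r) * pmf r n 0 := by
  simp [pmf, pow_succ, trial, mul_coeff_zero]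
  ring

lemma pmf_succ_succ (n k : ℕ) :
    pmf r (n + 1) (k + 1) = (1 - r) * pmf r n (k + 1) + r * pmf r n k := by
  rw [pmf, pow_succ', trial, add_mul, coeff_add, coeff_C_mul, mul_assoc, coeff_C_mul,
    coeff_X_mul]
  rfl

lemma pmf_eq_choose : ∀ n k : ℕ, pmf r n k = (n.choose k : ℝ) * r ^ k * (1 - r) ^ (n - k)
  | 0, 0 => by simp [pmf_zero]
  | 0, k + 1 => by simp [pmf_zero]
  | n + 1, 0 => by rw [pmf_succ_zero, pmf_eq_choose n 0]; simp [pow_succ']
  | n + 1, k + 1 => by
    rw [pmf_succ_succ, pmf_eq_choose n (k + 1), pmf_eq_choose n k, Nat.choose_succ_succ,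
      Nat.succ_sub_succ]
    rcases le_or_gt (k + 1) n with h | h
    · rw [show n - k = n - (k + 1) + 1 by omega]
      push_cast
      ring
    · rw [Nat.choose_eq_zero_of_lt h]
      push_cast
      ring

lemma pmf_nonneg (hr : 0 ≤ r) (hr1 : r ≤ 1) (n k : ℕ) : 0 ≤ pmf r n k := by
  rw [pmf_eq_choose]
  have : 0 ≤ 1 - r := by linarith
  positivity

lemma pmf_eq_zero {n k : ℕ} (h : n < k) : pmf r n k = 0 := by
  simp [pmf_eq_choose, Nat.choose_eq_zero_of_lt h]

lemma sum_pmf : ∀ n N : ℕ, n < N → ∑ k ∈ range N, pmf r n k = 1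
  | 0, N, h => by simp [pmf_zero, h]
  | n + 1, N, h => by
    obtain ⟨M, rfl⟩ : ∃ M, N = M + 1 := ⟨N - 1, by omega⟩
    have e1 := sum_pmf n M (by omega)
    have e2 := sum_pmf n (M + 1) (by omega)
    rw [sum_range_succ'] at e2
    rw [sum_range_succ', sum_congr rfl fun k _ => pmf_succ_succ n k, sum_add_distrib, ← mul_sum,
      ← mul_sum, e1, pmf_succ_zero]
    linear_combination (1 - r) * e2

lemma sum_mul_pmf : ∀ n N : ℕ, n < N → ∑ k ∈ range N, (k : ℝ) * pmf r n k = n * r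
  | 0, N, h => by simp [pmf_zero, h]
  | n + 1, N, h => by
    obtain ⟨M, rfl⟩ : ∃ M, N = M + 1 := ⟨N - 1, by omega⟩
    have e1 := sum_pmf (r := r) n M (by omega)
    have e2 := sum_mul_pmf n M (by omega)
    have e3 := sum_mul_pmf n (M + 1) (by omega)
    rw [sum_range_succ'] at e3
    simp only [Nat.cast_zero, zero_mul, add_zero] at e3
    rw [sum_range_succ']
    simp only [Nat.cast_zero, zero_mul, add_zero]
    have : ∀ k : ℕ, ((k + 1 : ℕ) : ℝ) * pmf r (n + 1) (k + 1) = (1 - r) * (((k + 1 : ℕ) : ℝ) *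
        pmf r n (k + 1)) + r * ((k : ℝ) * pmf r n k) + r * pmf r n k := fun k => by
      rw [pmf_succ_succ]; push_cast; ring
    rw [sum_congr rfl fun k _ => this k, sum_add_distrib, sum_add_distrib, ← mul_sum, ← mul_sum,
      ← mul_sum, e1, e2, e3]
    push_cast
    ring

lemma sum_sq_pmf : ∀ n N : ℕ, n < N →
    ∑ k ∈ range N, ((k : ℝ) - n * r) ^ 2 * pmf r n k = n * (r * (1 - r))
  | 0, N, h => by simp [pmf_zero, h]
  | n + 1, N, h => by
    obtain ⟨M, rfl⟩ : ∃ M, N = M + 1 := ⟨N - 1, by omega⟩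
    have e1 := sum_pmf (r := r) n (M + 1) (by omega)
    have e2 := sum_mul_pmf (r := r) n (M + 1) (by omega)
    have e3 := sum_sq_pmf n (M + 1) (by omega)
    have f1 := sum_pmf (r := r) n M (by omega)
    have f2 := sum_mul_pmf (r := r) n M (by omega)
    have f3 := sum_sq_pmf n M (by omega)
    have g1 : ∑ k ∈ range (M + 1), ((k : ℝ) - (n : ℝ) * r) * pmf r n k = 0 := by
      simp only [sub_mul, sum_sub_distrib, ← mul_sum, e1, e2]; ring
    have g2 : ∑ k ∈ range M, ((k : ℝ) - (n : ℝ) * r) * pmf r n k = 0 := by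
      simp only [sub_mul, sum_sub_distrib, ← mul_sum, f1, f2]; ring
    rw [sum_range_succ'] at e1 e3 g1
    rw [sum_range_succ']
    have : ∀ k : ℕ, (((k + 1 : ℕ) : ℝ) - ((n + 1 : ℕ) : ℝ) * r) ^ 2 * pmf r (n + 1) (k + 1) =
        (1 - r) * ((((k + 1 : ℕ) : ℝ) - n * r) ^ 2 * pmf r n (k + 1))
          - 2 * r * (1 - r) * ((((k + 1 : ℕ) : ℝ) - n * r) * pmf r n (k + 1))
          + (1 - r) * r ^ 2 * pmf r n (k + 1)
          + r * (((k : ℝ) - n * r) ^ 2 * pmf r n k)
          + 2 * r * (1 - r) * (((k : ℝ) - n * r) * pmf r n k)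
          + r * (1 - r) ^ 2 * pmf r n k := fun k => by
      rw [pmf_succ_succ]; push_cast; ring
    rw [sum_congr rfl fun k _ => this k, pmf_succ_zero]
    simp only [sum_add_distrib, sum_sub_distrib, ← mul_sum, f1, f3, g2]
    push_cast at e1 e3 g1 ⊢
    linear_combination (1 - r) * r ^ 2 * e1 + (1 - r) * e3 - 2 * r * (1 - r) * g1

/-- Consecutive laws through the ratio of their atoms. -/
lemma pmf_ratio (n k : ℕ) :
    pmf r (n + 1) k * ((n : ℝ) + 1 - k) = pmf r n k * (((n : ℝ) + 1) * (1 - r)) := by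
  rcases le_or_gt k n with h | h
  · rw [pmf_eq_choose, pmf_eq_choose, show n + 1 - k = n - k + 1 by omega]
    have e := Nat.choose_mul_succ_eq n k
    have e' : (n.choose k : ℝ) * ((n : ℝ) + 1) = ((n + 1).choose k : ℝ) * ((n : ℝ) + 1 - k) := by
      have := congrArg (fun m : ℕ => (m : ℝ)) e
      push_cast [Nat.cast_sub (show k ≤ n + 1 by omega)] at this
      exact this
    linear_combination -(r ^ k * (1 - r) ^ (n - k) * (1 - r)) * e'
  · rw [pmf_eq_zero h]
    rcases eq_or_ne k (n + 1) with rfl | hk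
    · push_cast; ring
    · rw [pmf_eq_zero (by omega)]; ring

/-- Two consecutive laws are close in total variation. -/
lemma sum_abs_diff_le (hr : 0 < r) (hr2 : r ≤ 1 / 2) (n N : ℕ) (hN : n + 1 < N) :
    ∑ k ∈ range N, |pmf r (n + 1) k - pmf r n k| ≤ 2 * Real.sqrt r / Real.sqrt ((n : ℝ) + 1) := by
  set D := ((n : ℝ) + 1) * (1 - r) with hD
  have hn : (0 : ℝ) < (n : ℝ) + 1 := by positivity
  have hD0 : 0 < D := mul_pos hn (by linarith)
  set f := fun k : ℕ => |(k : ℝ) - ((n : ℝ) + 1) * r| with hf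
  have e : ∀ k : ℕ, |pmf r (n + 1) k - pmf r n k| = f k * pmf r (n + 1) k / D := by
    intro k
    have h1 : pmf r n k = pmf r (n + 1) k * ((n : ℝ) + 1 - k) / D := by
      rw [pmf_ratio, hD, mul_div_assoc, div_self hD0.ne', mul_one]
    rw [h1, show pmf r (n + 1) k - pmf r (n + 1) k * ((n : ℝ) + 1 - k) / D
      = ((k : ℝ) - ((n : ℝ) + 1) * r) * pmf r (n + 1) k / D by field_simp; rw [hD]; ring,
      abs_div, abs_mul, abs_of_nonneg (pmf_nonneg hr.le (by linarith) _ _), abs_of_pos hD0]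
  rw [sum_congr rfl fun k _ => e k, ← sum_div]
  have hcs := sum_sq_le_sum_mul_sum_of_sq_le_mul (range N) (r := fun k => f k * pmf r (n + 1) k)
    (f := fun k => pmf r (n + 1) k)
    (g := fun k => ((k : ℝ) - ((n : ℝ) + 1) * r) ^ 2 * pmf r (n + 1) k)
    (fun k _ => pmf_nonneg hr.le (by linarith) _ _)
    (fun k _ => mul_nonneg (sq_nonneg _) (pmf_nonneg hr.le (by linarith) _ _))
    (fun k _ => le_of_eq (by simp only [hf]; rw [mul_pow, sq_abs]; ring))
  have hs := sum_sq_pmf (r := r) (n + 1) N hN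
  push_cast at hs
  rw [sum_pmf (n + 1) N hN, hs, one_mul] at hcs
  have h2 := Real.le_sqrt_of_sq_le hcs
  rw [div_le_iff₀ hD0]
  refine h2.trans ?_
  have hsr : 0 ≤ Real.sqrt r := Real.sqrt_nonneg r
  calc Real.sqrt (((n : ℝ) + 1) * (r * (1 - r))) ≤ Real.sqrt (((n : ℝ) + 1) * r) :=
        Real.sqrt_le_sqrt (mul_le_mul_of_nonneg_left
          (mul_le_of_le_one_right hr.le (by linarith)) hn.le)
    _ = Real.sqrt ((n : ℝ) + 1) * Real.sqrt r := Real.sqrt_mul hn.le r
    _ ≤ Real.sqrt r * Real.sqrt ((n : ℝ) + 1) * (2 * (1 - r)) := by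
        rw [mul_comm (Real.sqrt ((n : ℝ) + 1))]
        exact le_mul_of_one_le_right (by positivity) (by linarith)
    _ = 2 * Real.sqrt r / Real.sqrt ((n : ℝ) + 1) * D := by
        rw [hD]
        have : Real.sqrt ((n : ℝ) + 1) ≠ 0 := Real.sqrt_ne_zero'.2 hn
        field_simp
        rw [Real.sq_sqrt hn.le]

/-- The atoms of a binomial law. -/
lemma pmf_le (hr : 0 < r) (hr2 : r ≤ 1 / 2) (n k : ℕ) :
    pmf r n k ≤ 2 / Real.sqrt (r * ((n : ℝ) + 1)) := by
  have key : ∀ j : ℕ, r * (pmf r n j - pmf r n (j + 1)) = pmf r (n + 1) (j + 1) - pmf r n (j + 1) :=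
    fun j => by rw [pmf_succ_succ]; ring
  set N := n + k + 2
  have tel := sum_range_sub' (fun j => pmf r n (k + j)) (n + 1)
  rw [pmf_eq_zero (show n < k + (n + 1) by omega), sub_zero, add_zero] at tel
  have h1 : r * pmf r n k ≤ ∑ j ∈ range (N + 1), |pmf r (n + 1) j - pmf r n j| := by
    rw [← tel, mul_sum]
    refine (le_abs_self _).trans ((abs_sum_le_sum_abs _ _).trans ?_)
    rw [← sum_image (f := fun j => |pmf r (n + 1) j - pmf r n j|) (g := fun j => k + j + 1)
      (fun a _ b _ h => by simpa using h) |>.trans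
      (sum_congr rfl fun j _ => by rw [← key, add_assoc])]
    refine sum_le_sum_of_subset_of_nonneg (fun j hj => ?_) fun j _ _ => abs_nonneg _
    obtain ⟨i, hi, rfl⟩ := mem_image.1 hj
    rw [mem_range] at hi ⊢
    omega
  have h2 := h1.trans (sum_abs_diff_le hr hr2 n (N + 1) (by omega))
  rw [Real.sqrt_mul hr.le, ← div_div]
  have hsr : 0 < Real.sqrt r := Real.sqrt_pos.2 hr
  rw [show (2 / Real.sqrt r : ℝ) = 2 * Real.sqrt r / r by
    field_simp; rw [Real.sq_sqrt hr.le], div_div, mul_comm r (Real.sqrt _), ← div_div, le_div_iff₀ hr]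
  linarith

lemma pmf_le_atomBd (hr : 0 < r) (hr2 : r ≤ 1 / 2) (n k : ℕ) : pmf r n k ≤ atomBd r k := by
  rcases le_or_gt k n with h | h
  · refine (pmf_le hr hr2 n k).trans (div_le_div_of_nonneg_left zero_le_two (by positivity) ?_)
    gcongr
  · rw [pmf_eq_zero h, atomBd]; positivity

lemma r_mul_sum_pmf (n k : ℕ) : ∀ N : ℕ, r * ∑ i ∈ range N, pmf r (n + i) k
    = (∑ j ∈ range (k + 1), pmf r n j) - ∑ j ∈ range (k + 1), pmf r (n + N) j
  | 0 => by simp
  | N + 1 => by
    rw [sum_range_succ, mul_add, r_mul_sum_pmf n k N, ← add_assoc n N 1]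
    have : ∀ (m k : ℕ), ∑ j ∈ range (k + 1), pmf r (m + 1) j
        = (∑ j ∈ range (k + 1), pmf r m j) - r * pmf r m k := by
      intro m k
      induction k with
      | zero => simp [pmf_succ_zero]; ring
      | succ k ih =>
        rw [sum_range_succ, ih, pmf_succ_succ, sum_range_succ _ (k + 1)]
        ring
    rw [this]
    ring

/-- The total weight of one outcome over all numbers of trials. -/
lemma sum_range_pmf_le (hr : 0 < r) (hr1 : r ≤ 1) (n k N : ℕ) :
    ∑ i ∈ range N, pmf r (n + i) k ≤ 1 / r := by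
  rw [le_div_iff₀ hr, mul_comm, r_mul_sum_pmf]
  have h1 : ∑ j ∈ range (k + 1), pmf r n j ≤ 1 :=
    (sum_le_sum_of_subset_of_nonneg (range_subset_range.2 (by omega : k + 1 ≤ n + k + 1))
      fun j _ _ => pmf_nonneg hr.le hr1 _ _).trans (sum_pmf n _ (by omega)).le
  have h2 : 0 ≤ ∑ j ∈ range (k + 1), pmf r (n + N) j :=
    sum_nonneg fun j _ => pmf_nonneg hr.le hr1 _ _
  linarith

/-- A unimodal nonnegative sequence has variation at most twice its maximum. -/
lemma sum_abs_unimodal {f : ℕ → ℝ} {m : ℕ} (hf : ∀ i, 0 ≤ f i)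
    (hu : ∀ i, i < m → f i ≤ f (i + 1)) (hd : ∀ i, m ≤ i → f (i + 1) ≤ f i) :
    ∀ N : ℕ, ∑ i ∈ range N, |f (i + 1) - f i| ≤ if N ≤ m then f N else 2 * f m - f N
  | 0 => by simp [hf]
  | N + 1 => by
    have ih := sum_abs_unimodal hf hu hd N
    rw [sum_range_succ]
    rcases lt_trichotomy N m with h | h | h
    · rw [if_pos h.le] at ih
      rw [if_pos (by omega), abs_of_nonneg (sub_nonneg.2 (hu N h))]
      linarith
    · rw [if_pos h.le] at ih
      subst h
      rw [if_neg (by omega), abs_of_nonpos (sub_nonpos.2 (hd N le_rfl))]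
      linarith
    · rw [if_neg (by omega)] at ih
      rw [if_neg (by omega), abs_of_nonpos (sub_nonpos.2 (hd N h.le))]
      linarith

/-- The variation of one outcome over the numbers of trials. -/
lemma sum_abs_pmf_le (hr : 0 < r) (hr2 : r ≤ 1 / 2) (n k N : ℕ) :
    ∑ i ∈ range N, |pmf r (n + i + 1) k - pmf r (n + i) k| ≤ 2 * atomBd r k := by
  set m := ⌊(k : ℝ) / r⌋₊
  have hr1 : r ≤ 1 := by linarith
  have hnn : ∀ i, 0 ≤ pmf r i k := fun i => pmf_nonneg hr.le hr1 i k
  have key : ∀ i : ℕ, (pmf r (i + 1) k - pmf r i k) * (((i : ℝ) + 1) * (1 - r))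
      = pmf r (i + 1) k * ((k : ℝ) - ((i : ℝ) + 1) * r) := fun i => by
    linear_combination pmf_ratio (r := r) i k
  have hu : ∀ i, i < m → pmf r i k ≤ pmf r (i + 1) k := fun i hi => by
    have h1 : ((i : ℝ) + 1) * r ≤ k := by
      rw [← le_div_iff₀ hr]
      calc ((i : ℝ) + 1) ≤ m := by exact_mod_cast hi
        _ ≤ k / r := Nat.floor_le (by positivity)
    have h2 := mul_nonneg (hnn (i + 1)) (sub_nonneg.2 h1)
    rw [← key] at h2
    exact sub_nonneg.1 (nonneg_of_mul_nonneg_left h2 (mul_pos (by positivity) (by linarith)))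
  have hd : ∀ i, m ≤ i → pmf r (i + 1) k ≤ pmf r i k := fun i hi => by
    have h1 : (k : ℝ) ≤ ((i : ℝ) + 1) * r := by
      rw [← div_le_iff₀ hr]
      calc (k : ℝ) / r ≤ m + 1 := (Nat.lt_floor_add_one _).le
        _ ≤ _ := by gcongr
    have h2 := mul_nonpos_of_nonneg_of_nonpos (hnn (i + 1)) (sub_nonpos.2 h1)
    rw [← key] at h2
    exact sub_nonpos.1 (nonpos_of_mul_nonpos_left h2 (mul_pos (by positivity) (by linarith)))
  have h := sum_abs_unimodal hnn hu hd (n + N)
  rw [sum_range_add] at h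
  have h0 : 0 ≤ ∑ i ∈ range n, |pmf r (i + 1) k - pmf r i k| := sum_nonneg fun i _ => abs_nonneg _
  have hM := fun i => pmf_le_atomBd hr hr2 i k
  have hA : 0 ≤ atomBd r k := by unfold atomBd; positivity
  split_ifs at h
  · linarith [hM (n + N)]
  · linarith [hM m, hnn (n + N)]

/-- The harmonic moment. -/
lemma sum_pmf_div_sqrt_le (hr : 0 < r) (hr1 : r ≤ 1) (n N : ℕ) :
    ∑ k ∈ range N, pmf r n k / Real.sqrt ((k : ℝ) + 1) ≤ 1 / Real.sqrt (r * ((n : ℝ) + 1)) := by
  have hp := fun k => pmf_nonneg hr.le hr1 n k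
  have h1 : ∑ k ∈ range N, pmf r n k ≤ 1 :=
    (sum_le_sum_of_subset_of_nonneg (range_subset_range.2 (by omega : N ≤ n + N + 1))
      fun j _ _ => hp j).trans (sum_pmf n _ (by omega)).le
  have h2 : ∑ k ∈ range N, pmf r n k / ((k : ℝ) + 1) ≤ 1 / (r * ((n : ℝ) + 1)) := by
    have e : ∀ k : ℕ, pmf r n k / ((k : ℝ) + 1) = pmf r (n + 1) (k + 1) / (r * ((n : ℝ) + 1)) := by
      intro k
      rw [pmf_eq_choose, pmf_eq_choose, Nat.succ_sub_succ,
        div_eq_div_iff (by positivity) (by positivity)]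
      have e := congrArg (fun m : ℕ => (m : ℝ)) (Nat.add_one_mul_choose_eq n k)
      push_cast at e
      linear_combination (r ^ (k + 1) * (1 - r) ^ (n - k)) * e
    rw [sum_congr rfl fun k _ => e k, ← sum_div]
    gcongr
    have h3 : ∑ k ∈ range N, pmf r (n + 1) (k + 1) + pmf r (n + 1) 0 ≤ 1 := by
      rw [← sum_range_succ']
      exact (sum_le_sum_of_subset_of_nonneg (range_subset_range.2 (by omega : N + 1 ≤ n + N + 2))
        fun j _ _ => pmf_nonneg hr.le hr1 _ _).trans (sum_pmf (n + 1) _ (by omega)).le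
    linarith [pmf_nonneg hr.le hr1 (n + 1) 0]
  have hcs := sum_sq_le_sum_mul_sum_of_sq_le_mul (range N)
    (r := fun k => pmf r n k / Real.sqrt ((k : ℝ) + 1))
    (f := fun k => pmf r n k) (g := fun k => pmf r n k / ((k : ℝ) + 1)) (fun k _ => hp k)
    (fun k _ => div_nonneg (hp k) (by positivity))
    (fun k _ => le_of_eq (by rw [div_pow, Real.sq_sqrt (by positivity)]; ring))
  rw [show (1 : ℝ) / Real.sqrt (r * ((n : ℝ) + 1)) = Real.sqrt (1 / (r * ((n : ℝ) + 1))) by
    rw [Real.sqrt_div zero_le_one, Real.sqrt_one]]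
  refine Real.le_sqrt_of_sq_le (hcs.trans ?_)
  calc _ ≤ 1 * (1 / (r * ((n : ℝ) + 1))) :=
        mul_le_mul h1 h2 (sum_nonneg fun k _ => div_nonneg (hp k) (by positivity)) zero_le_one
    _ = _ := one_mul _

end Vale.Agent.P321.Super
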