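import Vale.Agent.P321.Super.Defs
import Vale.Agent.P321.Super.BaseBinom
import Mathlib.Data.Nat.Choose.Central
import Mathlib.Data.Nat.Choose.Sum
import Mathlib.Algebra.Order.Floor.Semiring

/-! Any overlap of two neighbouring powers amplifies to smoothness at a constant multiple. -/

namespace Vale.Agent.P321.Super

open MonoidAlgebra Finset Poly

/-- The atoms of a fair binomial law. -/
lemma pmf_half (n k : ℕ) : pmf (1 / 2) n k = (n.choose k : ℝ) / 2 ^ n := by
  rw [pmf_eq_choose]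
  rcases le_or_gt k n with h | h
  · rw [show (1 : ℝ) - 1 / 2 = 1 / 2 by norm_num, mul_assoc, ← pow_add, Nat.add_sub_cancel' h,
      div_pow, one_pow, mul_one_div]
  · simp [Nat.choose_eq_zero_of_lt h]

/-- Neighbouring atoms of a fair binomial law are very close. -/
lemma pmf_half_diff_le (m k : ℕ) :
    |pmf (1 / 2) m (k + 1) - pmf (1 / 2) m k| ≤ 64 / ((m : ℝ) + 1) := by
  classical
  set r : ℝ := 1 / 2 with hr_def
  have hr : 0 < r := by norm_num
  have hr2 : r ≤ 1 / 2 := le_rfl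
  set a := m / 2 with ha
  set b := m - a with hb
  have hab : a + b = m := by omega
  set N := k + b + 3
  set V := ∑ j ∈ range N, |pmf r (b + 1) j - pmf r b j|
  have hconv : ∀ n, pmf r m n = ∑ i ∈ range (n + 1), pmf r a i * pmf r b (n - i) := fun n => by
    rw [pmf, ← hab, pow_add, Polynomial.coeff_mul,
      Nat.sum_antidiagonal_eq_sum_range_succ (fun i j => (trial r ^ a).coeff i
        * (trial r ^ b).coeff j) n]
    rfl
  have hpa : ∀ i, 0 ≤ pmf r a i ∧ pmf r a i ≤ 2 / Real.sqrt (r * ((a : ℝ) + 1)) := fun i =>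
    ⟨pmf_nonneg hr.le (by norm_num) a i, pmf_le hr hr2 a i⟩
  set Ma := 2 / Real.sqrt (r * ((a : ℝ) + 1))
  set Mb := 2 / Real.sqrt (r * ((b : ℝ) + 1))
  have hMa : 0 ≤ Ma := by positivity
  have hMb : 0 ≤ Mb := by positivity
  have hV : V ≤ 2 * Real.sqrt r / Real.sqrt ((b : ℝ) + 1) :=
    sum_abs_diff_le hr hr2 b N (by omega)
  have hd : ∀ j, j + 1 < N → |pmf r b (j + 1) - pmf r b j|
      = 2 * |pmf r (b + 1) (j + 1) - pmf r b (j + 1)| := fun j _ => by
    have e : pmf r b j - pmf r b (j + 1) = 2 * (pmf r (b + 1) (j + 1) - pmf r b (j + 1)) := by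
      rw [pmf_succ_succ, hr_def]; ring
    rw [abs_sub_comm, e, abs_mul, abs_of_pos two_pos]
  have hsum : ∑ i ∈ range (k + 1), |pmf r b (k + 1 - i) - pmf r b (k - i)| ≤ 2 * V := by
    have e : ∀ i ∈ range (k + 1), |pmf r b (k + 1 - i) - pmf r b (k - i)|
        = 2 * |pmf r (b + 1) (k - i + 1) - pmf r b (k - i + 1)| := fun i hi => by
      rw [mem_range] at hi
      rw [show k + 1 - i = k - i + 1 by omega, hd _ (by omega)]
    rw [sum_congr rfl e, ← mul_sum,
      ← sum_image (f := fun j => |pmf r (b + 1) j - pmf r b j|) (g := fun i => k - i + 1)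
        (fun x hx y hy h => by simp at hx hy h; omega)]
    refine mul_le_mul_of_nonneg_left (sum_le_sum_of_subset_of_nonneg (fun j hj => ?_)
      fun j _ _ => abs_nonneg _) two_pos.le
    obtain ⟨i, hi, rfl⟩ := mem_image.1 hj
    rw [mem_range] at hi ⊢
    omega
  have main : |pmf r m (k + 1) - pmf r m k| ≤ Ma * (2 * V + Mb) := by
    have e : pmf r m (k + 1) - pmf r m k
        = (∑ i ∈ range (k + 1), pmf r a i * (pmf r b (k + 1 - i) - pmf r b (k - i)))
          + pmf r a (k + 1) * pmf r b 0 := by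
      rw [hconv, hconv, sum_range_succ, Nat.sub_self,
        sum_congr rfl fun i _ => mul_sub (pmf r a i) (pmf r b (k + 1 - i)) (pmf r b (k - i)),
        sum_sub_distrib]
      ring
    rw [e, mul_add]
    refine (abs_add_le _ _).trans (add_le_add ((abs_sum_le_sum_abs _ _).trans ?_) ?_)
    · refine (sum_le_sum fun i _ => ?_).trans
        (le_of_eq_of_le (mul_sum _ _ _).symm (mul_le_mul_of_nonneg_left hsum hMa))
      rw [abs_mul, abs_of_nonneg (hpa i).1]
      exact mul_le_mul_of_nonneg_right (hpa i).2 (abs_nonneg _)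
    · rw [abs_mul, abs_of_nonneg (hpa _).1, abs_of_nonneg (pmf_nonneg hr.le (by norm_num) _ _)]
      exact mul_le_mul (hpa _).2 (pmf_le hr hr2 b 0) (pmf_nonneg hr.le (by norm_num) _ _) hMa
  refine main.trans ?_
  set sr := Real.sqrt r with hsr
  have hsr2 : sr * sr = 1 / 2 := by rw [hsr, Real.mul_self_sqrt hr.le]
  have hsr0 : 0 < sr := Real.sqrt_pos.2 hr
  set sa := Real.sqrt ((a : ℝ) + 1)
  set sb := Real.sqrt ((b : ℝ) + 1)
  have hsa : 0 < sa := Real.sqrt_pos.2 (by positivity)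
  have hsb : 0 < sb := Real.sqrt_pos.2 (by positivity)
  have e1 : Ma = 2 / (sr * sa) := by rw [← Real.sqrt_mul hr.le]
  have e2 : Mb = 2 / (sr * sb) := by rw [← Real.sqrt_mul hr.le]
  have h1 : 2 * V + Mb ≤ 4 / (sr * sb) := by
    have e3 : 2 * sr / sb = 1 / (sr * sb) := by
      field_simp
      linarith [show sr ^ 2 = sr * sr from sq sr]
    rw [show (4 : ℝ) / (sr * sb) = 2 * (1 / (sr * sb)) + 2 / (sr * sb) by ring, e2]
    linarith [hV.trans_eq e3]
  refine (mul_le_mul_of_nonneg_left h1 hMa).trans ?_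
  rw [e1, div_mul_div_comm, show sr * sa * (sr * sb) = sr * sr * (sa * sb) by ring, hsr2,
    div_le_div_iff₀ (by positivity) (by positivity)]
  have h2 : ((m : ℝ) + 1) / 2 ≤ sa * sb := by
    rw [← Real.sqrt_mul (by positivity)]
    refine Real.le_sqrt_of_sq_le ?_
    have ha' : (m : ℝ) ≤ 2 * (a : ℝ) + 1 := by exact_mod_cast (show m ≤ 2 * a + 1 by omega)
    have hab' : (a : ℝ) + b = m := by exact_mod_cast hab
    have hle : (a : ℝ) ≤ b := by exact_mod_cast (show a ≤ b by omega)
    nlinarith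
  linarith

/-- The binomial coefficients differ little from their neighbours. -/
lemma choose_diff_le (m j : ℕ) :
    |(m.choose (j + 1) : ℝ) - m.choose j| ≤ 64 * 2 ^ m / ((m : ℝ) + 1) := by
  have h := pmf_half_diff_le m j
  rw [pmf_half, pmf_half, ← sub_div, abs_div, abs_of_pos (pow_pos two_pos m : (0 : ℝ) < 2 ^ m),
    div_le_iff₀ (by positivity)] at h
  exact h.trans_eq (by ring)

/-- The middle binomial coefficient. -/
lemma central_sq_ge : ∀ n : ℕ, 1 ≤ n → 16 ^ n ≤ 4 * n * n.centralBinom ^ 2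
  | 0, h => absurd h (by norm_num)
  | 1, _ => by norm_num [Nat.centralBinom_eq_two_mul_choose, Nat.choose]
  | n + 2, _ => by
    have ih := central_sq_ge (n + 1) (Nat.le_add_left 1 n)
    have e := Nat.succ_mul_centralBinom_succ (n + 1)
    set C := (n + 1).centralBinom
    set C' := (n + 2).centralBinom
    rw [show n + 1 + 1 = n + 2 from rfl] at e
    refine (Nat.mul_le_mul_left_iff (show 0 < n + 2 by omega)).1 ?_
    calc (n + 2) * 16 ^ (n + 2) = 16 * (n + 2) * 16 ^ (n + 1) := by ring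
      _ ≤ 16 * (n + 2) * (4 * (n + 1) * C ^ 2) := Nat.mul_le_mul_left _ ih
      _ ≤ 16 * (2 * (n + 1) + 1) ^ 2 * C ^ 2 := by nlinarith
      _ = 4 * (2 * (2 * (n + 1) + 1) * C) ^ 2 := by ring
      _ = 4 * ((n + 2) * C') ^ 2 := by rw [e]
      _ = (n + 2) * (4 * (n + 2) * C' ^ 2) := by ring

/-- Two overlapping neighbouring powers give smoothness at a constant multiple of the power. -/
theorem amplify {M : Type*} [Monoid M] {η : ℝ} (hη : 0 < η) : ∃ C : ℕ,
    ∀ (X : MonoidAlgebra ℝ M) (c : ℕ), Prb X → 1 ≤ c →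
      nrm (X ^ (c + 1) - X ^ c) ≤ 2 - η → Smooth X (C * c) := by
  obtain ⟨lam, hlam⟩ : ∃ lam : ℕ, lam = ⌈(2048 : ℝ) / η⌉₊ + 1 := ⟨_, rfl⟩
  set t := lam ^ 2 with ht
  set K := 2 * t + 1 with hK
  refine ⟨K + t, fun X c hX hc h => ?_⟩
  obtain ⟨Z, P, Q, e, hF, hG, he, he1, hZ, hP, hQ, he2⟩ :=
    exists_common (hX.pow c) (hX.pow (c + 1))
  have hd : η / 2 ≤ 1 - e := by linarith
  have hl1 : 1 ≤ lam := by omega
  have ht1 : 1 ≤ t := Nat.one_le_pow _ _ hl1
  set C := (K.choose t : ℝ) with hC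
  have hC0 : 0 < C := by rw [hC]; exact_mod_cast Nat.choose_pos (show t ≤ K by omega)
  have key := nrm_bin_le hF hG he he1 hZ hP hQ K (dlt (t + 1) - dlt t)
  rw [bin_sub, bin_dlt, bin_dlt, hK, Nat.choose_symm_half, ← hK, ← hC, ← smul_sub, nrm_smul,
    abs_of_pos hC0] at key
  have e1 : X ^ (K * c + (t + 1)) - X ^ (K * c + t) = X ^ (K * c + t) * (X - 1) := by
    rw [mul_sub, mul_one, ← pow_succ, add_assoc]
  rw [e1] at key
  have hsub : ∀ (m u : ℕ), avg m (dlt (t + 1) - dlt t) u
      = avg m (dlt (t + 1)) u - avg m (dlt t) u := fun m u => by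
    simp only [avg_eq, Pi.sub_apply, mul_sub, sum_sub_distrib]
  have hone : ∀ m : ℕ, (1 : ℝ) ≤ 64 * 2 ^ m / ((m : ℝ) + 1) := fun m => by
    rw [le_div_iff₀ (by positivity), one_mul]
    have : ((m + 1 : ℕ) : ℝ) ≤ ((2 ^ m : ℕ) : ℝ) :=
      Nat.cast_le.2 (Nat.lt_pow_self one_lt_two)
    push_cast at this
    linarith [pow_pos (two_pos : (0 : ℝ) < 2) m]
  have step : ∀ b ∈ range (K + 1), avg b (fun u => |avg (K - b) (dlt (t + 1) - dlt t) u|) 0
      ≤ 2 ^ b * (64 * 2 ^ (K - b) / (((K - b : ℕ) : ℝ) + 1)) := by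
    intro b _
    have hb : ∀ u, |avg (K - b) (dlt (t + 1) - dlt t) u|
        ≤ 64 * 2 ^ (K - b) / (((K - b : ℕ) : ℝ) + 1) := fun u => by
      rw [hsub]
      rcases le_or_gt u t with hu | hu
      · rw [avg_dlt _ _ _ hu, avg_dlt _ _ _ (by omega), show t + 1 - u = t - u + 1 by omega]
        exact choose_diff_le _ _
      · have h0 : avg (K - b) (dlt t) u = 0 := by
          rw [avg_eq]; exact sum_eq_zero fun i _ => by simp [dlt, show u + i ≠ t by omega]
        rw [h0, sub_zero]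
        rcases eq_or_ne u (t + 1) with rfl | hne
        · rw [avg_dlt _ _ _ le_rfl, Nat.sub_self, Nat.choose_zero_right, Nat.cast_one, abs_one]
          exact hone _
        · rw [avg_eq, sum_eq_zero fun i _ => by simp [dlt, show u + i ≠ t + 1 by omega], abs_zero]
          positivity
    rw [avg_eq]
    refine (sum_le_sum fun i _ => mul_le_mul_of_nonneg_left (hb _) (Nat.cast_nonneg _)).trans_eq ?_
    rw [← sum_mul, ← Nat.cast_sum, Nat.sum_range_choose, Nat.cast_pow, Nat.cast_ofNat]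
  have hK1 : (0 : ℝ) < (K : ℝ) + 1 := by positivity
  have key2 : C * nrm (X ^ (K * c + t) * (X - 1)) ≤ 64 * 2 ^ K / ((η / 2) * ((K : ℝ) + 1)) := by
    refine key.trans ((sum_le_sum fun b hb => mul_le_mul_of_nonneg_left (mul_le_mul_of_nonneg_left
      (step b hb) (mul_nonneg (pow_nonneg (by linarith) _) (pow_nonneg he _)))
        (Nat.cast_nonneg _)).trans ?_)
    have hterm : ∀ b ∈ range (K + 1), (K.choose b : ℝ) * ((1 - e) ^ (K - b) * e ^ b
        * (2 ^ b * (64 * 2 ^ (K - b) / (((K - b : ℕ) : ℝ) + 1))))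
        = 64 * 2 ^ K / ((1 - e) * ((K : ℝ) + 1))
          * (((K + 1).choose b : ℝ) * ((1 - e) ^ (K + 1 - b) * e ^ b)) := by
      intro b hb
      rw [mem_range] at hb
      have e3 : (K.choose b : ℝ) * ((K : ℝ) + 1)
          = ((K + 1).choose b : ℝ) * (((K - b : ℕ) : ℝ) + 1) := by
        have := congrArg (fun n : ℕ => (n : ℝ)) (Nat.choose_mul_succ_eq K b)
        rw [show K + 1 - b = K - b + 1 by omega] at this
        push_cast at this
        linarith
      have hne : (1 - e) ≠ 0 := by linarith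
      have hm1 : (((K - b : ℕ) : ℝ) + 1) ≠ 0 := by positivity
      rw [show K + 1 - b = K - b + 1 by omega, pow_succ (1 - e),
        show (2 : ℝ) ^ K = 2 ^ b * 2 ^ (K - b) by rw [← pow_add]; congr 1; omega]
      field_simp
      linear_combination e ^ b * e3
    rw [sum_congr rfl hterm, ← mul_sum]
    have hle : ∑ b ∈ range (K + 1), ((K + 1).choose b : ℝ) * ((1 - e) ^ (K + 1 - b) * e ^ b)
        ≤ 1 := by
      refine (sum_le_sum_of_subset_of_nonneg (range_subset_range.2 (Nat.le_succ (K + 1)))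
        fun b _ _ => mul_nonneg (Nat.cast_nonneg _)
          (mul_nonneg (pow_nonneg (by linarith) _) (pow_nonneg he _))).trans_eq ?_
      calc _ = (e + (1 - e)) ^ (K + 1) := by
            rw [add_pow]; exact sum_congr rfl fun b _ => by ring
        _ = 1 := by rw [add_sub_cancel, one_pow]
    refine (mul_le_of_le_one_right (div_nonneg (by positivity)
      (mul_nonneg (by linarith) hK1.le)) hle).trans ?_
    exact div_le_div_of_nonneg_left (by positivity) (mul_pos (by linarith) hK1)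
      (mul_le_mul_of_nonneg_right hd hK1.le)
  -- the central coefficient
  have hl0 : (0 : ℝ) < lam := by exact_mod_cast hl1
  have hC2 : (2 : ℝ) ^ K ≤ 4 * lam * C := by
    have h16 : ((16 : ℝ) ^ t) ≤ 4 * t * (t.centralBinom : ℝ) ^ 2 := by
      exact_mod_cast central_sq_ge t ht1
    have hcb : (t.centralBinom : ℝ) ≤ C := by
      rw [hC, Nat.centralBinom_eq_two_mul_choose, hK]
      exact_mod_cast Nat.choose_le_choose t (Nat.le_succ (2 * t))
    refine le_of_pow_le_pow_left₀ two_ne_zero (by positivity) ?_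
    calc ((2 : ℝ) ^ K) ^ 2 = 4 * (16 : ℝ) ^ t := by
          rw [hK, show (16 : ℝ) = 2 ^ 4 by norm_num, ← pow_mul, ← pow_mul]; ring
      _ ≤ 4 * (4 * t * C ^ 2) := by gcongr; exact h16.trans (by gcongr)
      _ = (4 * lam * C) ^ 2 := by rw [ht, Nat.cast_pow]; ring
  have hfin : nrm (X ^ (K * c + t) * (X - 1)) ≤ 1 / 4 := by
    refine le_of_mul_le_mul_left (key2.trans ?_) hC0
    rw [div_le_iff₀ (by positivity)]
    have hlam' : 2048 ≤ η * lam := by
      have h1 := Nat.le_ceil ((2048 : ℝ) / η)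
      rw [div_le_iff₀ hη] at h1
      rw [hlam]
      push_cast
      linarith
    have hKt : (K : ℝ) + 1 = 2 * ((lam : ℝ) * lam) + 2 := by
      rw [hK, ht]; push_cast; ring
    calc 64 * 2 ^ K ≤ 64 * (4 * lam * C) := mul_le_mul_of_nonneg_left hC2 (by norm_num)
      _ ≤ C / 4 * lam * 2048 := by linarith [mul_nonneg hl0.le hC0.le]
      _ ≤ C / 4 * lam * (η * lam) := mul_le_mul_of_nonneg_left hlam' (by positivity)
      _ = C * (1 / 4) * (η / 2 * (2 * ((lam : ℝ) * lam))) := by ring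
      _ ≤ _ := by
          rw [hKt]
          exact mul_le_mul_of_nonneg_left
            (mul_le_mul_of_nonneg_left (by linarith) (by linarith)) (by positivity)
  rw [Smooth, pow_succ, ← mul_sub_one]
  refine (nrm_pow_mul_antitone hX ?_ _).trans hfin
  rw [add_mul]
  nlinarith

end Vale.Agent.P321.Super
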