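import Vale.Agent.P321.Super.Dom

/-! The base words dominate the sea and are dominated by it, up to a tiny error. -/

namespace Vale.Agent.P321.Super

open MonoidAlgebra Finset Filter Poly

variable {q : ℝ}

lemma smul_one_le_chan (h1 : q ≤ 1) (b : Bool) (w : FreeMonoid Bool) :
    (q • (1 : Tr)).coeff w ≤ (chan q b).coeff w := by
  classical
  rw [coeff_smul_apply, one_def, chan, coeff_add, Finsupp.add_apply]
  simp only [coeff_single, Finsupp.single_apply]
  split_ifs <;> linarith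

lemma short_le_slot (h0 : 0 ≤ q) (h1 : q ≤ 1) (w : FreeMonoid Bool) :
    q * (law q [false]).coeff w ≤ (law q [false, true]).coeff w := by
  have h := mul_le_left (Z := chan q false) (smul_one_le_chan h1 true) (prb_chan h0 h1 false).1 w
  rw [mul_smul_comm, mul_one, coeff_smul_apply] at h
  simpa [law] using h

lemma le_short_empty (h1 : q ≤ 1) : q ≤ (law q [false]).coeff 1 := by
  have h := smul_one_le_chan h1 false 1
  rw [coeff_smul_apply, one_def, coeff_single, Finsupp.single_eq_same, mul_one] at h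
  simpa [law] using h

/-- A window of `g` slots pays for one short slot. -/
lemma dom_short (h0 : 0 < q) (h1 : q ≤ 1) {g i j : ℕ} (hg : 1 ≤ g) (hj : g ≤ j + 1) :
    Dom (law q [false, true] ^ (i + 1 + j))
        (law q [false, true] ^ i * law q [false] * law q [false, true] ^ j)
        ((g : ℝ) / q) ((1 - q ^ 2) ^ g)
      ∧ Dom (law q [false, true] ^ i * law q [false] * law q [false, true] ^ j)
        (law q [false, true] ^ (i + 1 + j)) (1 / q) 0 := by
  set X := law q [false, true]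
  set Z := law q [false]
  have hX : Prb X := prb_law h0.le h1 _
  have hZ : Prb Z := prb_law h0.le h1 _
  refine ⟨?_, Dom.of_le fun w => ?_⟩
  · obtain ⟨k, rfl⟩ : ∃ k, j = (g - 1) + k := ⟨j + 1 - g, by omega⟩
    have hx : q ^ 2 ≤ X.coeff 1 := by
      have h := mul_le_mul_of_nonneg_left (le_short_empty (q := q) h1) h0.le
      rw [← sq] at h
      exact h.trans (short_le_slot h0.le h1 1)
    have hx1 : X.coeff 1 ≤ 1 := by
      have h := sum_abs_le_nrm X {1}
      rw [sum_singleton, hX.nrm_eq, abs_of_nonneg (hX.1 1)] at h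
      exact h
    have hd := (dom_hole hX hZ h0 (le_short_empty h1) g 0 hg).mono
      (mul_nn (mul_nn (hX.pow 0).1 hZ.1) (hX.pow _).1)
      (C' := (g : ℝ) / q) (e' := (1 - q ^ 2) ^ g)
      (div_le_div_of_nonneg_right (mul_le_of_le_one_right (Nat.cast_nonneg g) hx1) h0.le)
      (pow_le_pow_left₀ (by linarith) (by linarith) g)
    rw [pow_zero, one_mul, Nat.sub_zero] at hd
    have h2 := ((Dom.refl (X ^ i)).mul hd (hX.pow g) (hX.pow i) zero_le_one).mul
      (Dom.refl (X ^ k)) (hX.pow k) ((hX.pow i).mul (hZ.mul (hX.pow (g - 1))))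
      (by positivity)
    rw [show i + 1 + (g - 1 + k) = i + g + k by omega, pow_add, pow_add, pow_add X (g - 1)]
    simpa [mul_assoc] using h2
  · have hle : ∀ b, Z.coeff b ≤ ((1 / q) • X).coeff b := fun b => by
      rw [coeff_smul_apply, one_div_mul_eq_div, le_div_iff₀ h0, mul_comm]
      exact short_le_slot h0.le h1 b
    have h := mul_le_right (mul_le_left hle (hX.pow i).1) (hX.pow j).1 w
    rwa [mul_smul_comm, smul_mul_assoc, coeff_smul_apply, ← pow_succ, ← pow_add] at h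

theorem base_dom {q : ℝ} (h0 : 0 < q) (h1 : q < 1) (K : ℕ) : ∃ P : ℕ, ∀ᶠ t : ℕ in atTop,
    (Dom (law q [false, true] ^ (2 * t ^ 100 + 2)) (law q (baseA (t ^ 100))) (lg t ^ P)
        (1 / (t : ℝ) ^ K)
      ∧ Dom (law q (baseA (t ^ 100))) (law q [false, true] ^ (2 * t ^ 100 + 2)) (lg t ^ P)
        (1 / (t : ℝ) ^ K))
    ∧ (Dom (law q [false, true] ^ (2 * t ^ 100 + 2)) (law q (baseB (t ^ 100))) (lg t ^ P)
        (1 / (t : ℝ) ^ K)
      ∧ Dom (law q (baseB (t ^ 100))) (law q [false, true] ^ (2 * t ^ 100 + 2)) (lg t ^ P)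
        (1 / (t : ℝ) ^ K)) := by
  have hb0 : 0 ≤ 1 - q ^ 2 := by nlinarith
  have hb1 : 1 - q ^ 2 < 1 := by nlinarith
  obtain ⟨m₀, hm₀⟩ := exists_pow_lt_of_lt_one (show (0 : ℝ) < 1 / 2 by norm_num) hb1
  set m := m₀ + 1 with hm
  have hm2 : (1 - q ^ 2) ^ m ≤ 1 / 2 :=
    (pow_le_pow_of_le_one hb0 hb1.le (Nat.le_succ m₀)).trans hm₀.le
  set c := m * (K + 1) with hc
  obtain ⟨N, hN⟩ := exists_nat_ge ((c : ℝ) / q)
  refine ⟨2, ?_⟩
  rw [eventually_atTop]
  refine ⟨c + 2 ^ N + 1, fun t ht => ?_⟩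
  have h2N : 0 < 2 ^ N := Nat.two_pow_pos N
  have ht0 : t ≠ 0 := by omega
  set L := Nat.log 2 t with hL
  set g := c * (L + 1) with hg
  have hc1 : 1 ≤ c := by rw [hc]; exact Nat.mul_pos (by omega) (by omega)
  have hg1 : 1 ≤ g := by rw [hg]; exact Nat.mul_pos hc1 (by omega)
  have hgt : g ≤ t ^ 100 := by
    calc g ≤ t * t := Nat.mul_le_mul (by omega) (Nat.log_lt_self 2 ht0)
      _ = t ^ 2 := (sq t).symm
      _ ≤ t ^ 100 := Nat.pow_le_pow_right (by omega) (by norm_num)
  have hNL : N ≤ L := Nat.le_log_of_pow_le one_lt_two (by omega)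
  have hlg : lg t = (L : ℝ) + 2 := rfl
  have hlgc : (c : ℝ) / q ≤ lg t := by
    rw [hlg]
    have : (N : ℝ) ≤ L := by exact_mod_cast hNL
    linarith
  have hgq : (g : ℝ) / q ≤ lg t ^ 2 := by
    rw [hg, Nat.cast_mul, mul_div_right_comm, sq]
    exact mul_le_mul hlgc (by rw [hlg]; push_cast; linarith) (by positivity)
      (le_trans (by positivity) hlgc)
  have hq1 : 1 / q ≤ lg t ^ 2 := by
    refine le_trans ?_ hgq
    exact div_le_div_of_nonneg_right (by exact_mod_cast hg1) h0.le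
  have herr : (1 - q ^ 2) ^ g ≤ 1 / (t : ℝ) ^ K := by
    have htR : (1 : ℝ) ≤ t := by exact_mod_cast (show 1 ≤ t by omega)
    have ht2 : (t : ℝ) ≤ 2 ^ (L + 1) := by
      exact_mod_cast (Nat.lt_pow_succ_log_self one_lt_two t).le
    calc (1 - q ^ 2) ^ g = ((1 - q ^ 2) ^ m) ^ ((L + 1) * (K + 1)) := by
          rw [← pow_mul, hg, hc]; ring_nf
      _ ≤ (1 / 2) ^ ((L + 1) * (K + 1)) := pow_le_pow_left₀ (by positivity) hm2 _
      _ = 1 / (2 ^ (L + 1)) ^ (K + 1) := by rw [← pow_mul, div_pow, one_pow]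
      _ ≤ 1 / (2 ^ (L + 1)) ^ K :=
          one_div_le_one_div_of_le (by positivity)
            (pow_le_pow_right₀ (one_le_pow₀ one_le_two) K.le_succ)
      _ ≤ _ := one_div_le_one_div_of_le (by positivity) (pow_le_pow_left₀ (by positivity) ht2 K)
  have hK0 : (0 : ℝ) ≤ 1 / (t : ℝ) ^ K := by positivity
  set a := t ^ 100
  set X := law q [false, true]
  have hX : Prb X := prb_law h0.le h1.le _
  have hsea : ∀ n, ∀ w, 0 ≤ (X ^ n).coeff w := fun n => (hX.pow n).1
  have eA : law q (baseA a) = X ^ a * law q [false] * X ^ (a + 1) := by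
    rw [baseA, law_append, law_append, law_rep, law_rep]
  have eB : law q (baseB a) = X ^ (a + 1) * law q [false] * X ^ a := by
    rw [baseB, law_append, law_append, law_rep, law_rep]
  obtain ⟨dA, dA'⟩ := dom_short h0 h1.le (g := g) (i := a) (j := a + 1) hg1 (by omega)
  obtain ⟨dB, dB'⟩ := dom_short h0 h1.le (g := g) (i := a + 1) (j := a) hg1 (by omega)
  rw [show a + 1 + (a + 1) = 2 * a + 2 by ring, ← eA] at dA dA'
  rw [show a + 1 + 1 + a = 2 * a + 2 by ring, ← eB] at dB dB'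
  exact ⟨⟨dA.mono (prb_law h0.le h1.le _).1 hgq herr, dA'.mono (hsea _) hq1 hK0⟩,
    ⟨dB.mono (prb_law h0.le h1.le _).1 hgq herr, dB'.mono (hsea _) hq1 hK0⟩⟩

end Vale.Agent.P321.Super
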