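import Vale.Agent.P321.Super.Coef
import Mathlib.Algebra.MonoidAlgebra.Basic
import Mathlib.Algebra.Group.Prod

/-! Traces graded by the number of slots which left a mark. -/

namespace Vale.Agent.P321.Super

open MonoidAlgebra Finset Poly

/-- Graded traces. -/
abbrev GW := FreeMonoid Bool × Multiplicative ℕ

/-- Laws of graded traces. -/
abbrev Gr := MonoidAlgebra ℝ GW

/-- The grade. -/
def deg (w : GW) : ℕ := Multiplicative.toAdd w.2

@[simp] lemma deg_one : deg 1 = 0 := rfl

@[simp] lemma deg_mul (v w : GW) : deg (v * w) = deg v + deg w := rfl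

/-- Forget the grade. -/
noncomputable def forget : Gr →ₐ[ℝ] Tr := mapDomainAlgHom ℝ ℝ (MonoidHom.fst _ _)

lemma forget_single (w : GW) (v : ℝ) : forget (single w v) = single w.1 v :=
  mapDomain_single

lemma sum_single_eq {M : Type*} (X : MonoidAlgebra ℝ M) :
    ∑ a ∈ X.coeff.support, single a (X.coeff a) = X := by
  classical
  ext b
  rw [coeff_sum, Finsupp.finsetSum_apply]
  simp +contextual [Finsupp.single_apply, eq_comm]

lemma nrm_forget_le (X : Gr) : nrm (forget X) ≤ nrm X := by
  conv_lhs => rw [← sum_single_eq X, map_sum]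
  refine (nrm_sum_le _ _).trans (le_of_eq ?_)
  simp only [forget_single, nrm_single]
  rfl

/-- All atoms have grade `n`. -/
def Gd (n : ℕ) (μ : Gr) : Prop := ∀ w ∈ μ.coeff.support, deg w = n

lemma gd_one : Gd 0 (1 : Gr) := by
  classical
  intro w hw
  rw [one_def, coeff_single] at hw
  rw [mem_singleton.1 (Finsupp.support_single_subset hw), deg_one]

lemma gd_mul {m n : ℕ} {μ ν : Gr} (hμ : Gd m μ) (hν : Gd n ν) : Gd (m + n) (μ * ν) := by
  classical
  intro w hw
  rw [mul_eq_sum, ← sum_product', Finsupp.mem_support_iff, coeff_sum, Finsupp.finsetSum_apply] at hw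
  obtain ⟨x, hx, hne⟩ := exists_ne_zero_of_sum_ne_zero hw
  rw [mem_product] at hx
  rw [coeff_single, Finsupp.single_apply] at hne
  split_ifs at hne with h
  · rw [← h, deg_mul, hμ _ hx.1, hν _ hx.2]
  · exact absurd rfl hne

lemma coeff_ev_eq_zero {Y G : Gr} (hY : Gd 1 Y) (hG : Gd 1 G) (v : FreeMonoid Bool) (a : ℝ)
    {w : GW} (hw : deg w ≠ (FreeMonoid.toList v).length) :
    (ev Y G (single v a)).coeff w = 0 := by
  classical
  have key : ∀ l : List Bool,
      Gd l.length (FreeMonoid.lift (fun b => cond b G Y) (FreeMonoid.ofList l)) := by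
    intro l
    induction l with
    | nil => simpa using gd_one
    | cons b l ih =>
      rw [FreeMonoid.ofList_cons, map_mul, FreeMonoid.lift_eval_of, List.length_cons, add_comm]
      exact gd_mul (by cases b <;> assumption) ih
  rw [ev_single, coeff_smul, Finsupp.smul_apply, smul_eq_mul]
  refine mul_eq_zero_of_right _ (Finsupp.notMem_support_iff.1 fun h => hw ?_)
  simpa using key (FreeMonoid.toList v) w (by simpa using h)

/-- The part of word length `n`. -/
noncomputable def part (n : ℕ) (c : Cf) : Cf :=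
  ∑ v ∈ c.coeff.support.filter (fun v => (FreeMonoid.toList v).length = n), single v (c.coeff v)

lemma hom_part (n : ℕ) (c : Cf) : Hom n (part n c) := by
  refine hom_sum _ _ fun v hv => ?_
  have := hom_single v (c.coeff v)
  rwa [(mem_filter.1 hv).2] at this

lemma coeff_ev_part {Y G : Gr} (hY : Gd 1 Y) (hG : Gd 1 G) (c : Cf) {w : GW} {n : ℕ}
    (hw : deg w = n) : (ev Y G c).coeff w = (ev Y G (part n c)).coeff w := by
  classical
  conv_lhs => rw [← sum_single_eq c]
  rw [part, map_sum, map_sum, coeff_sum, coeff_sum, Finsupp.finsetSum_apply,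
    Finsupp.finsetSum_apply, sum_filter]
  refine sum_congr rfl fun v _ => ?_
  split_ifs with h
  · rfl
  · exact coeff_ev_eq_zero hY hG v _ (fun e => h (by rw [← e, hw]))

lemma sum_qf_part_le {h : ℝ} (h0 : 0 ≤ h) (c : Cf) (W : Finset ℕ) :
    ∑ n ∈ W, qf h (part n c) ≤ qf h c := by
  classical
  have e : ∀ n, qf h (part n c) = ∑ v ∈ c.coeff.support,
      if (FreeMonoid.toList v).length = n then c.coeff v ^ 2 * h ^ (FreeMonoid.toList v).count true
      else 0 := by
    intro n
    rw [← sum_filter, qf_eq_sum (s := c.coeff.support.filter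
      (fun v => (FreeMonoid.toList v).length = n))]
    · refine sum_congr rfl fun v hv => ?_
      congr 2
      rw [part, coeff_sum, Finsupp.finsetSum_apply, sum_eq_single v]
      · simp
      · intro u _ hu; simp [hu]
      · exact fun hn => absurd hv hn
    · intro v hv
      by_contra hn
      rw [Finsupp.mem_support_iff, part, coeff_sum, Finsupp.finsetSum_apply] at hv
      refine hv (sum_eq_zero fun u hu => ?_)
      rw [coeff_single, Finsupp.single_eq_of_ne]
      rintro rfl
      exact hn hu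
  rw [sum_congr rfl fun n _ => e n, sum_comm, qf, Finsupp.sum]
  refine sum_le_sum fun v _ => ?_
  rw [sum_ite_eq]
  split_ifs
  · exact le_rfl
  · exact mul_nonneg (sq_nonneg _) (pow_nonneg h0 _)

/-- Mean `m` and variance at most `v` of the grade. -/
def Conc (μ : Gr) (m v : ℝ) : Prop :=
  Prb μ ∧ pair μ (fun w => (deg w : ℝ) - m) = 0
    ∧ pair μ (fun w => ((deg w : ℝ) - m) ^ 2) ≤ v

lemma pair_add_fun {M : Type*} (μ : MonoidAlgebra ℝ M) (φ ψ : M → ℝ) :
    pair μ (fun a => φ a + ψ a) = pair μ φ + pair μ ψ := by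
  simp [pair, Finsupp.sum, mul_add, sum_add_distrib]

lemma pair_const_mul {M : Type*} (μ : MonoidAlgebra ℝ M) (k : ℝ) (φ : M → ℝ) :
    pair μ (fun a => k * φ a) = k * pair μ φ := by
  simp only [pair, Finsupp.sum, mul_sum]
  exact sum_congr rfl fun a _ => by ring

lemma pair_const {M : Type*} (μ : MonoidAlgebra ℝ M) (k : ℝ) :
    pair μ (fun _ => k) = k * mass μ := by
  rw [mass_eq_pair, ← pair_const_mul]
  simp

lemma conc_one : Conc 1 0 0 := by
  refine ⟨Prb.one, ?_, ?_⟩ <;> simp [one_def, pair_single]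

lemma Conc.mul {μ ν : Gr} {m v m' v' : ℝ} (h : Conc μ m v) (h' : Conc ν m' v') :
    Conc (μ * ν) (m + m') (v + v') := by
  refine ⟨h.1.mul h'.1, ?_, ?_⟩
  · have e : ∀ b, pair μ (fun a => (deg (a * b) : ℝ) - (m + m')) = (deg b : ℝ) - m' := fun b => by
      rw [show (fun a => (deg (a * b) : ℝ) - (m + m'))
        = fun a => ((deg a : ℝ) - m) + ((deg b : ℝ) - m') by funext a; rw [deg_mul]; push_cast; ring,
        pair_add_fun, h.2.1, pair_const, h.1.2, mul_one, zero_add]
    rw [pair_mul, funext e]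
    exact h'.2.1
  · have e : ∀ b, pair μ (fun a => ((deg (a * b) : ℝ) - (m + m')) ^ 2)
        = pair μ (fun a => ((deg a : ℝ) - m) ^ 2) + ((deg b : ℝ) - m') ^ 2 := fun b => by
      rw [show (fun a => ((deg (a * b) : ℝ) - (m + m')) ^ 2) = fun a => ((deg a : ℝ) - m) ^ 2
          + (2 * ((deg b : ℝ) - m') * ((deg a : ℝ) - m) + ((deg b : ℝ) - m') ^ 2) by
        funext a; rw [deg_mul]; push_cast; ring,
        pair_add_fun, pair_add_fun, pair_const_mul, h.2.1, pair_const, h.1.2]
      ring
    rw [pair_mul, funext e, pair_add_fun, pair_const, h'.1.2, mul_one]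
    linarith [h.2.2, h'.2.2]

lemma Conc.pow {μ : Gr} {m v : ℝ} (h : Conc μ m v) : ∀ n : ℕ, Conc (μ ^ n) (n * m) (n * v)
  | 0 => by simpa using conc_one
  | n + 1 => by
    rw [pow_succ]
    push_cast
    rw [add_mul, add_mul, one_mul, one_mul]
    exact (h.pow n).mul h

/-- Chebyshev. -/
lemma Conc.sum_far {μ : Gr} {m v R : ℝ} (h : Conc μ m v) (hR : 0 < R) (s : Finset GW) :
    ∑ w ∈ s.filter (fun w => R ≤ |(deg w : ℝ) - m|), μ.coeff w ≤ v / R ^ 2 := by
  classical
  rw [le_div_iff₀ (by positivity), sum_mul]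
  refine le_trans ?_ h.2.2
  rw [pair_eq_sum (s := μ.coeff.support ∪ s) _ subset_union_left]
  refine le_trans (sum_le_sum fun w hw => mul_le_mul_of_nonneg_left ?_ (h.1.1 w))
    (sum_le_sum_of_subset_of_nonneg ((filter_subset _ _).trans subset_union_right)
      fun w _ _ => mul_nonneg (h.1.1 w) (sq_nonneg _))
  rw [← sq_abs ((deg w : ℝ) - m)]
  exact pow_le_pow_left₀ hR.le (mem_filter.1 hw).2 2

/-- A defect with small form between two concentrated laws of equal mean is small. -/
lemma nrm_le_window {Y G A B : Gr} {h : ℝ} (hY : Gd 1 Y) (hG : Gd 1 G) (hP : Prb Y) (h0 : 0 ≤ h)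
    (hm : mass G = 0) (hc : Chi G Y h) {c : Cf} (hev : ev Y G c = A - B) {m v R : ℝ} (hR : 0 < R)
    (hA : Conc A m v) (hB : Conc B m v) :
    nrm (A - B) ≤ Real.sqrt ((2 * R + 1) * qf h c) + 2 * (v / R ^ 2) := by
  classical
  set S := (A - B).coeff.support
  rw [nrm_eq_sum (s := S) subset_rfl,
    ← sum_filter_add_sum_filter_not S (fun w => R ≤ |(deg w : ℝ) - m|), add_comm]
  refine add_le_add ?_ ?_
  · set W := (S.filter fun w => ¬ R ≤ |(deg w : ℝ) - m|).image deg
    have hcard : (W.card : ℝ) ≤ 2 * R + 1 := by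
      rcases W.eq_empty_or_nonempty with hW | hW
      · rw [hW, card_empty, Nat.cast_zero]; linarith
      have hsub : W ⊆ Icc (W.min' hW) (W.max' hW) := fun n hn =>
        mem_Icc.2 ⟨W.min'_le _ hn, W.le_max' _ hn⟩
      have h1 := card_le_card hsub
      rw [Nat.card_Icc] at h1
      have h2 : W.min' hW ≤ W.max' hW := W.min'_le _ (W.max'_mem hW)
      have hmem : ∀ n ∈ W, |(n : ℝ) - m| < R := fun n hn => by
        obtain ⟨w, hw, rfl⟩ := mem_image.1 hn
        exact not_le.1 (mem_filter.1 hw).2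
      have h3 := abs_lt.1 (hmem _ (W.min'_mem hW))
      have h4 := abs_lt.1 (hmem _ (W.max'_mem hW))
      have h5 : (W.card : ℝ) ≤ ((W.max' hW + 1 - W.min' hW : ℕ) : ℝ) := by exact_mod_cast h1
      rw [Nat.cast_sub (by omega)] at h5
      push_cast at h5
      linarith
    rw [← sum_fiberwise_of_maps_to (g := deg) (t := W) (fun w hw => mem_image_of_mem _ hw)]
    have hn : ∀ n ∈ W, ∑ w ∈ (S.filter fun w => ¬ R ≤ |(deg w : ℝ) - m|) with deg w = n,
        |(A - B).coeff w| ≤ Real.sqrt (qf h (part n c)) := by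
      intro n _
      refine le_trans (le_of_eq (sum_congr rfl fun w hw => ?_))
        ((sum_abs_le_nrm (ev Y G (part n c)) _).trans
          ((chi_ev hP hc hm h0 n _ (hom_part n c)).nrm_le (hP.pow n) (qf_nonneg h0 _)))
      rw [← hev, coeff_ev_part hY hG c (mem_filter.1 hw).2]
    refine (sum_le_sum hn).trans ?_
    refine Real.le_sqrt_of_sq_le ((sq_sum_le_card_mul_sum_sq).trans ?_)
    rw [sum_congr rfl fun n _ => Real.sq_sqrt (qf_nonneg h0 _)]
    exact mul_le_mul hcard (sum_qf_part_le h0 c W) (sum_nonneg fun n _ => qf_nonneg h0 _)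
      (by linarith)
  · rw [two_mul]
    refine le_trans ?_ (add_le_add (hA.sum_far hR S) (hB.sum_far hR S))
    rw [← sum_add_distrib]
    refine sum_le_sum fun w _ => ?_
    rw [coeff_sub, Finsupp.sub_apply, abs_le]
    have := hA.1.1 w
    have := hB.1.1 w
    constructor <;> linarith

end Vale.Agent.P321.Super
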