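import Vale.Agent.P321.Super.BaseGrade
import Vale.Agent.P321.Super.BaseGap

/-! The graded lift of the base period. -/

namespace Vale.Agent.P321.Super

open MonoidAlgebra Finset Poly

variable (q : ℝ)

/-- The visible traces of a slot `01`, of grade one. -/
def atomF : GW := (FreeMonoid.of false, Multiplicative.ofAdd 1)

/-- See `atomF`. -/
def atomT : GW := (FreeMonoid.of true, Multiplicative.ofAdd 1)

/-- See `atomF`. -/
def atomB : GW := (FreeMonoid.of false * FreeMonoid.of true, Multiplicative.ofAdd 1)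

/-- The chance that a slot leaves a mark. -/
def vis : ℝ := 1 - q ^ 2

/-- The weight of the surrogate for a short slot. -/
noncomputable def wt : ℝ := 1 / (1 + q)

/-- The visible part of a slot. -/
noncomputable def Yh : Gr :=
  single atomF ((1 - q) * q / vis q) + single atomT ((1 - q) * q / vis q)
    + single atomB ((1 - q) ^ 2 / vis q)

/-- The lifted slot. -/
noncomputable def Xh : Gr := single 1 (1 - vis q) + vis q • Yh q

/-- The lifted short slot. -/
noncomputable def Zh : Gr := single 1 q + single atomF (1 - q)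

/-- The surrogate of a short slot. -/
noncomputable def Wh : Gr := single 1 (1 - wt q) + wt q • Xh q

/-- The defect. -/
noncomputable def Gh : Gr :=
  single atomF ((1 - q) - wt q * ((1 - q) * q)) + single atomT (-(wt q * ((1 - q) * q)))
    + single atomB (-(wt q * (1 - q) ^ 2))

variable {q}

lemma deg_atom : deg atomF = 1 ∧ deg atomT = 1 ∧ deg atomB = 1 := ⟨rfl, rfl, rfl⟩

lemma gd_three (a b c : ℝ) : Gd 1 (single atomF a + single atomT b + single atomB c) := by
  classical
  intro w hw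
  rw [coeff_add, coeff_add, coeff_single, coeff_single, coeff_single] at hw
  rcases mem_union.1 (Finsupp.support_add hw) with h | h
  · rcases mem_union.1 (Finsupp.support_add h) with h | h <;>
    · rw [mem_singleton.1 (Finsupp.support_single_subset h)]; rfl
  · rw [mem_singleton.1 (Finsupp.support_single_subset h)]; rfl

lemma coeff_single_nonneg {M : Type*} (a b : M) {v : ℝ} (hv : 0 ≤ v) :
    0 ≤ (single a v : MonoidAlgebra ℝ M).coeff b := by
  classical
  rw [coeff_single, Finsupp.single_apply]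
  split_ifs
  · exact hv
  · exact le_rfl

section
variable (h0 : 1 / 2 ≤ q) (h1 : q < 1)
include h0 h1

lemma vis_pos : 0 < vis q ∧ vis q ≤ 2 * (1 - q) ∧ 1 - q ≤ vis q := by
  have e : vis q = (1 - q) * (1 + q) := by rw [vis]; ring
  rw [e]
  refine ⟨by nlinarith, ?_, ?_⟩ <;> nlinarith

lemma wt_bounds : 0 ≤ wt q ∧ wt q ≤ 1 :=
  ⟨div_nonneg zero_le_one (by linarith), (div_le_one (by linarith)).2 (by linarith)⟩

lemma prb_Yh : Prb (Yh q) := by
  obtain ⟨hr, -, -⟩ := vis_pos h0 h1
  have hp : 0 ≤ 1 - q := by linarith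
  have hq : 0 ≤ q := by linarith
  refine ⟨fun a => ?_, ?_⟩
  · simp only [Yh, coeff_add, Finsupp.add_apply]
    exact add_nonneg (add_nonneg (coeff_single_nonneg _ _ (by positivity))
      (coeff_single_nonneg _ _ (by positivity))) (coeff_single_nonneg _ _ (by positivity))
  · simp only [Yh, mass_add, mass_single]
    field_simp
    rw [vis]
    ring

lemma chi_Gh : Chi (Gh q) (Yh q) (10 * (1 - q) ^ 2) := by
  obtain ⟨hr, hr2, -⟩ := vis_pos h0 h1
  obtain ⟨hw0, hw1⟩ := wt_bounds h0 h1
  have hp : 0 < 1 - q := by linarith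
  have hq : 0 < q := by linarith
  intro φ
  simp only [Gh, Yh, pair_add, pair_single]
  set p := 1 - q
  set y1 := p * q / vis q
  set y3 := p ^ 2 / vis q
  set a1 := p - wt q * (p * q)
  set a2 := -(wt q * (p * q))
  set a3 := -(wt q * p ^ 2)
  have hy1 : 0 < y1 := by positivity
  have hy3 : 0 < y3 := by positivity
  have hcs := sum_sq_le_sum_mul_sum_of_sq_le_mul (univ : Finset (Fin 3))
    (r := ![a1 * φ atomF, a2 * φ atomT, a3 * φ atomB])
    (f := ![a1 ^ 2 / y1, a2 ^ 2 / y1, a3 ^ 2 / y3])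
    (g := ![y1 * φ atomF ^ 2, y1 * φ atomT ^ 2, y3 * φ atomB ^ 2])
    (fun i _ => by fin_cases i <;> simp <;> positivity)
    (fun i _ => by fin_cases i <;> simp <;> positivity)
    (fun i _ => by fin_cases i <;> simp <;> field_simp <;> exact le_rfl)
  simp only [Fin.sum_univ_three, Matrix.cons_val_zero, Matrix.cons_val_one, Matrix.cons_val_two,
    Matrix.head_cons, Matrix.tail_cons, Matrix.cons_val] at hcs
  refine hcs.trans (mul_le_mul_of_nonneg_right ?_ (by positivity))
  have hpq : 0 ≤ wt q * (p * q) := by positivity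
  have k1 : wt q * (p * q) ≤ p * q := mul_le_of_le_one_left (by positivity) hw1
  have k2 : p * q ≤ p := mul_le_of_le_one_right hp.le h1.le
  have b1 : a1 ^ 2 / y1 ≤ 4 * p ^ 2 := by
    have : a1 ^ 2 ≤ p ^ 2 := pow_le_pow_left₀ (by simp only [a1]; linarith) (by simp only [a1]; linarith) 2
    rw [div_le_iff₀ hy1]
    refine this.trans ?_
    simp only [y1]
    rw [mul_div_assoc', le_div_iff₀ hr]
    have g1 := mul_le_mul_of_nonneg_left hr2 (sq_nonneg p)
    have g2 : p ^ 2 * (2 * p) ≤ 4 * p ^ 2 * (p * q) := by nlinarith [pow_pos hp 3]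
    linarith
  have b2 : a2 ^ 2 / y1 ≤ 4 * p ^ 2 := by
    have : a2 ^ 2 ≤ (p * q) ^ 2 := by
      simp only [a2, neg_sq]; exact pow_le_pow_left₀ hpq k1 2
    rw [div_le_iff₀ hy1]
    refine this.trans ?_
    simp only [y1]
    rw [mul_div_assoc', le_div_iff₀ hr]
    have g1 := mul_le_mul_of_nonneg_left hr2 (sq_nonneg (p * q))
    have g2 : (p * q) ^ 2 * (2 * p) ≤ 4 * p ^ 2 * (p * q) := by nlinarith [pow_pos hp 3]
    linarith
  have b3 : a3 ^ 2 / y3 ≤ 2 * p ^ 2 := by
    have : a3 ^ 2 ≤ (p ^ 2) ^ 2 := by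
      simp only [a3, neg_sq]
      exact pow_le_pow_left₀ (by positivity) (mul_le_of_le_one_left (by positivity) hw1) 2
    rw [div_le_iff₀ hy3]
    refine this.trans ?_
    simp only [y3]
    rw [mul_div_assoc', le_div_iff₀ hr]
    have g1 := mul_le_mul_of_nonneg_left (show vis q ≤ 2 by linarith) (sq_nonneg (p ^ 2))
    linarith
  linarith

omit h0 in
lemma mass_Gh (h0 : 0 ≤ q) : mass (Gh q) = 0 := by
  simp only [Gh, mass_add, mass_single, wt]
  have : (1 : ℝ) + q ≠ 0 := by linarith
  field_simp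
  ring

lemma Zh_eq : Zh q = Wh q + Gh q := by
  obtain ⟨hr, -, -⟩ := vis_pos h0 h1
  have hq : (1 : ℝ) + q ≠ 0 := by linarith
  have e : ∀ v, wt q * (vis q * (v / vis q)) = wt q * v := fun v => by
    rw [mul_div_cancel₀ _ hr.ne']
  simp only [Zh, Wh, Xh, Yh, Gh, smul_add, smul_single, smul_eq_mul, e]
  have e1 : single (1 : GW) q = single (1 : GW) (1 - wt q) + single 1 (wt q * (1 - vis q)) := by
    rw [← single_add]
    congr 1
    rw [wt, vis]
    field_simp
    ring
  have e2 : single atomF (1 - q) = single atomF (wt q * ((1 - q) * q))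
      + single atomF ((1 - q) - wt q * ((1 - q) * q)) := by
    rw [← single_add]; congr 1; ring
  rw [e1, e2]
  have e3 : ∀ (a : GW) (v : ℝ), single a v + single a (-v) = (0 : Gr) := fun a v => by
    rw [← single_add]; simp
  have e4 : single atomT (wt q * ((1 - q) * q)) + single atomT (-(wt q * ((1 - q) * q)))
      = (0 : Gr) := e3 _ _
  have e5 : single atomB (wt q * (1 - q) ^ 2) + single atomB (-(wt q * (1 - q) ^ 2)) = (0 : Gr) :=
    e3 _ _
  symm
  calc _ = single (1 : GW) (1 - wt q) + single 1 (wt q * (1 - vis q))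
        + (single atomF (wt q * ((1 - q) * q)) + single atomF ((1 - q) - wt q * ((1 - q) * q)))
        + (single atomT (wt q * ((1 - q) * q)) + single atomT (-(wt q * ((1 - q) * q))))
        + (single atomB (wt q * (1 - q) ^ 2) + single atomB (-(wt q * (1 - q) ^ 2))) := by abel
    _ = _ := by rw [e4, e5, add_zero, add_zero]

lemma conc_Yh : Conc (Yh q) 1 0 := by
  obtain ⟨d1, d2, d3⟩ := deg_atom
  refine ⟨prb_Yh h0 h1, ?_, ?_⟩ <;> simp [Yh, pair_add, pair_single, d1, d2, d3]

lemma conc_Xh : Conc (Xh q) (vis q) (vis q) := by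
  obtain ⟨hr, hr2, -⟩ := vis_pos h0 h1
  obtain ⟨hY, hY1, -⟩ := conc_Yh h0 h1
  obtain ⟨d1, d2, d3⟩ := deg_atom
  refine ⟨⟨fun a => ?_, ?_⟩, ?_, ?_⟩
  · simp only [Xh, coeff_add, coeff_smul, Finsupp.add_apply, Finsupp.smul_apply, smul_eq_mul]
    exact add_nonneg (coeff_single_nonneg _ _ (by linarith)) (mul_nonneg hr.le (hY.1 a))
  · rw [Xh, mass_add, mass_single, mass_eq_pair, pair_smul, ← mass_eq_pair, hY.2]; ring
  · rw [Xh, pair_add, pair_smul, pair_single, deg_one]
    have e : pair (Yh q) (fun w => (deg w : ℝ) - vis q) = 1 - vis q := by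
      rw [show (fun w : GW => (deg w : ℝ) - vis q) = fun w => ((deg w : ℝ) - 1) + (1 - vis q) by
        funext w; ring, pair_add_fun, hY1, pair_const, hY.2, mul_one, zero_add]
    rw [e]; push_cast; ring
  · rw [Xh, pair_add, pair_smul, pair_single, deg_one]
    have e : pair (Yh q) (fun w => ((deg w : ℝ) - vis q) ^ 2) = (1 - vis q) ^ 2 := by
      simp only [Yh, pair_add, pair_single, d1, d2, d3]
      push_cast
      have hm := hY.2
      simp only [Yh, mass_add, mass_single] at hm
      linear_combination (1 - vis q) ^ 2 * hm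
    rw [e]; push_cast
    have h5 : vis q * (1 - vis q) ≤ vis q := mul_le_of_le_one_right hr.le (by linarith)
    linarith

lemma conc_Zh : Conc (Zh q) (1 - q) (1 - q) := by
  obtain ⟨d1, -, -⟩ := deg_atom
  refine ⟨⟨fun a => ?_, ?_⟩, ?_, ?_⟩
  · simp only [Zh, coeff_add, Finsupp.add_apply]
    exact add_nonneg (coeff_single_nonneg _ _ (by linarith)) (coeff_single_nonneg _ _ (by linarith))
  · rw [Zh, mass_add, mass_single, mass_single]; ring
  · rw [Zh, pair_add, pair_single, pair_single, deg_one, d1]; push_cast; ring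
  · rw [Zh, pair_add, pair_single, pair_single, deg_one, d1]; push_cast; nlinarith

lemma conc_Wh : Conc (Wh q) (1 - q) (1 - q) := by
  obtain ⟨hr, -, -⟩ := vis_pos h0 h1
  obtain ⟨hw0, hw1⟩ := wt_bounds h0 h1
  obtain ⟨hX, -, -⟩ := conc_Xh h0 h1
  have hGh0 : ∀ φ : GW → ℝ, φ atomF = φ atomT → φ atomF = φ atomB → pair (Gh q) φ = 0 := by
    intro φ h2 h3
    simp only [Gh, pair_add, pair_single, ← h2, ← h3]
    have := mass_Gh h1 (show (0 : ℝ) ≤ q by linarith)
    simp only [Gh, mass_add, mass_single] at this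
    linear_combination φ atomF * this
  have hmean : ∀ φ : GW → ℝ, φ atomF = φ atomT → φ atomF = φ atomB →
      pair (Wh q) φ = pair (Zh q) φ := fun φ h2 h3 => by
    rw [Zh_eq h0 h1, pair_add, hGh0 φ h2 h3, add_zero]
  obtain ⟨-, hZ1, hZ2⟩ := conc_Zh h0 h1
  refine ⟨⟨fun a => ?_, ?_⟩, ?_, ?_⟩
  · simp only [Wh, coeff_add, coeff_smul, Finsupp.add_apply, Finsupp.smul_apply, smul_eq_mul]
    exact add_nonneg (coeff_single_nonneg _ _ (by linarith)) (mul_nonneg hw0 (hX.1 a))
  · rw [Wh, mass_add, mass_single, mass_eq_pair, pair_smul, ← mass_eq_pair, hX.2]; ring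
  · rw [hmean _ rfl rfl]; exact hZ1
  · rw [hmean _ rfl rfl]; exact hZ2

omit h0 in
lemma nrm_Xh_sub_one_le (h0 : 1 / 2 ≤ q) : nrm (Xh q - 1) ≤ 2 * vis q := by
  have hY := prb_Yh h0 h1
  obtain ⟨hr, -, -⟩ := vis_pos h0 h1
  have e : Xh q - 1 = single 1 (-vis q) + vis q • Yh q := by
    rw [Xh, one_def, show (1 : ℝ) - vis q = -vis q + 1 by ring, single_add]
    abel
  rw [e]
  refine (nrm_add_le _ _).trans ?_
  rw [nrm_single, nrm_smul, hY.nrm_eq, abs_neg, abs_of_pos hr]
  linarith

lemma forget_Xh : forget (Xh q) = law q [false, true] := by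
  obtain ⟨hr, -, -⟩ := vis_pos h0 h1
  have e : ∀ v, vis q * (v / vis q) = v := fun v => mul_div_cancel₀ _ hr.ne'
  simp only [Xh, Yh, smul_add, smul_single, smul_eq_mul, e, map_add, forget_single, atomF, atomT,
    atomB, law, chan, List.map_cons, List.map_nil, List.prod_cons, List.prod_nil, mul_one, mul_add,
    add_mul, single_mul_single, one_mul, Prod.fst_one]
  rw [show (1 : ℝ) - vis q = q * q by rw [vis]; ring, show q * (1 - q) = (1 - q) * q by ring,
    show (1 - q) ^ 2 = (1 - q) * (1 - q) by ring]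
  abel

omit h0 h1 in
lemma forget_Zh : forget (Zh q) = law q [false] := by
  simp [Zh, forget_single, atomF, law, chan]

/-- Evaluating the formal slot law. -/
lemma ev_trial : ev (Yh q) (Gh q) (pl (trial (vis q))) = Xh q := by
  rw [pl, ← Polynomial.aeval_algHom_apply, ev_cx, trial, map_add, map_mul, Polynomial.aeval_C,
    Polynomial.aeval_C, Polynomial.aeval_X, Xh, ← Algebra.smul_def, Algebra.algebraMap_eq_smul_one,
    one_def, smul_single, smul_eq_mul, mul_one]

lemma ev_defect (a T : ℕ) : ev (Yh q) (Gh q) (defect (vis q) (wt q) a T)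
    = (Xh q ^ a * Zh q * Xh q ^ (a + 1)) ^ T - (Xh q ^ (2 * a + 1) * Wh q) ^ T := by
  have hpl : ∀ n, ev (Yh q) (Gh q) (pl (trial (vis q) ^ n)) = Xh q ^ n := fun n => by
    rw [pl, map_pow, map_pow, ← pl, ev_trial h0 h1]
  have hK : ev (Yh q) (Gh q) (pl (perP (vis q) (wt q) (2 * a + 1)))
      = Xh q ^ (2 * a + 1) * Wh q := by
    rw [perP, pl, map_mul, map_mul, ← pl, hpl, map_add, map_add, map_mul, map_mul,
      Polynomial.aeval_C, Polynomial.aeval_C, AlgHom.commutes, AlgHom.commutes, ← pl,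
      ev_trial h0 h1, Wh, ← Algebra.smul_def, Algebra.algebraMap_eq_smul_one, one_def,
      smul_single, smul_eq_mul, mul_one]
  have hc : Commute (Xh q) (Wh q) := by
    rw [Wh]
    refine Commute.add_right ?_ ((Commute.refl _).smul_right _)
    rw [show (single (1 : GW) (1 - wt q) : Gr) = (1 - wt q) • 1 by
      rw [one_def, smul_single, smul_eq_mul, mul_one]]
    exact (Commute.one_right _).smul_right _
  rw [defect, map_sub, map_pow, map_pow, map_add, map_mul, map_mul, hK, hpl, hpl, ev_ce]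
  congr 2
  rw [Zh_eq h0 h1, mul_add, add_mul, mul_assoc (Xh q ^ a) (Wh q), ← (hc.pow_left (a + 1)).eq,
    ← mul_assoc, ← pow_add, show a + (a + 1) = 2 * a + 1 by ring]

end

end Vale.Agent.P321.Super
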