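import Vale.Agent.P321.Super.BaseForm
import Vale.Agent.P321.Super.BaseGrade

/-! Densities of formal combinations over sequences of atoms: the second and fourth moments, and
a lower bound for the common mass of two probability laws. -/

namespace Vale.Agent.P321.Super

open MonoidAlgebra Finset Poly

variable {α : Type*} [Fintype α] {y f : α → ℝ}

/-- The element with weight `u x` at the atom `x`. -/
noncomputable def atoms (u : α → ℝ) : MonoidAlgebra ℝ (FreeMonoid α) :=
  ∑ x, single (FreeMonoid.of x) (u x)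

/-- The density of a formal combination at a sequence of atoms. -/
noncomputable def dens (f : α → ℝ) : List α → Cf → ℝ
  | [], c => c.coeff 1
  | x :: l, c => dens f l (tl false c + f x • tl true c)

/-- The expectation over sequences of a fixed length. -/
noncomputable def expc (y : α → ℝ) : ℕ → (List α → ℝ) → ℝ
  | 0, φ => φ []
  | n + 1, φ => ∑ x, y x * expc y n fun l => φ (x :: l)

/-- The measure with a given density on sequences of a fixed length. -/
noncomputable def wsum (y : α → ℝ) : ℕ → (List α → ℝ) → MonoidAlgebra ℝ (FreeMonoid α)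
  | 0, φ => single 1 (φ [])
  | n + 1, φ => ∑ x, single (FreeMonoid.of x) (y x) * wsum y n fun l => φ (x :: l)

omit [Fintype α] in
lemma dens_add : ∀ (l : List α) (c d : Cf), dens f l (c + d) = dens f l c + dens f l d
  | [], c, d => by simp [dens]
  | x :: l, c, d => by
    rw [dens, dens, dens, ← dens_add l, tl_add, tl_add, smul_add]
    congr 1
    abel

omit [Fintype α] in
lemma dens_smul : ∀ (l : List α) (r : ℝ) (c : Cf), dens f l (r • c) = r * dens f l c
  | [], r, c => by simp [dens]
  | x :: l, r, c => by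
    rw [dens, dens, ← dens_smul l, tl_smul, tl_smul, smul_add, smul_comm]

lemma expc_add : ∀ (n : ℕ) (φ ψ : List α → ℝ),
    expc y n (fun l => φ l + ψ l) = expc y n φ + expc y n ψ
  | 0, φ, ψ => by simp [expc]
  | n + 1, φ, ψ => by
    simp only [expc, ← sum_add_distrib, ← mul_add]
    exact sum_congr rfl fun x _ => congrArg _ (expc_add n _ _)

lemma expc_const_mul : ∀ (n : ℕ) (r : ℝ) (φ : List α → ℝ),
    expc y n (fun l => r * φ l) = r * expc y n φ
  | 0, r, φ => by simp [expc]
  | n + 1, r, φ => by
    simp only [expc, mul_sum]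
    exact sum_congr rfl fun x _ => by rw [expc_const_mul n, mul_left_comm]

lemma expc_congr : ∀ (n : ℕ) (φ ψ : List α → ℝ), (∀ l, l.length = n → φ l = ψ l) →
    expc y n φ = expc y n ψ
  | 0, φ, ψ, h => by simp [expc, h [] rfl]
  | n + 1, φ, ψ, h => by
    simp only [expc]
    exact sum_congr rfl fun x _ => congrArg _ (expc_congr n _ _ fun l hl => h _ (by simp [hl]))

lemma expc_mono (hy : ∀ x, 0 ≤ y x) : ∀ (n : ℕ) (φ ψ : List α → ℝ),
    (∀ l, l.length = n → φ l ≤ ψ l) → expc y n φ ≤ expc y n ψ
  | 0, φ, ψ, h => h [] rfl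
  | n + 1, φ, ψ, h => sum_le_sum fun x _ =>
      mul_le_mul_of_nonneg_left (expc_mono hy n _ _ fun l hl => h _ (by simp [hl])) (hy x)

lemma expc_nonneg (hy : ∀ x, 0 ≤ y x) : ∀ (n : ℕ) (φ : List α → ℝ),
    (∀ l, l.length = n → 0 ≤ φ l) → 0 ≤ expc y n φ
  | 0, φ, h => h [] rfl
  | n + 1, φ, h => sum_nonneg fun x _ =>
      mul_nonneg (hy x) (expc_nonneg hy n _ fun l hl => h _ (by simp [hl]))

lemma expc_sq_le (hy : ∀ x, 0 ≤ y x) : ∀ (n : ℕ) (φ ψ : List α → ℝ),
    (expc y n fun l => φ l * ψ l) ^ 2
      ≤ (expc y n fun l => φ l ^ 2) * expc y n fun l => ψ l ^ 2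
  | 0, φ, ψ => by simp [expc, mul_pow]
  | n + 1, φ, ψ => by
    simp only [expc]
    refine sum_sq_le_sum_mul_sum_of_sq_le_mul univ
      (fun x _ => mul_nonneg (hy x) (expc_nonneg hy n _ fun l _ => sq_nonneg _))
      (fun x _ => mul_nonneg (hy x) (expc_nonneg hy n _ fun l _ => sq_nonneg _)) fun x _ => ?_
    rw [mul_pow, mul_mul_mul_comm, ← sq (y x)]
    exact mul_le_mul_of_nonneg_left (expc_sq_le hy n _ _) (sq_nonneg _)

lemma nrm_wsum_le (hy : ∀ x, 0 ≤ y x) : ∀ (n : ℕ) (φ : List α → ℝ),
    nrm (wsum y n φ) ≤ expc y n fun l => |φ l|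
  | 0, φ => by simp [wsum, expc]
  | n + 1, φ => by
    simp only [wsum, expc]
    refine (nrm_sum_le _ _).trans (sum_le_sum fun x _ => (nrm_mul_le _ _).trans ?_)
    rw [nrm_single, abs_of_nonneg (hy x)]
    exact mul_le_mul_of_nonneg_left (nrm_wsum_le hy n _) (hy x)

lemma mass_wsum : ∀ (n : ℕ) (φ : List α → ℝ), mass (wsum y n φ) = expc y n φ
  | 0, φ => by simp [wsum, expc]
  | n + 1, φ => by
    simp only [wsum, expc, mass_sum, mass_mul, mass_single]
    exact sum_congr rfl fun x _ => by rw [mass_wsum n]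

lemma coeff_wsum : ∀ (n : ℕ) (φ : List α → ℝ) (l : List α),
    (wsum y n φ).coeff (FreeMonoid.ofList l)
      = if l.length = n then (l.map y).prod * φ l else 0
  | 0, φ, l => by
    classical
    cases l with
    | nil => simp [wsum]
    | cons a l =>
      rw [wsum, coeff_single, Finsupp.single_eq_of_ne]
      · simp
      · intro e
        simpa using congrArg FreeMonoid.toList e
  | n + 1, φ, l => by
    classical
    rw [wsum, coeff_sum, Finsupp.finsetSum_apply]
    cases l with
    | nil =>
      simp only [List.length_nil, show (0 : ℕ) ≠ n + 1 by omega, if_false]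
      refine sum_eq_zero fun x _ => ?_
      rw [coeff_single_mul_of_forall_mul_ne]
      intro d hd
      simpa using congrArg FreeMonoid.toList hd
    | cons a l =>
      rw [sum_eq_single a]
      · rw [show FreeMonoid.ofList (a :: l) = FreeMonoid.of a * FreeMonoid.ofList l from rfl,
          coeff_single_mul_eq_mul_coeff (FreeMonoid.ofList l), coeff_wsum n]
        · simp only [List.length_cons, add_left_inj, List.map_cons, List.prod_cons]
          split_ifs <;> ring
        · intro d _
          exact ⟨fun hd => mul_left_cancel hd, fun hd => by rw [hd]⟩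
      · intro x _ hx
        rw [coeff_single_mul_of_forall_mul_ne]
        intro d hd
        have := congrArg FreeMonoid.toList hd
        simp at this
        exact hx this.1
      · simp

/-- Evaluation in the atom algebra is integration of the density. -/
lemma ev_eq_wsum : ∀ (n : ℕ) (c : Cf), Hom n c →
    ev (atoms y) (atoms fun x => y x * f x) c = wsum y n fun l => dens f l c
  | 0, c, hc => by
    simp only [wsum, dens]
    conv_lhs => rw [eq_single_of_hom_zero hc]
    simp [one_def]
  | n + 1, c, hc => by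
    conv_lhs => rw [eq_cx_ce hc]
    rw [map_add, map_mul, map_mul, ev_cx, ev_ce]
    simp only [wsum, atoms, sum_mul, ← sum_add_distrib]
    refine sum_congr rfl fun x _ => ?_
    show _ = single (FreeMonoid.of x) (y x) * wsum y n fun l => dens f l (tl false c + f x • tl true c)
    rw [← ev_eq_wsum n _ (hom_add (hom_tl hc _) (hom_smul (hom_tl hc _) _)), map_add, map_smul,
      mul_add, mul_smul_comm, ← smul_mul_assoc, smul_single, smul_eq_mul, mul_comm (f x)]
    rfl

lemma ip_cx_ce (h : ℝ) (u v : Cf) :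
    ip h (cx * u) (cx * v) = ip h u v ∧ ip h (ce * u) (ce * v) = h * ip h u v
      ∧ ip h (cx * u) (ce * v) = 0 ∧ ip h (ce * u) (cx * v) = 0 := by
  induction u using MonoidAlgebra.induction_linear with
  | zero => simp
  | add x y ex ey =>
    rw [mul_add, mul_add, ip_add_left, ip_add_left, ip_add_left, ip_add_left, ip_add_left,
      ex.1, ey.1, ex.2.1, ey.2.1, ex.2.2.1, ey.2.2.1, ex.2.2.2, ey.2.2.2]
    exact ⟨rfl, by ring, by ring, by ring⟩
  | single z a =>
    induction v using MonoidAlgebra.induction_linear with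
    | zero => simp
    | add x y ex ey =>
      rw [mul_add, mul_add, ip_add_right, ip_add_right, ip_add_right, ip_add_right, ip_add_right,
        ex.1, ey.1, ex.2.1, ey.2.1, ex.2.2.1, ey.2.2.1, ex.2.2.2, ey.2.2.2]
      exact ⟨rfl, by ring, by ring, by ring⟩
    | single w b =>
      classical
      have n1 : ∀ (i : Bool) (p r : FreeMonoid Bool),
          FreeMonoid.of i * p = FreeMonoid.of i * r ↔ p = r :=
        fun i p r => ⟨fun e => mul_left_cancel e, fun e => by rw [e]⟩
      have n2 : ∀ p r : FreeMonoid Bool, FreeMonoid.of true * p ≠ FreeMonoid.of false * r :=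
        fun p r e => by simpa using congrArg FreeMonoid.toList e
      simp only [cx, ce, single_mul_single, ip_single, coeff_single, Finsupp.single_apply, one_mul,
        FreeMonoid.toList_mul, FreeMonoid.toList_of, List.singleton_append, List.count_cons_self,
        List.count_cons_of_ne (show (false : Bool) ≠ true by decide), n1, n2, (n2 _ _).symm,
        if_false, mul_zero, zero_mul, pow_succ]
      refine ⟨trivial, ?_, trivial, trivial⟩
      ring

lemma ip_split {h : ℝ} {n : ℕ} {c d : Cf} (hc : Hom (n + 1) c) (hd : Hom (n + 1) d) :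
    ip h c d = ip h (tl false c) (tl false d) + h * ip h (tl true c) (tl true d) := by
  conv_lhs => rw [eq_cx_ce hc, eq_cx_ce hd]
  rw [ip_add_left, ip_add_right, ip_add_right, (ip_cx_ce h _ _).1, (ip_cx_ce h _ _).2.1,
    (ip_cx_ce h _ _).2.2.1, (ip_cx_ce h _ _).2.2.2]
  ring

/-- The second moment. -/
lemma expc_dens_mul {h : ℝ} (h1 : ∑ x, y x = 1) (h0 : ∑ x, y x * f x = 0)
    (h2 : ∑ x, y x * f x ^ 2 = h) : ∀ (n : ℕ) (c d : Cf), Hom n c → Hom n d →
    (expc y n fun l => dens f l c * dens f l d) = ip h c d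
  | 0, c, d, hc, hd => by
    conv_rhs => rw [eq_single_of_hom_zero hc]
    simp [expc, dens, ip_single]
  | n + 1, c, d, hc, hd => by
    set A := ip h (tl false c) (tl false d)
    set B := ip h (tl true c) (tl true d)
    set U := ip h (tl false c) (tl true d) + ip h (tl true c) (tl false d)
    have key : ∀ x, (expc y n fun l => dens f (x :: l) c * dens f (x :: l) d)
        = A + (f x * U + f x ^ 2 * B) := by
      intro x
      have hA := expc_dens_mul h1 h0 h2 n _ _ (hom_tl hc false) (hom_tl hd false)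
      have hB := expc_dens_mul h1 h0 h2 n _ _ (hom_tl hc true) (hom_tl hd true)
      have hU1 := expc_dens_mul h1 h0 h2 n _ _ (hom_tl hc false) (hom_tl hd true)
      have hU2 := expc_dens_mul h1 h0 h2 n _ _ (hom_tl hc true) (hom_tl hd false)
      simp only [A, B, U, ← hA, ← hB, ← hU1, ← hU2, ← expc_add, ← expc_const_mul]
      refine expc_congr n _ _ fun l _ => ?_
      simp only [dens, dens_add, dens_smul]
      ring
    rw [ip_split hc hd]
    simp only [expc, key, mul_add, sum_add_distrib, ← sum_mul, ← mul_assoc, h1, h0]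
    rw [h2]
    ring

/-- The fourth moment. -/
lemma expc_dens_four {h H F : ℝ} (hy : ∀ x, 0 ≤ y x) (h1 : ∑ x, y x = 1)
    (h0 : ∑ x, y x * f x = 0) (h2 : ∑ x, y x * f x ^ 2 = h) (hF : ∀ x, f x ^ 2 ≤ F)
    (hH0 : 0 ≤ H) (hH : 4 * h ≤ H) (hH2 : 3 * (F * h) ≤ H ^ 2) :
    ∀ (n : ℕ) (c : Cf), Hom n c → (expc y n fun l => dens f l c ^ 4) ≤ qf H c ^ 2
  | 0, c, hc => by
    conv_rhs => rw [eq_single_of_hom_zero hc]
    simp only [expc, dens, qf_single, FreeMonoid.toList_one, List.count_nil, pow_zero, mul_one]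
    rw [← pow_mul]
  | n + 1, c, hc => by
    set c0 := tl false c
    set c1 := tl true c
    set P := fun l => dens f l c0
    set Q := fun l => dens f l c1
    set q0 := qf H c0
    set q1 := qf H c1
    have hq0 : 0 ≤ q0 := qf_nonneg hH0 c0
    have hq1 : 0 ≤ q1 := qf_nonneg hH0 c1
    have e0 := expc_dens_four hy h1 h0 h2 hF hH0 hH hH2 n _ (hom_tl hc false)
    have e1 := expc_dens_four hy h1 h0 h2 hF hH0 hH hH2 n _ (hom_tl hc true)
    have h4 : ∑ x, y x * f x ^ 4 ≤ F * h := by
      rw [← h2, mul_sum]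
      refine sum_le_sum fun x _ => ?_
      calc y x * f x ^ 4 = f x ^ 2 * (y x * f x ^ 2) := by ring
        _ ≤ _ := mul_le_mul_of_nonneg_right (hF x) (mul_nonneg (hy x) (sq_nonneg _))
    have hh : 0 ≤ h := h2 ▸ sum_nonneg fun x _ => mul_nonneg (hy x) (sq_nonneg _)
    set A := expc y n fun l => P l ^ 4
    set M := expc y n fun l => P l ^ 2 * Q l ^ 2
    set B := expc y n fun l => Q l ^ 4
    set U := expc y n fun l => P l ^ 3 * Q l
    have key : ∀ x, (expc y n fun l => dens f (x :: l) c ^ 4)
        ≤ A + (f x * (4 * U) + (f x ^ 2 * (8 * M) + f x ^ 4 * (3 * B))) := by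
      intro x
      simp only [A, M, B, U, ← expc_add, ← expc_const_mul]
      refine expc_mono hy n _ _ fun l _ => ?_
      have : dens f (x :: l) c = P l + f x * Q l := by simp [dens, dens_add, dens_smul, P, Q, c0, c1]
      rw [this]
      have h3 := mul_nonneg (sq_nonneg (f x)) (mul_nonneg (sq_nonneg (Q l))
        (sq_nonneg (P l - f x * Q l)))
      nlinarith
    have hM : M ≤ q0 * q1 := by
      have hs := expc_sq_le hy n (fun l => P l ^ 2) (fun l => Q l ^ 2)
      simp only [← pow_mul] at hs
      have h5 : M ^ 2 ≤ (q0 * q1) ^ 2 := by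
        rw [mul_pow]
        refine hs.trans (mul_le_mul e0 e1 (expc_nonneg hy n _ fun l _ => ?_) (sq_nonneg _))
        exact Even.pow_nonneg (by decide) _
      exact (abs_le_of_sq_le_sq' h5 (mul_nonneg hq0 hq1)).2
    have hsplit : qf H c = q0 + H * q1 := by
      simp only [q0, q1, qf_eq_ip, ip_split hc hc, c0, c1]
    rw [hsplit]
    simp only [expc]
    refine (sum_le_sum fun x _ => mul_le_mul_of_nonneg_left (key x) (hy x)).trans ?_
    simp only [mul_add, sum_add_distrib, ← sum_mul, ← mul_assoc, h1, h0]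
    rw [h2]
    have a1 : h * (8 * M) ≤ 2 * H * (q0 * q1) := by
      have h6 := mul_le_mul_of_nonneg_left hM (show 0 ≤ 8 * h by linarith)
      have h7 := mul_le_mul_of_nonneg_right (show 8 * h ≤ 2 * H by linarith) (mul_nonneg hq0 hq1)
      linarith
    have hB0 : 0 ≤ B := expc_nonneg hy n _ fun l _ => Even.pow_nonneg (by decide) _
    have a2 : (∑ x, y x * f x ^ 4) * (3 * B) ≤ H ^ 2 * q1 ^ 2 := by
      have h6 := mul_le_mul_of_nonneg_right h4 (show 0 ≤ 3 * B by linarith)
      have h7 : 3 * (F * h) * B ≤ H ^ 2 * q1 ^ 2 :=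
        mul_le_mul hH2 e1 hB0 (sq_nonneg _)
      linarith
    have a0 : A ≤ q0 ^ 2 := e0
    linarith

lemma coeff_part (n : ℕ) (c : Cf) (v : FreeMonoid Bool) :
    (part n c).coeff v = if (FreeMonoid.toList v).length = n then c.coeff v else 0 := by
  classical
  rw [part, coeff_sum, Finsupp.finsetSum_apply]
  simp only [coeff_single, Finsupp.single_apply]
  rw [sum_ite_eq']
  simp only [mem_filter, Finsupp.mem_support_iff]
  by_cases h : (FreeMonoid.toList v).length = n <;> by_cases h' : c.coeff v = 0 <;> simp [h, h']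

lemma sum_part {N : ℕ} {c : Cf}
    (h : ∀ v ∈ c.coeff.support, (FreeMonoid.toList v).length < N) :
    ∑ n ∈ range N, part n c = c := by
  classical
  ext v
  rw [coeff_sum, Finsupp.finsetSum_apply]
  simp only [coeff_part]
  rw [sum_ite_eq]
  split_ifs with hv
  · rfl
  · by_contra hne
    exact hv (mem_range.2 (h v (Finsupp.mem_support_iff.2 fun e => hne e.symm)))

/-- A grade of a probability law has a nonnegative density. -/
lemma dens_part_nonneg (hy : ∀ x, 0 < y x) {N : ℕ} {c : Cf}
    (hN : ∀ v ∈ c.coeff.support, (FreeMonoid.toList v).length < N)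
    (hP : ∀ w, 0 ≤ (ev (atoms y) (atoms fun x => y x * f x) c).coeff w) {l : List α}
    (hl : l.length < N) : 0 ≤ dens f l (part l.length c) := by
  have h := hP (FreeMonoid.ofList l)
  rw [← sum_part hN, map_sum, coeff_sum, Finsupp.finsetSum_apply,
    sum_congr rfl fun n _ => congrArg (fun Z => Z.coeff (FreeMonoid.ofList l))
      (ev_eq_wsum n _ (hom_part n c)), sum_eq_single l.length] at h
  · rw [coeff_wsum, if_pos rfl] at h
    exact nonneg_of_mul_nonneg_right h (List.prod_pos (by simpa using fun x _ => hy x))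
  · intro n _ hn
    rw [coeff_wsum, if_neg hn.symm]
  · intro hn
    exact absurd (mem_range.2 hl) hn

/-- Two laws whose grades share second moments, with bounded fourth moments, share mass. -/
theorem nrm_sub_le_of_moments {h H F S : ℝ} {c d : Cf} {N : ℕ} {W : Finset ℕ} {u : ℕ → ℝ}
    (hy : ∀ x, 0 < y x) (h1 : ∑ x, y x = 1)
    (h0 : ∑ x, y x * f x = 0) (h2 : ∑ x, y x * f x ^ 2 = h) (hF : ∀ x, f x ^ 2 ≤ F)
    (hH : 4 * h ≤ H) (hH2 : 3 * (F * h) ≤ H ^ 2)
    (hc : Prb (ev (atoms y) (atoms fun x => y x * f x) c))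
    (hd : Prb (ev (atoms y) (atoms fun x => y x * f x) d))
    (hcN : ∀ v ∈ c.coeff.support, (FreeMonoid.toList v).length < N)
    (hdN : ∀ v ∈ d.coeff.support, (FreeMonoid.toList v).length < N)
    (hc0 : ∀ v, 0 ≤ c.coeff v) (hd0 : ∀ v, 0 ≤ d.coeff v)
    (hW : W ⊆ range N)
    (huc : ∀ k ∈ W, u k ≤ c.coeff (FreeMonoid.of false ^ k))
    (hud : ∀ k ∈ W, u k ≤ d.coeff (FreeMonoid.of false ^ k))
    (hu : 3 / 4 ≤ ∑ k ∈ W, u k) (hS : 0 < S) (hSc : qf H c ≤ S) (hSd : qf H d ≤ S) :
    nrm (ev (atoms y) (atoms fun x => y x * f x) c - ev (atoms y) (atoms fun x => y x * f x) d)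
      ≤ 2 - 3 / (512 * (S * W.card)) := by
  classical
  have hy0 : ∀ x, 0 ≤ y x := fun x => (hy x).le
  have hh : 0 ≤ h := h2 ▸ sum_nonneg fun x _ => mul_nonneg (hy0 x) (sq_nonneg _)
  have hH0 : 0 ≤ H := by linarith
  set dc := fun k l => dens f l (part k c) with hdc
  set dd := fun k l => dens f l (part k d) with hdd
  set ov := fun k => expc y k fun l => min (dc k l) (dd k l) with hov
  have pc : ∀ k ∈ range N, ∀ l, l.length = k → 0 ≤ dc k l := fun k hk l hl => by
    subst hl; exact dens_part_nonneg hy hcN hc.1 (mem_range.1 hk)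
  have pd : ∀ k ∈ range N, ∀ l, l.length = k → 0 ≤ dd k l := fun k hk l hl => by
    subst hl; exact dens_part_nonneg hy hdN hd.1 (mem_range.1 hk)
  have ov0 : ∀ k ∈ range N, 0 ≤ ov k := fun k hk =>
    expc_nonneg hy0 k _ fun l hl => le_min (pc k hk l hl) (pd k hk l hl)
  -- the norm
  have hmass : ∀ e : Cf, (∀ v ∈ e.coeff.support, (FreeMonoid.toList v).length < N) →
      mass (ev (atoms y) (atoms fun x => y x * f x) e)
        = ∑ k ∈ range N, expc y k fun l => dens f l (part k e) := fun e he => by
    conv_lhs => rw [← sum_part he, map_sum, mass_sum]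
    exact sum_congr rfl fun k _ => by rw [ev_eq_wsum k _ (hom_part k e), mass_wsum]
  have hnorm : nrm (ev (atoms y) (atoms fun x => y x * f x) c
      - ev (atoms y) (atoms fun x => y x * f x) d) ≤ 2 - 2 * ∑ k ∈ W, ov k := by
    conv_lhs => rw [← sum_part hcN, ← sum_part hdN, map_sum, map_sum, ← sum_sub_distrib]
    have e1 := hmass c hcN
    have e2 := hmass d hdN
    rw [hc.2] at e1
    rw [hd.2] at e2
    have e3 : ∑ k ∈ W, ov k ≤ ∑ k ∈ range N, ov k :=
      sum_le_sum_of_subset_of_nonneg hW fun k hk _ => ov0 k hk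
    refine (nrm_sum_le _ _).trans (le_trans (sum_le_sum fun k hk => ?_)
      (le_of_eq_of_le (show ∑ k ∈ range N, ((expc y k (dc k)) + (expc y k (dd k)) + -2 * ov k)
        = 2 - 2 * ∑ k ∈ range N, ov k by
          rw [sum_add_distrib, sum_add_distrib, ← mul_sum, ← e1, ← e2]; ring) (by linarith)))
    rw [ev_eq_wsum k _ (hom_part k c), ev_eq_wsum k _ (hom_part k d)]
    have e : wsum y k (fun l => dens f l (part k c)) - wsum y k (fun l => dens f l (part k d))
        = wsum y k (fun l => dens f l (part k c - part k d)) := by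
      rw [← ev_eq_wsum k _ (hom_part k c), ← ev_eq_wsum k _ (hom_part k d),
        ← ev_eq_wsum k _ (hom_sub (hom_part k c) (hom_part k d)), map_sub]
    rw [e]
    refine (nrm_wsum_le hy0 k _).trans ?_
    simp only [hov, ← expc_const_mul, ← expc_add]
    refine expc_mono hy0 k _ _ fun l _ => ?_
    rw [sub_eq_add_neg (part k c), show -part k d = (-1 : ℝ) • part k d by simp, dens_add, dens_smul]
    simp only [hdc, hdd]
    rcases le_total (dens f l (part k c)) (dens f l (part k d)) with hle | hle
    · rw [min_eq_left hle, abs_of_nonpos (by linarith)]; linarith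
    · rw [min_eq_right hle, abs_of_nonneg (by linarith)]; linarith
  -- one grade
  set z := fun k => qf H (part k c) + qf H (part k d) with hz
  have hz0 : ∀ k, 0 ≤ z k := fun k => add_nonneg (qf_nonneg hH0 _) (qf_nonneg hH0 _)
  have hgrade : ∀ k ∈ W, 0 < u k → 3 / 8 * u k ^ 3 ≤ z k * ov k := by
    intro k hk hupos
    have hkN := hW hk
    have hhom := hom_part k c
    have hcross : u k ^ 2 ≤ ip h (part k c) (part k d) := by
      have hlen : (FreeMonoid.toList (FreeMonoid.of false ^ k)).length = k := by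
        simp [toList_of_pow]
      have hcnt : (FreeMonoid.toList (FreeMonoid.of false ^ k)).count true = 0 := by
        rw [toList_of_pow]; exact count_replicate_false k
      have hw : (part k c).coeff (FreeMonoid.of false ^ k) = c.coeff (FreeMonoid.of false ^ k) := by
        rw [coeff_part, if_pos hlen]
      have hnn : ∀ e : Cf, (∀ v, 0 ≤ e.coeff v) → ∀ v, 0 ≤ (part k e).coeff v := fun e he v => by
        rw [coeff_part]; split_ifs; exacts [he v, le_rfl]
      have hmem : FreeMonoid.of false ^ k ∈ (part k c).coeff.support := by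
        rw [Finsupp.mem_support_iff, hw]
        linarith [huc k hk]
      refine le_trans ?_ (single_le_sum (fun v _ => mul_nonneg (mul_nonneg (hnn c hc0 v)
        (hnn d hd0 v)) (pow_nonneg hh _)) hmem)
      simp only [hcnt, pow_zero, mul_one, hw, coeff_part k d, if_pos hlen, sq]
      exact mul_le_mul (huc k hk) (hud k hk) hupos.le (hc0 _)
    rw [← expc_dens_mul h1 h0 h2 k _ _ (hom_part k c) (hom_part k d)] at hcross
    have q1 := expc_dens_four hy0 h1 h0 h2 hF hH0 hH hH2 k _ (hom_part k c)
    have q2 := expc_dens_four hy0 h1 h0 h2 hF hH0 hH hH2 k _ (hom_part k d)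
    have hfour : expc y k (fun l => dc k l ^ 4) + expc y k (fun l => dd k l ^ 4) ≤ z k ^ 2 := by
      refine (add_le_add q1 q2).trans ?_
      have := mul_nonneg (qf_nonneg hH0 (part k c)) (qf_nonneg hH0 (part k d))
      simp only [hz]
      linarith [add_sq (qf H (part k c)) (qf H (part k d))]
    have hzk : 0 < z k := by
      have hlen : (FreeMonoid.toList (FreeMonoid.of false ^ k)).length = k := by
        simp [toList_of_pow]
      have hw : (part k c).coeff (FreeMonoid.of false ^ k) = c.coeff (FreeMonoid.of false ^ k) := by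
        rw [coeff_part, if_pos hlen]
      have hmem : FreeMonoid.of false ^ k ∈ (part k c).coeff.support := by
        rw [Finsupp.mem_support_iff, hw]
        linarith [huc k hk]
      have h3 := single_le_sum (f := fun v => (part k c).coeff v ^ 2
        * H ^ (FreeMonoid.toList v).count true)
        (fun v _ => mul_nonneg (sq_nonneg _) (pow_nonneg hH0 _)) hmem
      rw [toList_of_pow, count_replicate_false, pow_zero, mul_one, hw] at h3
      have h4 : u k ^ 2 ≤ c.coeff (FreeMonoid.of false ^ k) ^ 2 :=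
        pow_le_pow_left₀ hupos.le (huc k hk) 2
      exact lt_of_lt_of_le (pow_pos hupos 2) ((h4.trans h3).trans
        (le_add_of_nonneg_right (qf_nonneg hH0 _)))
    set M := 2 * z k / u k with hM
    have hM0 : 0 < M := div_pos (by linarith) hupos
    have hpt : expc y k (fun l => dc k l * dd k l)
        ≤ M * ov k + 1 / M ^ 2 * (expc y k (fun l => dc k l ^ 4) + expc y k fun l => dd k l ^ 4) := by
      simp only [hov, ← expc_add, ← expc_const_mul]
      refine expc_mono hy0 k _ _ fun l hl => ?_
      have p1 := pc k hkN l hl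
      have p2 := pd k hkN l hl
      have key : ∀ a b : ℝ, 0 ≤ a → a ≤ b → a * b ≤ M * a + 1 / M ^ 2 * (a ^ 4 + b ^ 4) := by
        intro a b ha hab
        have hb : 0 ≤ b := ha.trans hab
        have hr : 0 ≤ 1 / M ^ 2 * a ^ 4 := by positivity
        rcases le_total b M with hbM | hbM
        · have := mul_le_mul_of_nonneg_left hbM ha
          have : 0 ≤ 1 / M ^ 2 * b ^ 4 := by positivity
          linarith
        · have g1 : a * b ≤ b ^ 2 := by rw [sq]; exact mul_le_mul_of_nonneg_right hab hb
          have g2 : b ^ 2 ≤ 1 / M ^ 2 * b ^ 4 := by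
            rw [one_div_mul_eq_div, le_div_iff₀ (by positivity)]
            calc b ^ 2 * M ^ 2 ≤ b ^ 2 * b ^ 2 :=
                  mul_le_mul_of_nonneg_left (pow_le_pow_left₀ hM0.le hbM 2) (sq_nonneg _)
              _ = b ^ 4 := by ring
          have := mul_nonneg hM0.le ha
          linarith
      rcases le_total (dc k l) (dd k l) with hle | hle
      · rw [min_eq_left hle]; exact key _ _ p1 hle
      · rw [min_eq_right hle, mul_comm (dc k l), add_comm (dc k l ^ 4)]; exact key _ _ p2 hle
    have h5 : 1 / M ^ 2 * (expc y k (fun l => dc k l ^ 4) + expc y k fun l => dd k l ^ 4)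
        ≤ u k ^ 2 / 4 := by
      refine (mul_le_mul_of_nonneg_left hfour (by positivity)).trans (le_of_eq ?_)
      rw [hM]; field_simp; ring
    have h6 : u k ^ 2 * (3 / 4) ≤ M * ov k := by linarith [hcross.trans hpt]
    rw [hM, div_mul_eq_mul_div, le_div_iff₀ hupos] at h6
    linarith
  -- all grades
  have hW0 : 0 < (W.card : ℝ) := by
    rcases W.eq_empty_or_nonempty with he | he
    · rw [he, sum_empty] at hu; linarith
    · exact_mod_cast card_pos.2 he
  have hzS : ∑ k ∈ W, z k ≤ 2 * S := by
    simp only [hz, sum_add_distrib]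
    linarith [sum_qf_part_le hH0 c W, sum_qf_part_le hH0 d W]
  set o := 1 / (4 * (W.card : ℝ)) with ho
  set lam := 8 * S with hlam
  have ho0 : 0 < o := by positivity
  have hlam0 : 0 < lam := by positivity
  have key : ∀ k ∈ W, u k ≤ o + z k / lam + 8 * lam / (3 * o) * ov k := by
    intro k hk
    have := ov0 k (hW hk)
    have g1 : 0 ≤ 8 * lam / (3 * o) * ov k := by positivity
    have g2 : 0 ≤ z k / lam := div_nonneg (hz0 k) hlam0.le
    rcases le_or_gt (u k) o with hko | hko
    · linarith
    rcases le_or_gt (lam * u k) (z k) with hkz | hkz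
    · rw [mul_comm, ← le_div_iff₀ hlam0] at hkz; linarith
    have hupos : 0 < u k := ho0.trans hko
    have hg := hgrade k hk hupos
    have h7 : z k * ov k ≤ lam * u k * ov k := mul_le_mul_of_nonneg_right hkz.le this
    have h8 : 3 / 8 * (o * u k ^ 2) ≤ 3 / 8 * u k ^ 3 := by
      rw [pow_succ (u k) 2, mul_comm (u k ^ 2)]
      exact mul_le_mul_of_nonneg_left (mul_le_mul_of_nonneg_right hko.le (sq_nonneg _)) (by norm_num)
    have h9 : 3 / 8 * o * u k * u k ≤ lam * ov k * u k := by
      calc 3 / 8 * o * u k * u k = 3 / 8 * (o * u k ^ 2) := by ring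
        _ ≤ _ := (h8.trans hg).trans (h7.trans_eq (by ring))
    have h10 := le_of_mul_le_mul_right h9 hupos
    have h11 : u k ≤ 8 * lam / (3 * o) * ov k := by
      rw [div_mul_eq_mul_div, le_div_iff₀ (by positivity)]; linarith
    linarith
  have hsum := sum_le_sum key
  rw [sum_add_distrib, sum_add_distrib, sum_const, nsmul_eq_mul, ← sum_div, ← mul_sum] at hsum
  have a1 : (W.card : ℝ) * o = 1 / 4 := by rw [ho]; field_simp
  have a2 : (∑ k ∈ W, z k) / lam ≤ 1 / 4 := by
    rw [div_le_iff₀ hlam0, hlam]; linarith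
  have a3 : 8 * lam / (3 * o) = 256 / 3 * (S * W.card) := by rw [ho, hlam]; field_simp; ring
  rw [a1, a3] at hsum
  have h12 : 3 / (1024 * (S * W.card)) ≤ ∑ k ∈ W, ov k := by
    rw [div_le_iff₀ (by positivity)]; linarith
  have h13 : 2 * (3 / (1024 * (S * (W.card : ℝ)))) = 3 / (512 * (S * W.card)) := by ring
  linarith

end Vale.Agent.P321.Super
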