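import Vale.Agent.P321.Super.BaseLift
import Vale.Agent.P321.Super.SeqDens
import Vale.Agent.P321.Super.AllGap

/-! Consecutive powers of the base period share mass, at every deletion probability in `(0, 1)`. -/

namespace Vale.Agent.P321.Super

open MonoidAlgebra Finset Poly
open Polynomial (C)

/-- The words carried by the three atoms of a slot `01`. -/
def atomWord : Fin 3 → FreeMonoid Bool :=
  ![FreeMonoid.of false, FreeMonoid.of true, FreeMonoid.of false * FreeMonoid.of true]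

/-- Read the atoms as traces. -/
noncomputable def toTr : MonoidAlgebra ℝ (FreeMonoid (Fin 3)) →ₐ[ℝ] Tr :=
  mapDomainAlgHom ℝ ℝ (FreeMonoid.lift atomWord)

lemma nrm_toTr_le (Z : MonoidAlgebra ℝ (FreeMonoid (Fin 3))) : nrm (toTr Z) ≤ nrm Z := by
  conv_lhs => rw [← sum_single_eq Z, map_sum]
  refine (nrm_sum_le _ _).trans (le_of_eq ?_)
  have e : ∀ w v, toTr (single w v) = single (FreeMonoid.lift atomWord w) v :=
    fun w v => mapDomain_single
  simp only [e, nrm_single]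
  rfl

/-- The visible law of a slot over its atoms. -/
noncomputable def atomY (q : ℝ) : Fin 3 → ℝ :=
  ![(1 - q) * q / vis q, (1 - q) * q / vis q, (1 - q) ^ 2 / vis q]

/-- The signed defect of the short slot over the atoms. -/
noncomputable def atomG (q : ℝ) : Fin 3 → ℝ :=
  ![(1 - q) - wt q * ((1 - q) * q), -(wt q * ((1 - q) * q)), -(wt q * (1 - q) ^ 2)]

lemma coeff_pl_pow (k : ℕ) (P : Polynomial ℝ) :
    (pl P).coeff (FreeMonoid.of false ^ k) = P.coeff k := by
  classical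
  induction P using Polynomial.induction_on' with
  | add p p' e e' => rw [pl, map_add, ← pl, ← pl, coeff_add, Finsupp.add_apply, e, e',
      Polynomial.coeff_add]
  | monomial l v =>
    rw [pl_monomial, coeff_single, Finsupp.single_apply, Polynomial.coeff_monomial]
    refine if_congr ⟨fun e => ?_, fun e => by rw [e]⟩ rfl rfl
    simpa [toList_of_pow] using congrArg (fun m => (FreeMonoid.toList m).length) e

lemma pl_eq_sum {P : Polynomial ℝ} {N : ℕ} (h : P.natDegree < N) :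
    pl P = ∑ k ∈ range N, single (FreeMonoid.of false ^ k) (P.coeff k) := by
  conv_lhs => rw [P.as_sum_range' N h]
  rw [pl, map_sum]
  exact sum_congr rfl fun k _ => pl_monomial k _

lemma coeff_mul_nonneg {M : Type*} [Monoid M] {X Y : MonoidAlgebra ℝ M} (hX : ∀ a, 0 ≤ X.coeff a)
    (hY : ∀ a, 0 ≤ Y.coeff a) (c : M) : 0 ≤ (X * Y).coeff c := by
  classical
  rw [mul_eq_sum]
  simp only [coeff_sum, coeff_single, Finsupp.finsetSum_apply, Finsupp.single_apply]
  refine sum_nonneg fun a _ => sum_nonneg fun b _ => ?_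
  split_ifs
  · exact mul_nonneg (hX a) (hY b)
  · exact le_rfl

lemma coeff_pow_nonneg {M : Type*} [Monoid M] {X : MonoidAlgebra ℝ M} (hX : ∀ a, 0 ≤ X.coeff a) :
    ∀ (n : ℕ) (c : M), 0 ≤ (X ^ n).coeff c
  | 0, c => by rw [pow_zero]; exact Prb.one.1 c
  | n + 1, c => by rw [pow_succ]; exact coeff_mul_nonneg (coeff_pow_nonneg hX n) hX c

lemma coeff_pl_nonneg {P : Polynomial ℝ} (hP : ∀ k, 0 ≤ P.coeff k) (v : FreeMonoid Bool) :
    0 ≤ (pl P).coeff v := by
  rw [pl_eq_sum (Nat.lt_succ_self P.natDegree), coeff_sum, Finsupp.finsetSum_apply]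
  exact sum_nonneg fun k _ => coeff_single_nonneg _ _ (hP k)

lemma pl_trial (r : ℝ) :
    pl (trial r) = single 1 (1 - r) + single (FreeMonoid.of false) r := by
  simp only [pl, trial, map_add, map_mul, Polynomial.aeval_C, Polynomial.aeval_X,
    Algebra.algebraMap_eq_smul_one, one_def, cx, smul_single, smul_eq_mul, mul_one,
    single_mul_single, one_mul]

lemma prb_pl_trial {r : ℝ} (h0 : 0 ≤ r) (h1 : r ≤ 1) : Prb (pl (trial r)) := by
  rw [pl_trial]
  refine ⟨fun a => ?_, by rw [mass_add, mass_single, mass_single]; ring⟩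
  rw [coeff_add, Finsupp.add_apply]
  exact add_nonneg (coeff_single_nonneg _ _ (by linarith)) (coeff_single_nonneg _ _ h0)

lemma nrm_trial_pow_step_le {r : ℝ} (hr : 0 ≤ r) (hr1 : r < 1) (n : ℕ) :
    nrm (pl (trial r) ^ n * (pl (trial r) - 1)) ≤ Real.sqrt (r / ((1 - r) * ((n : ℝ) + 1))) := by
  have e : pl (trial r) ^ n * (pl (trial r) - 1) = pl (trial r ^ (n + 1) - trial r ^ n) := by
    simp only [pl, mul_sub, mul_one, ← pow_succ, map_sub, map_pow]
  rw [e]
  set D := trial r ^ (n + 1) - trial r ^ n with hD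
  rw [pl_eq_sum (show D.natDegree < max D.natDegree (n + 1) + 1 by omega)]
  refine (nrm_sum_le _ _).trans (le_trans (le_of_eq ?_) (Real.le_sqrt_of_sq_le
    (sum_abs_pmf_succ_le hr hr1 n (max D.natDegree (n + 1) + 1) (by omega))))
  refine sum_congr rfl fun k _ => ?_
  rw [nrm_single, hD, Polynomial.coeff_sub]
  rfl

lemma perP_eq (r μ : ℝ) (a : ℕ) : pl (perP r μ (2 * a + 1))
    = pl (trial r ^ a) * pl (C (1 - μ) + C μ * trial r) * pl (trial r ^ (a + 1)) := by
  rw [perP, show 2 * a + 1 = a + (a + 1) by omega, pow_add, mul_right_comm]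
  simp only [pl, map_mul]

/-- The coefficients of a period: the whole slots, and the short slot split into its surrogate
and its defect. -/
noncomputable def periodCb (r μ : ℝ) (a : ℕ) : Cf :=
  pl (perP r μ (2 * a + 1)) + pl (trial r ^ a) * ce * pl (trial r ^ (a + 1))

lemma pl_mix (r μ : ℝ) :
    pl (C (1 - μ) + C μ * trial r) = single 1 (1 - μ) + μ • pl (trial r) := by
  rw [pl, map_add, map_mul, Polynomial.aeval_C, Polynomial.aeval_C, ← pl,
    Algebra.algebraMap_eq_smul_one, Algebra.algebraMap_eq_smul_one, smul_mul_assoc, one_mul,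
    one_def, smul_single, smul_eq_mul, mul_one]

lemma card_window_le (N : ℕ) {x R : ℝ} (hR : 0 ≤ R) :
    (((range N).filter fun k : ℕ => |(k : ℝ) - x| < R).card : ℝ) ≤ 2 * R + 1 := by
  set W := (range N).filter fun k : ℕ => |(k : ℝ) - x| < R
  rcases W.eq_empty_or_nonempty with hW0 | hW0
  · rw [hW0, card_empty, Nat.cast_zero]; positivity
  have h2 := card_le_card (show W ⊆ Icc (W.min' hW0) (W.max' hW0) from fun n hn =>
    mem_Icc.2 ⟨W.min'_le _ hn, W.le_max' _ hn⟩)
  rw [Nat.card_Icc] at h2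
  have h3 : W.min' hW0 ≤ W.max' hW0 := W.min'_le _ (W.max'_mem hW0)
  have h4 := abs_lt.1 (mem_filter.1 (W.min'_mem hW0)).2
  have h5 := abs_lt.1 (mem_filter.1 (W.max'_mem hW0)).2
  have h6 : (W.card : ℝ) ≤ ((W.max' hW0 + 1 - W.min' hW0 : ℕ) : ℝ) := by exact_mod_cast h2
  rw [Nat.cast_sub (by omega)] at h6
  push_cast at h6
  linarith

section
variable {r μ : ℝ} (hr : 0 < r) (hr1 : r < 1) (hμ0 : 0 ≤ μ) (hμ1 : μ ≤ 1)
include hr hr1 hμ0 hμ1

/-- Neighbouring powers of the surrogate period are close. -/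
lemma sum_abs_perP_step_le {ℓ c : ℕ} {τ : ℝ} (hℓ : 1 ≤ ℓ) (hτ : 64 * (r / (1 - r)) ≤ τ)
    (hc : (c : ℝ) = τ * ℓ) (N : ℕ) :
    ∑ k ∈ range N, |(perP r μ ℓ ^ c).coeff k - (perP r μ ℓ ^ (c + 1)).coeff k| ≤ 1 / 4 := by
  classical
  have e : ∀ k, (perP r μ ℓ ^ c).coeff k - (perP r μ ℓ ^ (c + 1)).coeff k
      = (pl (perP r μ ℓ) ^ c * (1 - pl (perP r μ ℓ))).coeff (FreeMonoid.of false ^ k) := fun k => by
    rw [mul_sub, mul_one, ← pow_succ, coeff_sub, Finsupp.sub_apply, pl, ← map_pow, ← map_pow,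
      ← pl, ← pl, coeff_pl_pow, coeff_pl_pow]
  simp only [e]
  have inj : Set.InjOn (fun k : ℕ => FreeMonoid.of false ^ k) ↑(range N) := fun i _ j _ hij => by
    simpa [toList_of_pow] using congrArg (fun m => (FreeMonoid.toList m).length) hij
  rw [← sum_image (f := fun v => |(pl (perP r μ ℓ) ^ c * (1 - pl (perP r μ ℓ))).coeff v|) inj]
  refine (sum_abs_le_nrm _ _).trans ?_
  set T0 := pl (trial r) with hT0
  set V := single (1 : FreeMonoid Bool) (1 - μ) + μ • T0 with hV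
  have pT : Prb T0 := prb_pl_trial hr.le hr1.le
  have pV : Prb V := by
    refine ⟨fun v => ?_, ?_⟩
    · rw [hV, coeff_add, coeff_smul, Finsupp.add_apply, Finsupp.smul_apply, smul_eq_mul]
      exact add_nonneg (coeff_single_nonneg _ _ (by linarith)) (mul_nonneg hμ0 (pT.1 v))
    · rw [hV, mass_add, mass_single, mass_eq_pair, pair_smul, ← mass_eq_pair, pT.2]; ring
  have eK : pl (perP r μ ℓ) = T0 ^ ℓ * V := by
    rw [hV, hT0, ← pl_mix, perP]
    simp only [pl, map_mul, map_pow]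
  have e1 : (single (1 : FreeMonoid Bool) (1 - μ) : Cf) = (1 - μ) • (1 : Cf) := by
    rw [one_def, smul_single, smul_eq_mul, mul_one]
  have hcm : Commute T0 V := by
    rw [hV, e1]
    exact ((Commute.one_right _).smul_right _).add_right ((Commute.refl _).smul_right _)
  have e2 : (1 : Cf) - T0 ^ ℓ * V = (1 - μ) • (1 - T0 ^ ℓ) + μ • (1 - T0 ^ (ℓ + 1)) := by
    rw [hV, e1, mul_add, mul_smul_comm, mul_smul_comm, mul_one, ← pow_succ, smul_sub,
      smul_sub, sub_smul, sub_smul, one_smul, one_smul]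
    abel
  rw [eK, (hcm.pow_left ℓ).mul_pow, ((hcm.pow_left ℓ).pow_pow c c).eq, mul_assoc, ← pow_mul, e2]
  refine (nrm_prb_mul_le (pV.pow c)).trans ?_
  rw [mul_add, mul_smul_comm, mul_smul_comm]
  have hl1 : (1 : ℝ) ≤ ℓ := by exact_mod_cast hℓ
  have hR0 : 0 ≤ r / (1 - r) := div_nonneg hr.le (by linarith)
  have hstep : nrm (T0 ^ (ℓ * c) * (T0 - 1)) ≤ 1 / (8 * ℓ) := by
    refine (nrm_trial_pow_step_le hr.le hr1 _).trans ?_
    rw [Real.sqrt_le_left (by positivity), div_mul_eq_div_div, div_le_iff₀ (by positivity)]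
    push_cast
    rw [hc, div_pow, one_pow, div_mul_eq_mul_div, le_div_iff₀ (by positivity), mul_pow]
    have h64 := mul_le_mul_of_nonneg_right hτ (sq_nonneg (ℓ : ℝ))
    linarith
  have hb : ∀ n ≤ ℓ + 1, nrm (T0 ^ (ℓ * c) * (1 - T0 ^ n)) ≤ 1 / 4 := fun n hn => by
    rw [show T0 ^ (ℓ * c) * (1 - T0 ^ n) = -(T0 ^ (ℓ * c) * (T0 ^ n - 1)) by
      rw [← mul_neg, neg_sub], nrm_neg]
    have hn' : (n : ℝ) ≤ 2 * ℓ := by
      have : (n : ℝ) ≤ ℓ + 1 := by exact_mod_cast hn
      linarith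
    refine (nrm_pow_mul_pow_sub_one_le pT _ n).trans
      ((mul_le_mul hn' hstep (nrm_nonneg _) (by positivity)).trans (le_of_eq ?_))
    field_simp; ring
  refine (nrm_add_le _ _).trans ?_
  rw [nrm_smul, nrm_smul, abs_of_nonneg (show 0 ≤ 1 - μ by linarith), abs_of_nonneg hμ0]
  have i1 := mul_le_mul_of_nonneg_left (hb ℓ (Nat.le_succ _)) (show 0 ≤ 1 - μ by linarith)
  have i2 := mul_le_mul_of_nonneg_left (hb (ℓ + 1) le_rfl) hμ0
  linarith

/-- A power of the surrogate period rarely leaves the window. -/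
lemma sum_perP_outside_le {ℓ c N : ℕ} {τ : ℝ} (hℓ : 1 ≤ ℓ) (hτ : 1 ≤ τ)
    (hc : (c : ℝ) = τ * ℓ) (hN : c * (ℓ + 1) < N) :
    ∑ k ∈ (range N).filter (fun k : ℕ => ¬|(k : ℝ) - c * ℓ * r| < 7 * τ * ℓ),
      (perP r μ ℓ ^ c).coeff k ≤ 1 / 16 := by
  set x := (c : ℝ) * ℓ * r with hx
  set R := 7 * τ * (ℓ : ℝ) with hR
  have hl1 : (1 : ℝ) ≤ ℓ := by exact_mod_cast hℓ
  have hD : ∀ m : ℕ, 0 + c * ℓ ≤ m → m ≤ 0 + c * (ℓ + 1) →
      ((m : ℝ) * r - x) ^ 2 ≤ (c : ℝ) ^ 2 := by
    intro m g1 g2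
    rw [zero_add, mul_add, mul_one] at g2
    rw [zero_add] at g1
    have g1' : (c : ℝ) * ℓ ≤ m := by exact_mod_cast g1
    have g2' : (m : ℝ) ≤ c * ℓ + c := by exact_mod_cast g2
    rw [hx]
    have k1 := mul_le_mul_of_nonneg_right g1' hr.le
    have k2 : ((m : ℝ) - c * ℓ) * r ≤ c :=
      (mul_le_of_le_one_right (by linarith) hr1.le).trans (by linarith)
    exact pow_le_pow_left₀ (by linarith) (by linarith) 2
  have h2 := gap_sq_le hr hr1 hμ0 hμ1 c 0 N x _ (by rw [zero_add]; exact hN) hD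
  have hg : ∀ k, (gapP r μ ℓ 0 c).coeff k = (perP r μ ℓ ^ c).coeff k := fun k => by simp [gapP]
  simp only [hg] at h2
  have hu0 : ∀ k, 0 ≤ (perP r μ ℓ ^ c).coeff k := fun k => hg k ▸ gap_nonneg' hr hr1 hμ0 hμ1 _ _ _
  have hR0 : 0 < R := by rw [hR]; positivity
  refine le_of_mul_le_mul_left ?_ (pow_pos hR0 2)
  rw [mul_sum]
  refine le_trans (le_trans (sum_le_sum fun k hk => ?_)
    (sum_le_sum_of_subset_of_nonneg (filter_subset _ _)
      (fun k _ _ => mul_nonneg (hu0 k) (sq_nonneg _)))) (h2.trans ?_)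
  · rw [mul_comm]
    refine mul_le_mul_of_nonneg_left ?_ (hu0 k)
    rw [← sq_abs ((k : ℝ) - x)]
    exact pow_le_pow_left₀ hR0.le (not_lt.1 (mem_filter.1 hk).2) 2
  · rw [zero_add]
    push_cast
    rw [hR, hc]
    have k1 := mul_le_mul_of_nonneg_left hτ (show 0 ≤ τ * ℓ * ℓ by positivity)
    have k2 := mul_le_mul_of_nonneg_left hl1 (show 0 ≤ τ * τ * ℓ by positivity)
    have k3 := mul_le_mul_of_nonneg_left hτ (show 0 ≤ τ * ℓ by positivity)
    have k4 : 0 ≤ τ * τ * ℓ * ℓ := by positivity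
    linarith

/-- Two neighbouring powers of the surrogate period share three quarters of their mass in the
window. -/
lemma common_window_ge {ℓ c N : ℕ} {τ : ℝ} (hℓ : 1 ≤ ℓ) (hτ : 1 ≤ τ)
    (hτr : 64 * (r / (1 - r)) ≤ τ) (hc : (c : ℝ) = τ * ℓ) (hN : (c + 1) * (ℓ + 1) < N) :
    3 / 4 ≤ ∑ k ∈ (range N).filter (fun k : ℕ => |(k : ℝ) - c * ℓ * r| < 7 * τ * ℓ),
      min ((perP r μ ℓ ^ c).coeff k) ((perP r μ ℓ ^ (c + 1)).coeff k) := by
  have htv := sum_abs_perP_step_le hr hr1 hμ0 hμ1 hℓ hτr hc N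
  have hN' : c * (ℓ + 1) < N :=
    lt_of_le_of_lt (Nat.mul_le_mul_right _ (Nat.le_succ c)) hN
  have hout := sum_perP_outside_le hr hr1 hμ0 hμ1 hℓ hτ hc hN'
  set u := fun T k => (perP r μ ℓ ^ T).coeff k with hu
  have hmass : ∀ T ≤ c + 1, ∑ k ∈ range N, u T k = 1 := fun T hT => by
    have hg : ∀ k, u T k = (gapP r μ ℓ 0 T).coeff k := fun k => by simp [hu, gapP]
    simp only [hg]
    refine gap_mass T 0 N ?_
    rw [zero_add]
    exact lt_of_le_of_lt (Nat.mul_le_mul_right _ hT) hN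
  set m := fun k => min (u c k) (u (c + 1) k) with hm
  have e : ∀ k, 2 * m k = u c k + u (c + 1) k - |u c k - u (c + 1) k| := fun k => by
    rcases le_total (u c k) (u (c + 1) k) with hle | hle
    · simp only [hm, min_eq_left hle, abs_of_nonpos (sub_nonpos.2 hle)]; ring
    · simp only [hm, min_eq_right hle, abs_of_nonneg (sub_nonneg.2 hle)]; ring
  have h2 : 2 * ∑ k ∈ range N, m k = 2 - ∑ k ∈ range N, |u c k - u (c + 1) k| := by
    rw [mul_sum, sum_congr rfl fun k _ => e k, sum_sub_distrib, sum_add_distrib,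
      hmass c (Nat.le_succ c), hmass (c + 1) le_rfl]
    ring
  have h3 : ∑ k ∈ (range N).filter (fun k : ℕ => ¬|(k : ℝ) - c * ℓ * r| < 7 * τ * ℓ), m k
      ≤ ∑ k ∈ (range N).filter (fun k : ℕ => ¬|(k : ℝ) - c * ℓ * r| < 7 * τ * ℓ), u c k :=
    sum_le_sum fun k _ => min_le_left _ _
  rw [← sum_filter_add_sum_filter_not (range N)
    (fun k : ℕ => |(k : ℝ) - c * ℓ * r| < 7 * τ * ℓ) m] at h2
  show 3 / 4 ≤ ∑ k ∈ (range N).filter (fun k : ℕ => |(k : ℝ) - c * ℓ * r| < 7 * τ * ℓ), m k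
  simp only [hu] at h2 h3 htv hout ⊢
  linarith

lemma coeff_periodCb_nonneg (a : ℕ) (v : FreeMonoid Bool) : 0 ≤ (periodCb r μ a).coeff v := by
  have htr : ∀ n k, 0 ≤ (trial r ^ n).coeff k := fun n k => pmf_nonneg hr.le hr1.le n k
  rw [periodCb, coeff_add, Finsupp.add_apply]
  refine add_nonneg (coeff_pl_nonneg (fun k => ?_) v)
    (coeff_mul_nonneg (coeff_mul_nonneg (coeff_pl_nonneg (htr a))
      (fun v => coeff_single_nonneg _ _ zero_le_one)) (coeff_pl_nonneg (htr _)) v)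
  simpa [gapP] using gap_nonneg' (ℓ := 2 * a + 1) hr hr1 hμ0 hμ1 1 0 k

lemma perP_le_coeff_periodCb (a T k : ℕ) :
    (perP r μ (2 * a + 1) ^ T).coeff k
      ≤ (periodCb r μ a ^ T).coeff (FreeMonoid.of false ^ k) := by
  have htr : ∀ n k, 0 ≤ (trial r ^ n).coeff k := fun n k => pmf_nonneg hr.le hr1.le n k
  have hcb0 := coeff_periodCb_nonneg hr hr1 hμ0 hμ1 a
  have hK : ∀ v, 0 ≤ (pl (perP r μ (2 * a + 1))).coeff v := coeff_pl_nonneg fun k => by
    simpa [gapP] using gap_nonneg' (ℓ := 2 * a + 1) hr hr1 hμ0 hμ1 1 0 k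
  have hE : ∀ v, 0 ≤ (pl (trial r ^ a) * ce * pl (trial r ^ (a + 1))).coeff v :=
    coeff_mul_nonneg (coeff_mul_nonneg (coeff_pl_nonneg (htr a))
      (fun v => coeff_single_nonneg _ _ zero_le_one)) (coeff_pl_nonneg (htr _))
  rw [periodCb] at hcb0 ⊢
  rw [add_pow_first, coeff_add, Finsupp.add_apply, coeff_sum, Finsupp.finsetSum_apply, pl,
    ← map_pow, ← pl, coeff_pl_pow]
  exact le_add_of_nonneg_right (sum_nonneg fun i _ => coeff_mul_nonneg (coeff_mul_nonneg
    (coeff_pow_nonneg hK i) hE) (coeff_pow_nonneg hcb0 _) _)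

/-- The form of a long power of a period is of the order of one over its length. -/
lemma qf_periodCb_le {H Cd : ℝ} (hH : 0 ≤ H) (hCd : 0 ≤ Cd) {a τ T : ℕ} (hτ : 1 ≤ τ)
    (hT : τ * (2 * a + 1) ≤ T)
    (hd : qf H (defect r μ a T) ≤ Cd / Real.sqrt (((a + T * (2 * a + 1) : ℕ) : ℝ) + 1)) :
    qf H (periodCb r μ a ^ T) ≤ 2 * (Bd r + Cd + 1) / ((2 * a + 1 : ℕ) : ℝ) := by
  set ℓ := 2 * a + 1 with hℓ
  have hB := Bd_pos hr hr1
  have hl0 : (0 : ℝ) < ℓ := by exact_mod_cast (show 0 < ℓ by omega)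
  have hp2 : qf H (pl (perP r μ ℓ) ^ T) ≤ Bd r / Real.sqrt (((0 + T * ℓ : ℕ) : ℝ) + 1) := by
    rw [qf_eq_ip, pl, ← map_pow, ← pl, ip_pl_pl, show perP r μ ℓ ^ T = gapP r μ ℓ 0 T by
      simp [gapP]]
    exact dot_gap_le' hr hr1 hμ0 hμ1 0 0 T T le_rfl
  have hroot : ∀ b : ℕ, (ℓ : ℝ) ≤ Real.sqrt (((b + T * ℓ : ℕ) : ℝ) + 1) := fun b => by
    refine Real.le_sqrt_of_sq_le ?_
    have : ℓ * ℓ ≤ T * ℓ := Nat.mul_le_mul_right ℓ ((Nat.le_mul_of_pos_left ℓ hτ).trans hT)
    have h' : ((ℓ * ℓ : ℕ) : ℝ) ≤ ((T * ℓ : ℕ) : ℝ) := by exact_mod_cast this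
    push_cast at h' ⊢
    rw [sq]
    linarith [(Nat.cast_nonneg b : (0 : ℝ) ≤ b)]
  have g1 := hp2.trans (div_le_div_of_nonneg_left hB.le hl0 (hroot 0))
  have g2 := hd.trans (div_le_div_of_nonneg_left hCd hl0 (hroot a))
  have e : periodCb r μ a ^ T = pl (perP r μ ℓ) ^ T + defect r μ a T := by
    rw [defect, periodCb, ← hℓ, add_sub_cancel]
  rw [e]
  refine (qf_add_le hH _ _).trans ?_
  rw [show 2 * (Bd r + Cd + 1) / (ℓ : ℝ) = 2 * (Bd r / ℓ) + 2 * (Cd / ℓ) + 2 / ℓ by ring]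
  have g3 : (0 : ℝ) ≤ 2 / ℓ := by positivity
  linarith

end

/-- The atoms of the defect, relative to the visible law of a slot. -/
noncomputable def atomD (q : ℝ) (x : Fin 3) : ℝ := atomG q x / atomY q x

section
variable {q : ℝ} (h0 : 0 < q) (h1 : q < 1)
include h0 h1

lemma vis_wt_all :
    0 < vis q ∧ vis q < 1 ∧ 0 ≤ wt q ∧ wt q ≤ 1 ∧ wt q * vis q = 1 - q := by
  refine ⟨by rw [vis]; nlinarith, by rw [vis]; nlinarith, div_nonneg zero_le_one (by linarith),
    (div_le_one (by linarith)).2 (by linarith), ?_⟩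
  rw [wt, vis]; field_simp; ring

lemma atomY_pos (x : Fin 3) : 0 < atomY q x := by
  have hr := (vis_wt_all h0 h1).1
  have hp : 0 < 1 - q := by linarith
  fin_cases x <;> simp [atomY] <;> positivity

lemma atomY_sum : ∑ x, atomY q x = 1 := by
  have hr := (vis_wt_all h0 h1).1
  simp only [atomY, Fin.sum_univ_three, Matrix.cons_val_zero, Matrix.cons_val_one,
    Matrix.cons_val_two, Matrix.head_cons, Matrix.tail_cons]
  field_simp
  rw [vis]; ring

lemma atomY_mul (x : Fin 3) : atomY q x * atomD q x = atomG q x :=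
  mul_div_cancel₀ _ (atomY_pos h0 h1 x).ne'

lemma atomG_sum : ∑ x, atomY q x * atomD q x = 0 := by
  have h := (vis_wt_all h0 h1).2.2.2.2
  rw [vis] at h
  simp only [atomY_mul h0 h1, atomG, Fin.sum_univ_three, Matrix.cons_val_zero,
    Matrix.cons_val_one, Matrix.cons_val_two, Matrix.head_cons, Matrix.tail_cons, Matrix.cons_val]
  linear_combination -h

omit h0 h1 in
lemma ev_slot : ev (atoms (atomY q)) (atoms fun x => atomY q x * atomD q x) (pl (trial (vis q)))
    = single 1 (1 - vis q) + vis q • atoms (atomY q) := by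
  rw [pl_trial, map_add, show (single (FreeMonoid.of false) (vis q) : Cf)
    = vis q • (cx : Cf) by rw [cx, smul_single, smul_eq_mul, mul_one], map_smul, ev_cx,
    show (single (1 : FreeMonoid Bool) (1 - vis q) : Cf) = (1 - vis q) • (1 : Cf) by
      rw [one_def, smul_single, smul_eq_mul, mul_one], map_smul, map_one, one_def, smul_single,
    smul_eq_mul, mul_one]

lemma ev_short : ev (atoms (atomY q)) (atoms fun x => atomY q x * atomD q x)
    (pl (C (1 - wt q) + C (wt q) * trial (vis q))) + atoms (fun x => atomY q x * atomD q x)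
    = single 1 q + single (FreeMonoid.of 0) (1 - q) := by
  obtain ⟨hr, -, -, -, hμr⟩ := vis_wt_all h0 h1
  have hr' := hr.ne'
  have e1 : (single 1 (1 - wt q) : MonoidAlgebra ℝ (FreeMonoid (Fin 3)))
      + single 1 (wt q * (1 - vis q)) = single 1 q := by
    rw [← single_add]; congr 1; linear_combination -hμr
  have e2 : wt q • vis q • atoms (atomY q) + atoms (fun x => atomY q x * atomD q x)
      = single (FreeMonoid.of 0) (1 - q) := by
    rw [atoms, atoms, smul_smul, smul_sum, ← sum_add_distrib, Fin.sum_univ_three]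
    simp only [atomY_mul h0 h1]
    simp only [smul_single, smul_eq_mul, ← single_add, atomY, atomG,
      Matrix.cons_val_zero, Matrix.cons_val_one, Matrix.cons_val_two, Matrix.head_cons,
      Matrix.tail_cons, Matrix.cons_val]
    rw [show wt q * vis q * ((1 - q) * q / vis q) + (1 - q - wt q * ((1 - q) * q)) = 1 - q by
        field_simp; ring,
      show wt q * vis q * ((1 - q) * q / vis q) + -(wt q * ((1 - q) * q)) = 0 by field_simp; ring,
      show wt q * vis q * ((1 - q) ^ 2 / vis q) + -(wt q * (1 - q) ^ 2) = 0 by field_simp; ring,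
      single_zero, single_zero, add_zero, add_zero]
  rw [pl_mix, map_add, map_smul, ev_slot,
    show (single (1 : FreeMonoid Bool) (1 - wt q) : Cf) = (1 - wt q) • (1 : Cf) by
      rw [one_def, smul_single, smul_eq_mul, mul_one], map_smul, map_one, one_def, smul_single,
    smul_eq_mul, mul_one, smul_add, smul_single, smul_eq_mul, ← e1, ← e2]
  abel

lemma prb_slot : Prb (single 1 (1 - vis q) + vis q • atoms (atomY q)) := by
  obtain ⟨hr, hr1, -⟩ := vis_wt_all h0 h1
  rw [atoms, smul_sum]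
  simp only [smul_single, smul_eq_mul]
  refine ⟨fun w => ?_, ?_⟩
  · rw [coeff_add, Finsupp.add_apply, coeff_sum, Finsupp.finsetSum_apply]
    exact add_nonneg (coeff_single_nonneg _ _ (by linarith))
      (sum_nonneg fun x _ => coeff_single_nonneg _ _ (mul_nonneg hr.le (atomY_pos h0 h1 x).le))
  · simp only [mass_add, mass_single, mass_sum, ← mul_sum, atomY_sum h0 h1]; ring

lemma prb_short : Prb (single 1 q + single (FreeMonoid.of (0 : Fin 3)) (1 - q)) := by
  refine ⟨fun w => ?_, by rw [mass_add, mass_single, mass_single]; ring⟩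
  rw [coeff_add, Finsupp.add_apply]
  exact add_nonneg (coeff_single_nonneg _ _ h0.le) (coeff_single_nonneg _ _ (by linarith))

lemma toTr_slot :
    toTr (single 1 (1 - vis q) + vis q • atoms (atomY q)) = law q [false, true] := by
  have hr' := (vis_wt_all h0 h1).1.ne'
  rw [atoms, smul_sum, Fin.sum_univ_three]
  simp only [smul_single, smul_eq_mul, atomY, Matrix.cons_val_zero,
    Matrix.cons_val_one, Matrix.cons_val_two, Matrix.head_cons, Matrix.tail_cons, Matrix.cons_val,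
    map_add, toTr, mapDomainAlgHom_apply, mapDomain_single, FreeMonoid.lift_eval_of, atomWord,
    map_one, law, chan, List.map_cons, List.map_nil, List.prod_cons, List.prod_nil, mul_one,
    mul_add, add_mul, single_mul_single, one_mul]
  rw [show vis q * ((1 - q) * q / vis q) = (1 - q) * q by field_simp,
    show vis q * ((1 - q) ^ 2 / vis q) = (1 - q) * (1 - q) by field_simp,
    show 1 - vis q = q * q by rw [vis]; ring, mul_comm q (1 - q)]
  abel

omit h0 h1 in
lemma toTr_short :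
    toTr (single 1 q + single (FreeMonoid.of (0 : Fin 3)) (1 - q)) = law q [false] := by
  simp only [map_add, toTr, mapDomainAlgHom_apply, mapDomain_single, FreeMonoid.lift_eval_of,
    atomWord, map_one, Matrix.cons_val_zero, law, chan, List.map_cons, List.map_nil,
    List.prod_cons, List.prod_nil, mul_one]

/-- The period over the atoms is the lift of the law of the base word. -/
lemma ev_periodCb (a T : ℕ) :
    Prb (ev (atoms (atomY q)) (atoms fun x => atomY q x * atomD q x)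
        (periodCb (vis q) (wt q) a ^ T))
      ∧ toTr (ev (atoms (atomY q)) (atoms fun x => atomY q x * atomD q x)
        (periodCb (vis q) (wt q) a ^ T)) = law q (baseA a) ^ T := by
  set Y := atoms (atomY q)
  set G := atoms fun x => atomY q x * atomD q x
  set X := single (1 : FreeMonoid (Fin 3)) (1 - vis q) + vis q • Y with hX
  set Z := single (1 : FreeMonoid (Fin 3)) q + single (FreeMonoid.of (0 : Fin 3)) (1 - q) with hZ
  have hpl : ∀ n, ev Y G (pl (trial (vis q) ^ n)) = X ^ n := fun n => by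
    rw [pl, map_pow, map_pow, ← pl, ev_slot]
  have e : ev Y G (periodCb (vis q) (wt q) a) = X ^ a * Z * X ^ (a + 1) := by
    rw [periodCb, perP_eq, map_add, map_mul, map_mul, map_mul, map_mul, ev_ce, hpl, hpl, hZ,
      ← ev_short h0 h1, mul_add, add_mul]
  rw [map_pow, e, map_pow]
  refine ⟨((((prb_slot h0 h1).pow a).mul (prb_short h0 h1)).mul
    ((prb_slot h0 h1).pow (a + 1))).pow T, congrArg (· ^ T) ?_⟩
  rw [map_mul, map_mul, map_pow, map_pow, hX, hZ, toTr_slot h0 h1, toTr_short, baseA,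
    law_append, law_append, law_rep, law_rep]

end

theorem base_overlap {q : ℝ} (h0 : 0 < q) (h1 : q < 1) : ∃ η : ℝ, 0 < η ∧ ∃ τ : ℕ,
    ∀ᶠ a : ℕ in Filter.atTop, ∃ c : ℕ, 1 ≤ c ∧ c ≤ τ * (2 * a + 2)
      ∧ nrm (law q (baseA a) ^ (c + 1) - law q (baseA a) ^ c) ≤ 2 - η := by
  classical
  obtain ⟨hr, hr1, hμ0, hμ1, -⟩ := vis_wt_all h0 h1
  set r := vis q
  set μ := wt q
  set y := atomY q
  set f := atomD q
  have hy := atomY_pos h0 h1
  set h := ∑ x, y x * f x ^ 2 with hh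
  have hh0 : 0 ≤ h := sum_nonneg fun x _ => mul_nonneg (hy x).le (sq_nonneg _)
  set F := ∑ x, f x ^ 2 with hFdef
  have hF : ∀ x, f x ^ 2 ≤ F := fun x =>
    single_le_sum (f := fun x => f x ^ 2) (fun i _ => sq_nonneg _) (mem_univ x)
  have hF0 : 0 ≤ F := sum_nonneg fun x _ => sq_nonneg _
  set H := 4 * h + Real.sqrt (3 * (F * h)) with hHdef
  have hs := Real.sqrt_nonneg (3 * (F * h))
  have hH : 4 * h ≤ H := by linarith
  have hH0 : 0 ≤ H := by linarith
  have hH2 : 3 * (F * h) ≤ H ^ 2 := by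
    calc 3 * (F * h) = Real.sqrt (3 * (F * h)) ^ 2 := (Real.sq_sqrt (by positivity)).symm
      _ ≤ H ^ 2 := pow_le_pow_left₀ hs (by linarith) 2
  obtain ⟨τ, hτ⟩ := exists_nat_gt (64 * (r / (1 - r)) + 1)
  have hR0 : 0 ≤ r / (1 - r) := div_nonneg hr.le (by linarith)
  have hτR : (1 : ℝ) ≤ τ := by linarith
  have hτ1 : 1 ≤ τ := by exact_mod_cast hτR
  obtain ⟨Cd, hCd, a0, hdef⟩ := qf_defect_bound hr hr1 hμ0 hμ1 hH0 τ
  have hB := Bd_pos hr hr1
  set Z := 30 * (τ : ℝ) * (Bd r + Cd + 1) with hZ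
  have hZ0 : 0 < Z := by positivity
  refine ⟨3 / (512 * Z), by positivity, τ, Filter.eventually_atTop.2 ⟨max a0 1, fun a ha => ?_⟩⟩
  have ha1 : 1 ≤ a := (le_max_right _ _).trans ha
  set ℓ := 2 * a + 1 with hℓ
  set c := τ * ℓ with hc
  have hl1 : 1 ≤ ℓ := by omega
  have hl1R : (1 : ℝ) ≤ ℓ := by exact_mod_cast hl1
  have hcR : (c : ℝ) = τ * ℓ := by rw [hc, Nat.cast_mul]
  refine ⟨c, Nat.one_le_iff_ne_zero.2 (Nat.mul_ne_zero (by omega) (by omega)),
    Nat.mul_le_mul_left τ (by omega), ?_⟩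
  obtain ⟨pc, tc⟩ := ev_periodCb h0 h1 a c
  obtain ⟨pc', tc'⟩ := ev_periodCb h0 h1 a (c + 1)
  rw [← tc, ← tc', ← map_sub]
  refine (nrm_toTr_le _).trans ?_
  rw [← nrm_neg, neg_sub]
  set cb := periodCb r μ a
  set Nk := (c + 1) * (ℓ + 1) + 1 with hNk
  set W := (range Nk).filter fun k : ℕ => |(k : ℝ) - c * ℓ * r| < 7 * τ * ℓ with hW
  set N := Nk + ((cb ^ c).coeff.support.sup fun v => (FreeMonoid.toList v).length)
    + ((cb ^ (c + 1)).coeff.support.sup fun v => (FreeMonoid.toList v).length) + 1 with hN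
  have hsum := common_window_ge hr hr1 hμ0 hμ1 hl1 hτR (by linarith) hcR
    (show (c + 1) * (ℓ + 1) < Nk by omega)
  set S := 2 * (Bd r + Cd + 1) / (ℓ : ℝ) with hS
  have hS0 : 0 < S := by positivity
  have hqf : ∀ T, c ≤ T → T ≤ c + 1 → qf H (cb ^ T) ≤ S := fun T hT hT' =>
    qf_periodCb_le hr hr1 hμ0 hμ1 hH0 hCd hτ1 hT
      (hdef a ((le_max_left _ _).trans ha) T (by rw [add_mul, one_mul, ← hℓ, ← hc]; omega))
  have hcard : (W.card : ℝ) ≤ 15 * τ * ℓ := by
    refine (card_window_le Nk (by positivity)).trans ?_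
    have : (1 : ℝ) ≤ τ * ℓ := one_le_mul_of_one_le_of_one_le hτR hl1R
    linarith
  have hcb := coeff_periodCb_nonneg hr hr1 hμ0 hμ1 a
  refine (nrm_sub_le_of_moments (h := h) (H := H) (F := F) (S := S) (N := N) (W := W)
    (u := fun k => min ((perP r μ ℓ ^ c).coeff k) ((perP r μ ℓ ^ (c + 1)).coeff k))
    hy (atomY_sum h0 h1) (atomG_sum h0 h1) rfl hF hH hH2 pc pc'
    (fun v hv => ?_) (fun v hv => ?_) (coeff_pow_nonneg hcb _) (coeff_pow_nonneg hcb _)
    (fun k hk => ?_)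
    (fun k _ => (min_le_left _ _).trans (perP_le_coeff_periodCb hr hr1 hμ0 hμ1 a c k))
    (fun k _ => (min_le_right _ _).trans (perP_le_coeff_periodCb hr hr1 hμ0 hμ1 a (c + 1) k))
    hsum hS0 (hqf c le_rfl (Nat.le_succ c)) (hqf (c + 1) (Nat.le_succ c) le_rfl)).trans ?_
  · have := le_sup (f := fun v => (FreeMonoid.toList v).length) hv
    rw [hN]; omega
  · have := le_sup (f := fun v => (FreeMonoid.toList v).length) hv
    rw [hN]; omega
  · have := mem_range.1 (mem_filter.1 hk).1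
    rw [mem_range, hN]; omega
  · have hW0 : (0 : ℝ) < W.card := by
      rcases W.eq_empty_or_nonempty with hW0 | hW0
      · rw [← hW, hW0, sum_empty] at hsum; linarith
      · exact_mod_cast card_pos.2 hW0
    refine sub_le_sub_left (div_le_div_of_nonneg_left (by norm_num) (by positivity)
      (mul_le_mul_of_nonneg_left ?_ (by norm_num))) 2
    calc S * W.card ≤ S * (15 * τ * ℓ) := mul_le_mul_of_nonneg_left hcard hS0.le
      _ = Z := by rw [hS, hZ]; field_simp; ring

end Vale.Agent.P321.Super
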