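import Vale.Agent.P321.Super.Coef

/-! One-sided domination of trace laws and change of reference. -/

namespace Vale.Agent.P321.Super

open MonoidAlgebra Finset Poly

variable {M : Type*} [Monoid M]

set_option linter.unusedSectionVars false

lemma coeff_sum_apply {ι : Type*} (s : Finset ι) (f : ι → MonoidAlgebra ℝ M) (a : M) :
    (∑ i ∈ s, f i).coeff a = ∑ i ∈ s, (f i).coeff a := by
  simp [coeff_sum]

lemma coeff_smul_apply (r : ℝ) (X : MonoidAlgebra ℝ M) (a : M) :
    (r • X).coeff a = r * X.coeff a := by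
  simp

lemma mul_nn {X Y : MonoidAlgebra ℝ M} (hX : ∀ a, 0 ≤ X.coeff a) (hY : ∀ a, 0 ≤ Y.coeff a)
    (c : M) : 0 ≤ (X * Y).coeff c := by
  classical
  rw [mul_eq_sum]
  simp only [coeff_sum, coeff_single, Finsupp.finsetSum_apply, Finsupp.single_apply]
  refine sum_nonneg fun a _ => sum_nonneg fun b _ => ?_
  split_ifs
  · exact mul_nonneg (hX a) (hY b)
  · exact le_rfl

lemma mul_le_left {X Y Z : MonoidAlgebra ℝ M} (h : ∀ a, X.coeff a ≤ Y.coeff a)
    (hZ : ∀ a, 0 ≤ Z.coeff a) (c : M) : (Z * X).coeff c ≤ (Z * Y).coeff c := by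
  have := mul_nn hZ (Y := Y - X) (fun a => by simpa using h a) c
  rw [mul_sub] at this
  simpa using this

lemma mul_le_right {X Y Z : MonoidAlgebra ℝ M} (h : ∀ a, X.coeff a ≤ Y.coeff a)
    (hZ : ∀ a, 0 ≤ Z.coeff a) (c : M) : (X * Z).coeff c ≤ (Y * Z).coeff c := by
  have := mul_nn (X := Y - X) (fun a => by simpa using h a) hZ c
  rw [sub_mul] at this
  simpa using this

lemma pow_nn {X : MonoidAlgebra ℝ M} (hX : ∀ a, 0 ≤ X.coeff a) :
    ∀ (n : ℕ) (c : M), 0 ≤ (X ^ n).coeff c
  | 0, c => by rw [pow_zero]; exact Prb.one.1 c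
  | n + 1, c => by rw [pow_succ]; exact mul_nn (pow_nn hX n) hX c

lemma pow_le_pow_coeff {X Y : MonoidAlgebra ℝ M} (hX : ∀ a, 0 ≤ X.coeff a)
    (h : ∀ a, X.coeff a ≤ Y.coeff a) : ∀ (n : ℕ) (c : M), (X ^ n).coeff c ≤ (Y ^ n).coeff c
  | 0, c => by simp
  | n + 1, c => by
    rw [pow_succ, pow_succ]
    exact (mul_le_right (pow_le_pow_coeff hX h n) hX c).trans
      (mul_le_left h (pow_nn (fun a => (hX a).trans (h a)) n) c)

lemma Dom.refl (R : MonoidAlgebra ℝ M) : Dom R R 1 0 :=
  ⟨0, fun a => by simp, by simp, fun a => by simp⟩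

lemma Dom.mono {R P : MonoidAlgebra ℝ M} {C C' e e' : ℝ} (h : Dom R P C e)
    (hP : ∀ a, 0 ≤ P.coeff a) (hC : C ≤ C') (he : e ≤ e') : Dom R P C' e' := by
  obtain ⟨r, hr, hn, hle⟩ := h
  exact ⟨r, hr, hn.trans he, fun a => (hle a).trans
    (by linarith [mul_le_mul_of_nonneg_right hC (hP a)])⟩

lemma Dom.of_le {R P : MonoidAlgebra ℝ M} {C : ℝ} (h : ∀ a, R.coeff a ≤ C * P.coeff a) :
    Dom R P C 0 :=
  ⟨0, fun a => by simp, by simp, fun a => by simpa using h a⟩

lemma Dom.err_nonneg {R P : MonoidAlgebra ℝ M} {C e : ℝ} (h : Dom R P C e) : 0 ≤ e := by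
  obtain ⟨r, -, hn, -⟩ := h
  exact (nrm_nonneg r).trans hn

lemma Dom.trans {R P S : MonoidAlgebra ℝ M} {C C' e e' : ℝ} (h : Dom R P C e)
    (h' : Dom P S C' e') (hC : 0 ≤ C) : Dom R S (C * C') (e + C * e') := by
  obtain ⟨r, hr, hn, hle⟩ := h
  obtain ⟨r', hr', hn', hle'⟩ := h'
  refine ⟨r + C • r', fun a => ?_, (nrm_add_le _ _).trans ?_, fun a => ?_⟩
  · simpa using add_nonneg (hr a) (mul_nonneg hC (hr' a))
  · rw [nrm_smul, abs_of_nonneg hC]
    exact add_le_add hn (mul_le_mul_of_nonneg_left hn' hC)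
  · rw [coeff_add, Finsupp.add_apply, coeff_smul_apply]
    nlinarith [hle a, mul_le_mul_of_nonneg_left (hle' a) hC]

lemma Dom.mul {R R' P P' : MonoidAlgebra ℝ M} {C C' e e' : ℝ} (h : Dom R P C e)
    (h' : Dom R' P' C' e') (hR' : Prb R') (hP : Prb P) (hC : 0 ≤ C) :
    Dom (R * R') (P * P') (C * C') (e + C * e') := by
  obtain ⟨r, hr, hn, hle⟩ := h
  obtain ⟨r', hr', hn', hle'⟩ := h'
  refine ⟨r * R' + C • (P * r'), fun a => ?_, (nrm_add_le _ _).trans ?_, fun a => ?_⟩
  · simpa using add_nonneg (mul_nn hr hR'.1 a) (mul_nonneg hC (mul_nn hP.1 hr' a))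
  · rw [nrm_smul, abs_of_nonneg hC]
    exact add_le_add ((nrm_mul_prb_le hR').trans hn)
      (mul_le_mul_of_nonneg_left ((nrm_prb_mul_le hP).trans hn') hC)
  · have h1 := mul_le_right (X := R) (Y := C • P + r) (fun b => by simpa using hle b) hR'.1 a
    have h2 := mul_le_left (X := R') (Y := C' • P' + r') (fun b => by simpa using hle' b) hP.1 a
    rw [add_mul, smul_mul_assoc, coeff_add, Finsupp.add_apply, coeff_smul_apply] at h1
    rw [mul_add, mul_smul_comm, coeff_add, Finsupp.add_apply, coeff_smul_apply] at h2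
    rw [coeff_add, Finsupp.add_apply, coeff_smul_apply]
    nlinarith [h1, mul_le_mul_of_nonneg_left h2 hC]

lemma Dom.pow {R P : MonoidAlgebra ℝ M} {C e : ℝ} (h : Dom R P C e) (hR : Prb R) (hP : Prb P)
    (hC : 1 ≤ C) (n : ℕ) : Dom (R ^ n) (P ^ n) (C ^ n) (n * C ^ n * e) := by
  induction n with
  | zero => simpa using Dom.refl (1 : MonoidAlgebra ℝ M)
  | succ n ih =>
    rw [pow_succ, pow_succ]
    refine (ih.mul h hR (hP.pow n) (by positivity)).mono (mul_nn (hP.pow n).1 hP.1)
      (by rw [pow_succ]) ?_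
    have he := h.err_nonneg
    have hCn : C ^ n ≤ C ^ (n + 1) := pow_le_pow_right₀ hC n.le_succ
    have h1 : (n : ℝ) * C ^ n * e ≤ n * C ^ (n + 1) * e := by gcongr
    have h2 : C ^ n * e ≤ C ^ (n + 1) * e := by gcongr
    push_cast
    linarith

/-- Splitting off the empty word. -/
lemma pow_le_hole {X : MonoidAlgebra ℝ M} (hX : Prb X) :
    ∀ (n : ℕ) (a : M), (X ^ n).coeff a ≤ (n : ℝ) * X.coeff 1 * (X ^ (n - 1)).coeff a
      + ((X - single 1 (X.coeff 1)) ^ n).coeff a
  | 0, a => by simp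
  | n + 1, a => by
    classical
    obtain ⟨Xp, hXp⟩ : ∃ Xp, Xp = X - single 1 (X.coeff 1) := ⟨_, rfl⟩
    obtain ⟨x1, hx1⟩ : ∃ x1 : ℝ, x1 = X.coeff 1 := ⟨_, rfl⟩
    have hXe : X = Xp + x1 • (1 : MonoidAlgebra ℝ M) := by
      rw [hXp, hx1, one_def, smul_single', mul_one, sub_add_cancel]
    have h0 : ∀ b, 0 ≤ Xp.coeff b := by
      intro b
      rw [hXp, coeff_sub, Finsupp.sub_apply, coeff_single, Finsupp.single_apply]
      split_ifs with hb
      · rw [← hb, sub_self]
      · rw [sub_zero]; exact hX.1 b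
    have hle : ∀ b, Xp.coeff b ≤ X.coeff b := by
      intro b
      rw [hXp, coeff_sub, Finsupp.sub_apply, coeff_single, Finsupp.single_apply]
      split_ifs with hb
      · linarith [hX.1 1]
      · linarith
    have hx0 : 0 ≤ x1 := hx1 ▸ hX.1 1
    have e1 : (X * Xp ^ n).coeff a = (Xp ^ (n + 1)).coeff a + x1 * (Xp ^ n).coeff a := by
      have e : X * Xp ^ n = Xp ^ (n + 1) + x1 • Xp ^ n := by
        conv_lhs => rw [hXe]
        rw [add_mul, smul_mul_assoc, one_mul, pow_succ']
      rw [e, coeff_add, Finsupp.add_apply, coeff_smul_apply]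
    have e2 := mul_le_left (Z := X) (X := X ^ n)
      (Y := ((n : ℝ) * x1) • X ^ (n - 1) + Xp ^ n)
      (fun b => by simpa [hXp, hx1] using pow_le_hole hX n b) hX.1 a
    rw [mul_add, mul_smul_comm, coeff_add, Finsupp.add_apply, coeff_smul_apply, e1,
      ← pow_succ'] at e2
    have e3 : (n : ℝ) * x1 * (X * X ^ (n - 1)).coeff a = n * x1 * (X ^ n).coeff a := by
      cases n with
      | zero => simp
      | succ m => rw [Nat.add_sub_cancel, ← pow_succ']
    rw [← hXp, ← hx1, Nat.add_sub_cancel]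
    push_cast
    nlinarith [mul_le_mul_of_nonneg_left (pow_le_pow_coeff h0 hle n a) hx0]

/-- A slot of sea can be given up for a defect. -/
theorem dom_hole {X Z : MonoidAlgebra ℝ M} (hX : Prb X) (hZ : Prb Z) {ζ : ℝ} (hζ : 0 < ζ)
    (hZ1 : ζ ≤ Z.coeff 1) (n i : ℕ) (hi : i < n) :
    Dom (X ^ n) (X ^ i * Z * X ^ (n - 1 - i)) (n * X.coeff 1 / ζ) ((1 - X.coeff 1) ^ n) := by
  classical
  obtain ⟨Xp, hXp⟩ : ∃ Xp, Xp = X - single 1 (X.coeff 1) := ⟨_, rfl⟩
  have h0 : ∀ b, 0 ≤ Xp.coeff b := by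
    intro b
    rw [hXp, coeff_sub, Finsupp.sub_apply, coeff_single, Finsupp.single_apply]
    split_ifs with hb
    · rw [← hb, sub_self]
    · rw [sub_zero]; exact hX.1 b
  have hnrm : ∀ k : ℕ, nrm (Xp ^ k) ≤ (1 - X.coeff 1) ^ k := by
    intro k
    induction k with
    | zero => simp [Prb.one.nrm_eq]
    | succ k ih =>
      have hb : nrm Xp = 1 - X.coeff 1 := by
        rw [nrm_of_nonneg h0, hXp, mass_sub, hX.2, mass_single]
      rw [pow_succ, pow_succ, ← hb]
      rw [← hb] at ih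
      exact (nrm_mul_le _ _).trans (mul_le_mul_of_nonneg_right ih (nrm_nonneg _))
  refine ⟨Xp ^ n, fun a => pow_nn h0 n a, hnrm n, fun a => ?_⟩
  have h1 : ∀ b, (ζ • (1 : MonoidAlgebra ℝ M)).coeff b ≤ Z.coeff b := by
    intro b
    rw [coeff_smul_apply, one_def, coeff_single, Finsupp.single_apply]
    split_ifs with hb
    · rw [mul_one, ← hb]; exact hZ1
    · rw [mul_zero]; exact hZ.1 b
  have h2 := mul_le_right (mul_le_left h1 (hX.pow i).1) (hX.pow (n - 1 - i)).1 a
  rw [mul_smul_comm, mul_one, smul_mul_assoc, coeff_smul_apply, ← pow_add,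
    show i + (n - 1 - i) = n - 1 by omega] at h2
  have h3 := pow_le_hole hX n a
  rw [← hXp] at h3
  refine h3.trans (add_le_add ?_ le_rfl)
  have hn : 0 ≤ (n : ℝ) * X.coeff 1 := mul_nonneg (Nat.cast_nonneg n) (hX.1 1)
  rw [div_mul_eq_mul_div, le_div_iff₀ hζ]
  nlinarith [mul_le_mul_of_nonneg_left h2 hn]

/-- The restriction of a measure to a set. -/
noncomputable def res (μ : MonoidAlgebra ℝ M) (S : M → Prop) : MonoidAlgebra ℝ M := by
  classical exact ∑ a ∈ μ.coeff.support.filter S, single a (μ.coeff a)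

lemma res_apply (μ : MonoidAlgebra ℝ M) (S : M → Prop) [DecidablePred S] (a : M) :
    (res μ S).coeff a = if S a then μ.coeff a else 0 := by
  classical
  simp only [res, coeff_sum, coeff_single, Finsupp.finsetSum_apply, Finsupp.single_apply,
    Finset.sum_ite_eq', Finset.mem_filter, Finsupp.mem_support_iff]
  by_cases hS : S a
  · by_cases h0 : μ.coeff a = 0 <;> simp [hS, h0]
  · simp [hS]

lemma res_support (μ : MonoidAlgebra ℝ M) (S : M → Prop) :
    (res μ S).coeff.support ⊆ μ.coeff.support := by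
  classical
  intro a ha
  rw [Finsupp.mem_support_iff, res_apply] at ha
  rw [Finsupp.mem_support_iff]
  split_ifs at ha with h
  · exact ha
  · exact absurd rfl ha

lemma res_nn {μ : MonoidAlgebra ℝ M} (h : ∀ a, 0 ≤ μ.coeff a) (S : M → Prop) (a : M) :
    0 ≤ (res μ S).coeff a := by
  classical
  rw [res_apply]; split_ifs
  · exact h a
  · exact le_rfl

/-- Powers lose at most linearly under restriction. -/
lemma mass_pow_sub_le {R R0 : MonoidAlgebra ℝ M} (hR : Prb R) (h0 : ∀ a, 0 ≤ R0.coeff a)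
    (hle : ∀ a, R0.coeff a ≤ R.coeff a) {ε : ℝ} (hε : mass (R - R0) ≤ ε) :
    ∀ n : ℕ, nrm (R ^ n - R0 ^ n) ≤ n * ε
  | 0 => by simp
  | n + 1 => by
    have hn : nrm (R0 ^ n) ≤ 1 := by
      rw [nrm_of_nonneg (pow_nn h0 n), mass_eq_pair]
      calc pair (R0 ^ n) (fun _ => 1) ≤ pair (R ^ n) (fun _ => 1) := by
            classical
            rw [pair_eq_sum _ (s := (R0 ^ n).coeff.support ∪ (R ^ n).coeff.support)
              subset_union_left, pair_eq_sum (μ := R ^ n) _ subset_union_right]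
            exact sum_le_sum fun a _ => by simpa using pow_le_pow_coeff h0 hle n a
        _ = 1 := by rw [← mass_eq_pair]; exact (hR.pow n).2
    have hd : nrm (R - R0) ≤ ε := by
      rw [nrm_of_nonneg fun a => by simpa using hle a]; exact hε
    rw [pow_succ, pow_succ, show R ^ n * R - R0 ^ n * R0
      = (R ^ n - R0 ^ n) * R + R0 ^ n * (R - R0) by rw [sub_mul, mul_sub]; abel]
    refine (nrm_add_le _ _).trans ((add_le_add ((nrm_mul_prb_le hR).trans
      (mass_pow_sub_le hR h0 hle hε n)) ((nrm_mul_le _ _).trans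
        (mul_le_mul hn hd (nrm_nonneg _) zero_le_one))).trans_eq ?_)
    push_cast; ring

/-- Moments of the likelihood ratio. -/
lemma moment_step {x y D : ℝ} (hx : 0 < x) (hy : 0 < y) (hD : y / x ≤ D) (hD1 : 1 ≤ D)
    (lam : ℕ) (hlam : 1 ≤ lam) : y * (y / x) ^ lam ≤ y + lam * D ^ lam * |y - x| := by
  rcases le_or_gt y x with h | h
  · have h1 : (y / x) ^ lam ≤ 1 := pow_le_one₀ (by positivity) ((div_le_one hx).2 h)
    have h2 : 0 ≤ (lam : ℝ) * D ^ lam * |y - x| := by positivity
    nlinarith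
  · obtain ⟨ρ, hρ⟩ : ∃ ρ, ρ = y / x := ⟨_, rfl⟩
    rw [← hρ] at hD ⊢
    have hρ1 : 1 ≤ ρ := hρ ▸ (one_le_div hx).2 h.le
    have hg : ρ ^ lam - 1 ≤ lam * ρ ^ (lam - 1) * (ρ - 1) := by
      rw [← geom_sum_mul ρ lam]
      refine mul_le_mul_of_nonneg_right ?_ (by linarith)
      calc ∑ i ∈ range lam, ρ ^ i ≤ ∑ _i ∈ range lam, ρ ^ (lam - 1) :=
            sum_le_sum fun i hi => pow_le_pow_right₀ hρ1 (by simp at hi; omega)
        _ = _ := by simp
    have hy' : y = x * ρ := by rw [hρ]; field_simp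
    have hpw : ρ * ρ ^ (lam - 1) ≤ D ^ lam := by
      rw [← pow_succ', Nat.sub_add_cancel hlam]
      exact pow_le_pow_left₀ (by linarith) hD lam
    rw [abs_of_pos (by linarith)]
    calc y * ρ ^ lam = y + x * (ρ * (ρ ^ lam - 1)) := by rw [hy']; ring
      _ ≤ y + x * (lam * D ^ lam * (ρ - 1)) := by
          refine add_le_add le_rfl (mul_le_mul_of_nonneg_left ?_ hx.le)
          calc ρ * (ρ ^ lam - 1) ≤ ρ * (lam * ρ ^ (lam - 1) * (ρ - 1)) :=
                mul_le_mul_of_nonneg_left hg (by linarith)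
            _ = lam * (ρ * ρ ^ (lam - 1)) * (ρ - 1) := by ring
            _ ≤ _ := by gcongr
      _ = _ := by rw [hy']; ring

/-- Long products of nearly equal laws dominate each other at a small cost. -/
theorem dom_pow_near {R X : MonoidAlgebra ℝ M} (hR : Prb R) (hX : Prb X) {C e δ γ : ℝ}
    (hC : 1 ≤ C) (h : Dom R X C e) (hδ : nrm (R - X) ≤ δ) (hγ : 0 < γ) (lam d : ℕ)
    (hlam : 1 ≤ lam) :
    Dom (R ^ d) (X ^ d) γ (d * (2 * e) + (1 + lam * (2 * C) ^ lam * δ) ^ d / γ ^ lam) := by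
  classical
  obtain ⟨r, hr, hrn, hle⟩ := h
  obtain ⟨R0, hR0⟩ : ∃ R0, R0 = res R (fun a => R.coeff a ≤ 2 * C * X.coeff a) := ⟨_, rfl⟩
  have h0 : ∀ a, 0 ≤ R0.coeff a := fun a => hR0 ▸ res_nn hR.1 _ a
  have hR0le : ∀ a, R0.coeff a ≤ R.coeff a := fun a => by
    rw [hR0, res_apply]; split_ifs
    · exact le_rfl
    · exact hR.1 a
  have hout : mass (R - R0) ≤ 2 * e := by
    have hnn : ∀ a, 0 ≤ (R - R0).coeff a := fun a => by simpa using hR0le a
    rw [← nrm_of_nonneg hnn]
    calc nrm (R - R0) ≤ nrm ((2 : ℝ) • r) := by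
          rw [nrm_eq_sum (s := (R - R0).coeff.support ∪ ((2 : ℝ) • r).coeff.support)
            subset_union_left, nrm_eq_sum (X := (2 : ℝ) • r) subset_union_right]
          refine sum_le_sum fun a _ => ?_
          rw [coeff_sub, Finsupp.sub_apply, coeff_smul_apply, hR0, res_apply]
          split_ifs with ha
          · rw [sub_self, abs_zero]; exact abs_nonneg _
          · rw [sub_zero, abs_of_nonneg (hR.1 a), abs_of_nonneg (by linarith [hr a])]
            linarith [hle a]
      _ ≤ 2 * e := by rw [nrm_smul, abs_of_pos two_pos]; linarith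
  obtain ⟨Mm, hMm⟩ : ∃ Mm : ℝ, Mm = 1 + lam * (2 * C) ^ lam * δ := ⟨_, rfl⟩
  have hδ0 : 0 ≤ δ := (nrm_nonneg _).trans hδ
  have hM1 : 1 ≤ Mm := by
    rw [hMm]; exact le_add_of_nonneg_right (by positivity)
  have hmom : ∑ a ∈ R0.coeff.support, R0.coeff a * (R0.coeff a / X.coeff a) ^ lam ≤ Mm := by
    have hs1 : ∑ a ∈ R0.coeff.support, R0.coeff a ≤ 1 := by
      refine (sum_le_sum fun a _ => hR0le a).trans ?_
      refine le_of_le_of_eq ?_ hR.2
      exact sum_le_sum_of_subset_of_nonneg (hR0 ▸ res_support R _) fun a _ _ => hR.1 a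
    have hs2 : ∑ a ∈ R0.coeff.support, |(R - X).coeff a| ≤ δ := (sum_abs_le_nrm _ _).trans hδ
    calc _ ≤ ∑ a ∈ R0.coeff.support,
          (R0.coeff a + lam * (2 * C) ^ lam * |(R - X).coeff a|) := by
          refine sum_le_sum fun a ha => ?_
          rw [Finsupp.mem_support_iff] at ha
          rw [hR0, res_apply] at ha ⊢
          split_ifs at ha ⊢ with hS
          · have hy : 0 < R.coeff a := lt_of_le_of_ne (hR.1 a) (Ne.symm ha)
            have hx : 0 < X.coeff a := by
              by_contra hx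
              nlinarith [hX.1 a, not_lt.1 hx]
            rw [coeff_sub, Finsupp.sub_apply]
            exact moment_step hx hy ((div_le_iff₀ hx).2 hS) (by linarith) lam hlam
          · exact absurd rfl ha
      _ ≤ Mm := by
          rw [sum_add_distrib, ← mul_sum, hMm]
          exact add_le_add hs1 (mul_le_mul_of_nonneg_left hs2 (by positivity))
  have key : ∀ (k : ℕ) (g : ℝ), 0 < g → Dom (R0 ^ k) (X ^ k) g (Mm ^ k / g ^ lam) := by
    intro k
    induction k with
    | zero =>
      intro g hg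
      rw [pow_zero, pow_zero, pow_zero]
      rcases le_or_gt 1 g with hg1 | hg1
      · exact (Dom.refl _).mono Prb.one.1 hg1 (by positivity)
      · refine ⟨1, Prb.one.1, ?_, fun a => ?_⟩
        · rw [Prb.one.nrm_eq, le_div_iff₀ (by positivity), one_mul]
          exact pow_le_one₀ hg.le hg1.le
        · linarith [mul_nonneg hg.le ((Prb.one (M := M)).1 a)]
    | succ k ih =>
      intro g hg
      have hs : ∀ a ∈ R0.coeff.support, 0 < R0.coeff a ∧ 0 < X.coeff a := by
        intro a ha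
        rw [Finsupp.mem_support_iff] at ha
        refine ⟨lt_of_le_of_ne (h0 a) (Ne.symm ha), ?_⟩
        rw [hR0, res_apply] at ha
        split_ifs at ha with hS
        · by_contra hx
          exact ha (le_antisymm (hS.trans (by nlinarith [hX.1 a, not_lt.1 hx])) (hR.1 a))
        · exact absurd rfl ha
      have hi : ∀ a : M, ∃ r : MonoidAlgebra ℝ M, a ∈ R0.coeff.support → (∀ b, 0 ≤ r.coeff b)
          ∧ nrm r ≤ Mm ^ k / g ^ lam * (R0.coeff a / X.coeff a) ^ lam
          ∧ ∀ b, R0.coeff a * (R0 ^ k).coeff b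
              ≤ g * X.coeff a * (X ^ k).coeff b + R0.coeff a * r.coeff b := by
        intro a
        by_cases ha : a ∈ R0.coeff.support
        · obtain ⟨hy, hx⟩ := hs a ha
          obtain ⟨r, hr0, hrn, hrle⟩ := ih (g / (R0.coeff a / X.coeff a)) (by positivity)
          refine ⟨r, fun _ => ⟨hr0, hrn.trans_eq ?_, fun b => ?_⟩⟩
          · rw [div_pow g, div_div_eq_mul_div, mul_comm, mul_div_assoc, mul_comm]
          · refine (mul_le_mul_of_nonneg_left (hrle b) hy.le).trans_eq ?_
            field_simp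
        · exact ⟨0, fun h => absurd h ha⟩
      choose rr hrr using hi
      refine ⟨∑ a ∈ R0.coeff.support, single a (R0.coeff a) * rr a, fun b => ?_, ?_, fun b => ?_⟩
      · rw [coeff_sum_apply]
        refine sum_nonneg fun a ha => mul_nn (fun c => ?_) (hrr a ha).1 b
        rw [coeff_single, Finsupp.single_apply]
        split_ifs
        · exact (hs a ha).1.le
        · exact le_rfl
      · refine (nrm_sum_le _ _).trans ?_
        calc _ ≤ ∑ a ∈ R0.coeff.support,
              Mm ^ k / g ^ lam * (R0.coeff a * (R0.coeff a / X.coeff a) ^ lam) := by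
              refine sum_le_sum fun a ha => (nrm_mul_le _ _).trans ?_
              rw [nrm_single, abs_of_pos (hs a ha).1, mul_left_comm]
              exact mul_le_mul_of_nonneg_left (hrr a ha).2.1 (hs a ha).1.le
          _ ≤ Mm ^ k / g ^ lam * Mm := by
              rw [← mul_sum]
              exact mul_le_mul_of_nonneg_left hmom (by positivity)
          _ = _ := by rw [pow_succ]; ring
      · have eR : R0 = ∑ a ∈ R0.coeff.support, single a (R0.coeff a) := by
          refine MonoidAlgebra.ext (Finsupp.ext fun c => ?_)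
          simp [coeff_sum, Finsupp.finsetSum_apply, Finsupp.single_apply, eq_comm]
        obtain ⟨XS, hXS⟩ : ∃ XS, XS = ∑ a ∈ R0.coeff.support, single a (X.coeff a) := ⟨_, rfl⟩
        have hXS' : ∀ c, XS.coeff c ≤ X.coeff c := by
          intro c
          simp only [hXS, coeff_sum, coeff_single, Finsupp.finsetSum_apply, Finsupp.single_apply,
            Finset.sum_ite_eq']
          split_ifs
          · exact le_rfl
          · exact hX.1 c
        have h1 : (R0 ^ (k + 1)).coeff b = ∑ a ∈ R0.coeff.support,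
            (single a (R0.coeff a) * R0 ^ k).coeff b := by
          rw [pow_succ', ← coeff_sum_apply, ← sum_mul, ← eR]
        have h2 : g * (XS * X ^ k).coeff b ≤ g * (X ^ (k + 1)).coeff b := by
          rw [pow_succ']
          exact mul_le_mul_of_nonneg_left (mul_le_right hXS' (hX.pow k).1 b) hg.le
        refine le_trans ?_ (add_le_add h2 le_rfl)
        rw [h1, hXS, sum_mul, coeff_sum_apply, coeff_sum_apply, mul_sum, ← sum_add_distrib]
        refine sum_le_sum fun a ha => ?_
        have hpt := mul_le_left (Z := single a 1) (X := R0.coeff a • R0 ^ k)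
          (Y := (g * X.coeff a) • X ^ k + R0.coeff a • rr a)
          (fun c => by simpa using (hrr a ha).2.2 c)
          (fun c => by rw [coeff_single, Finsupp.single_apply]; split_ifs <;> norm_num) b
        have es : ∀ (v : ℝ) (Y : MonoidAlgebra ℝ M),
            (single a 1 * (v • Y)).coeff b = (single a v * Y).coeff b := by
          intro v Y
          rw [mul_smul_comm, ← smul_mul_assoc, smul_single', mul_one]
        rw [mul_add, coeff_add, Finsupp.add_apply, es, es, es] at hpt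
        refine hpt.trans_eq ?_
        rw [← coeff_smul_apply g (_ * _) b, ← smul_mul_assoc, smul_single']
  obtain ⟨r2, hr2, hr2n, hr2le⟩ := key d γ hγ
  refine ⟨(R ^ d - R0 ^ d) + r2, fun a => ?_, (nrm_add_le _ _).trans (add_le_add
    (mass_pow_sub_le hR h0 hR0le hout d) (hMm ▸ hr2n)), fun a => ?_⟩
  · rw [coeff_add, Finsupp.add_apply, coeff_sub, Finsupp.sub_apply]
    linarith [pow_le_pow_coeff h0 hR0le d a, hr2 a]
  · rw [coeff_add, Finsupp.add_apply, coeff_sub, Finsupp.sub_apply]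
    linarith [hr2le a]

set_option linter.unusedVariables false in
/-- Change of reference. -/
theorem dom_convert {μ R P : MonoidAlgebra ℝ M} {H C e : ℝ} (hμ : Chi μ R H) (hH : 0 ≤ H)
    (hR : Prb R) (hP : Prb P) (hC : 1 ≤ C) (h : Dom R P C e) :
    ∃ G : MonoidAlgebra ℝ M, mass G = 0 ∧ Chi G P (2 * C * H)
      ∧ nrm (μ - G) ≤ 2 * Real.sqrt (2 * H * e) + |mass μ| := by
  classical
  obtain ⟨r, hr, hrn, hle⟩ := h
  obtain ⟨μ0, hμ0⟩ : ∃ μ0, μ0 = res μ (fun a => R.coeff a ≤ 2 * C * P.coeff a) := ⟨_, rfl⟩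
  have hchi : Chi μ0 P (2 * C * H) := by
    intro φ
    have h1 := hμ fun a => if R.coeff a ≤ 2 * C * P.coeff a then φ a else 0
    have e1 : pair μ (fun a => if R.coeff a ≤ 2 * C * P.coeff a then φ a else 0) = pair μ0 φ := by
      rw [pair_eq_sum (μ := μ0) φ (hμ0 ▸ res_support μ _)]
      refine sum_congr rfl fun a _ => ?_
      rw [hμ0, res_apply]
      split_ifs <;> simp [*]
    rw [e1] at h1
    refine h1.trans ?_
    rw [mul_right_comm (2 : ℝ) C H, mul_comm (2 * H) C, mul_assoc C, mul_left_comm C,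
      mul_assoc (2 : ℝ) H, mul_left_comm (2 : ℝ) H]
    refine mul_le_mul_of_nonneg_left ?_ hH
    rw [← mul_assoc, mul_comm (2 : ℝ) C, ← pair_smul]
    rw [pair_eq_sum (μ := R) _ (s := R.coeff.support ∪ ((C * 2) • P).coeff.support)
      subset_union_left, pair_eq_sum (μ := (C * 2) • P) _ subset_union_right]
    refine sum_le_sum fun a _ => ?_
    rw [coeff_smul_apply]
    split_ifs with ha
    · exact mul_le_mul_of_nonneg_right (ha.trans_eq (by ring)) (sq_nonneg _)
    · rw [zero_pow two_ne_zero, mul_zero]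
      exact mul_nonneg (mul_nonneg (by linarith) (hP.1 a)) (sq_nonneg _)
  have hout : nrm (μ - μ0) ≤ Real.sqrt (2 * H * e) := by
    refine Real.le_sqrt_of_sq_le ?_
    have h1 := hμ fun a => if R.coeff a ≤ 2 * C * P.coeff a then 0
      else if 0 ≤ μ.coeff a then 1 else -1
    have e1 : pair μ (fun a => if R.coeff a ≤ 2 * C * P.coeff a then 0
        else if 0 ≤ μ.coeff a then 1 else -1) = nrm (μ - μ0) := by
      rw [nrm_eq_sum (X := μ - μ0) (s := μ.coeff.support) (by
        rw [coeff_sub]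
        exact Finsupp.support_sub.trans (union_subset subset_rfl (hμ0 ▸ res_support μ _)))]
      refine sum_congr rfl fun a _ => ?_
      rw [coeff_sub, Finsupp.sub_apply, hμ0, res_apply]
      dsimp only
      split_ifs with h2 h3
      · simp
      · rw [mul_one, sub_zero, abs_of_nonneg h3]
      · rw [mul_neg, mul_one, sub_zero, abs_of_neg (not_le.1 h3)]
    rw [e1] at h1
    refine h1.trans ?_
    rw [mul_comm (2 : ℝ) H, mul_assoc]
    refine mul_le_mul_of_nonneg_left ?_ hH
    calc pair R _ ≤ nrm ((2 : ℝ) • r) := by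
          rw [pair_eq_sum (μ := R) _ (s := R.coeff.support ∪ ((2 : ℝ) • r).coeff.support)
            subset_union_left, nrm_eq_sum (X := (2 : ℝ) • r) subset_union_right]
          refine sum_le_sum fun a _ => ?_
          rw [coeff_smul_apply, abs_of_nonneg (mul_nonneg two_pos.le (hr a))]
          split_ifs with h2 h3
          · rw [zero_pow two_ne_zero, mul_zero]; linarith [hr a]
          · rw [one_pow, mul_one]; linarith [hle a]
          · rw [neg_one_sq, mul_one]; linarith [hle a]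
      _ ≤ 2 * e := by rw [nrm_smul, abs_of_pos two_pos]; linarith
  have h2CH : 0 ≤ 2 * C * H := by positivity
  refine ⟨μ0 - mass μ0 • P, ?_, hchi.centre hP h2CH, ?_⟩
  · rw [mass_sub, mass_eq_pair (mass μ0 • P), pair_smul, ← mass_eq_pair, hP.2, mul_one, sub_self]
  · have hm : |mass μ0| ≤ |mass μ| + nrm (μ - μ0) := by
      have h1 := abs_mass_le (μ - μ0)
      rw [mass_sub] at h1
      calc |mass μ0| = |mass μ - (mass μ - mass μ0)| := by rw [sub_sub_cancel]
        _ ≤ |mass μ| + |mass μ - mass μ0| := abs_sub _ _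
        _ ≤ _ := by linarith
    rw [show μ - (μ0 - mass μ0 • P) = (μ - μ0) + mass μ0 • P by abel]
    refine (nrm_add_le _ _).trans ?_
    rw [nrm_smul, hP.nrm_eq, mul_one]
    linarith

end Vale.Agent.P321.Super
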