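import Vale.Agent.P321.Super.Kernel
import Vale.Agent.P321.Super.Dom
import Vale.Agent.P321.Super.BaseBinom
import Mathlib.Algebra.Polynomial.AlgebraMap
import Mathlib.Analysis.SpecificLimits.Basic

/-! The difference of the base pair is a diluted shift of one short slot. -/

namespace Vale.Agent.P321.Super

open MonoidAlgebra Finset Filter Poly

variable {M : Type*} [Monoid M]

omit [Monoid M] in
/-- A signed measure bounded by a multiple of a probability element. -/
lemma chi_of_abs_le {μ P : MonoidAlgebra ℝ M} {c : ℝ} (hP : Prb P)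
    (h : ∀ a, |μ.coeff a| ≤ c * P.coeff a) : Chi μ P (c ^ 2) := by
  classical
  intro φ
  set s := μ.coeff.support ∪ P.coeff.support
  rw [pair_eq_sum φ (s := s) subset_union_left,
    pair_eq_sum (fun a => φ a ^ 2) (s := s) subset_union_right]
  have h2 := sum_sq_le_sum_mul_sum_of_sq_le_mul s (r := fun a => μ.coeff a * φ a)
    (f := fun a => P.coeff a) (g := fun a => c ^ 2 * (P.coeff a * φ a ^ 2)) (fun a _ => hP.1 a)
    (fun a _ => mul_nonneg (sq_nonneg c) (mul_nonneg (hP.1 a) (sq_nonneg _)))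
    (fun a _ => by
      rw [mul_pow, ← sq_abs (μ.coeff a)]
      calc |μ.coeff a| ^ 2 * φ a ^ 2 ≤ (c * P.coeff a) ^ 2 * φ a ^ 2 :=
            mul_le_mul_of_nonneg_right (pow_le_pow_left₀ (abs_nonneg _) (h a) 2) (sq_nonneg _)
        _ = _ := by ring)
  rw [← mul_sum] at h2
  have e : ∑ a ∈ s, P.coeff a = 1 := by
    rw [← hP.2, mass]
    exact (Finsupp.sum_of_support_subset P.coeff (subset_union_right : P.coeff.support ⊆ s)
      (fun _ x => x) (fun _ _ => rfl)).symm
  rwa [e, one_mul] at h2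

/-- Consecutive binomial laws at any success probability below one. -/
lemma sum_abs_pmf_succ_le {r : ℝ} (hr : 0 ≤ r) (hr1 : r < 1) (n N : ℕ) (hN : n + 1 < N) :
    (∑ k ∈ range N, |pmf r (n + 1) k - pmf r n k|) ^ 2 ≤ r / ((1 - r) * ((n : ℝ) + 1)) := by
  set D := ((n : ℝ) + 1) * (1 - r) with hD
  have hn : (0 : ℝ) < (n : ℝ) + 1 := by positivity
  have hD0 : 0 < D := mul_pos hn (by linarith)
  have hcs := sum_sq_le_sum_mul_sum_of_sq_le_mul (range N)
    (r := fun k => |pmf r (n + 1) k - pmf r n k|)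
    (f := fun k => pmf r (n + 1) k)
    (g := fun k => ((k : ℝ) - ((n : ℝ) + 1) * r) ^ 2 * pmf r (n + 1) k / D ^ 2)
    (fun k _ => pmf_nonneg hr hr1.le _ _)
    (fun k _ => div_nonneg (mul_nonneg (sq_nonneg _) (pmf_nonneg hr hr1.le _ _)) (sq_nonneg _))
    (fun k _ => le_of_eq (by
      have e : pmf r (n + 1) k - pmf r n k
          = ((k : ℝ) - ((n : ℝ) + 1) * r) * pmf r (n + 1) k / D := by
        rw [eq_div_iff hD0.ne', hD]
        linear_combination pmf_ratio (r := r) n k
      rw [sq_abs, e]; ring_nf))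
  have hs := sum_sq_pmf (r := r) (n + 1) N hN
  push_cast at hs
  rw [sum_pmf (n + 1) N hN, one_mul, ← sum_div, hs] at hcs
  refine hcs.trans_eq ?_
  have h2 : (1 : ℝ) - r ≠ 0 := by linarith
  rw [hD]; field_simp

/-- Lazy probability elements are smooth from a constant power on. -/
lemma exists_smooth {X : MonoidAlgebra ℝ M} {r : ℝ} (hX : Prb X) (hr : 0 < r) (hr1 : r < 1)
    (hlazy : ∀ a, ((1 - r) • (1 : MonoidAlgebra ℝ M)).coeff a ≤ X.coeff a) :
    ∃ c, 1 ≤ c ∧ Smooth X c := by
  set Y := r⁻¹ • (X - (1 - r) • (1 : MonoidAlgebra ℝ M)) with hY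
  have hYp : Prb Y := by
    refine ⟨fun a => ?_, ?_⟩
    · rw [hY, coeff_smul_apply, coeff_sub, Finsupp.sub_apply]
      exact mul_nonneg (inv_nonneg.2 hr.le) (sub_nonneg.2 (hlazy a))
    · rw [hY, mass_eq_pair, pair_smul, pair_sub, pair_smul, ← mass_eq_pair, ← mass_eq_pair, hX.2,
        (Prb.one (M := M)).2]
      field_simp; ring
  have hXY : X = Polynomial.aeval Y (trial r) := by
    rw [trial, map_add, map_mul, Polynomial.aeval_C, Polynomial.aeval_C, Polynomial.aeval_X,
      Algebra.algebraMap_eq_smul_one, Algebra.algebraMap_eq_smul_one, smul_mul_assoc, one_mul, hY,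
      smul_smul, mul_inv_cancel₀ hr.ne', one_smul, add_sub_cancel]
  set c := ⌈16 * r / (1 - r)⌉₊ + 1
  refine ⟨c, Nat.le_add_left 1 _, ?_⟩
  set N := c + 2
  have hdeg : ∀ m ≤ c + 1, (trial r ^ m).natDegree < N := fun m hm => by
    have h1 : (trial r).natDegree ≤ 1 := by
      refine (Polynomial.natDegree_add_le _ _).trans (max_le (by simp) ?_)
      exact (Polynomial.natDegree_C_mul_le _ _).trans Polynomial.natDegree_X_le
    have := Polynomial.natDegree_pow_le.trans (Nat.mul_le_mul_left m h1)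
    omega
  rw [Smooth, hXY, ← map_pow, ← map_pow, Polynomial.aeval_eq_sum_range' (hdeg _ le_rfl),
    Polynomial.aeval_eq_sum_range' (hdeg c (by omega)), ← sum_sub_distrib]
  refine (nrm_sum_le _ _).trans ?_
  have h2 : ∀ k ∈ range N, nrm ((trial r ^ (c + 1)).coeff k • Y ^ k - (trial r ^ c).coeff k • Y ^ k)
      = |pmf r (c + 1) k - pmf r c k| := fun k _ => by
    rw [← sub_smul, nrm_smul, (hYp.pow k).nrm_eq, mul_one]; rfl
  rw [sum_congr rfl h2]
  refine le_of_pow_le_pow_left₀ two_ne_zero (by norm_num)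
    ((sum_abs_pmf_succ_le hr.le hr1 c N (by omega)).trans ?_)
  have h3 : 16 * r / (1 - r) ≤ (c : ℝ) + 1 := by
    have := Nat.le_ceil (16 * r / (1 - r))
    simp only [c]; push_cast; linarith
  have h4 : 0 < 1 - r := by linarith
  rw [div_le_iff₀ h4] at h3
  rw [div_le_iff₀ (by positivity)]
  nlinarith

/-- The second order kernel: it makes differences small. -/
noncomputable def ker2 (m r : ℕ) : Polynomial ℝ := 1 - (1 - avgP m ^ 2) ^ r

lemma pre_avgP_sq_pow_le (n m : ℕ) : ∀ i, pre n ((1 - avgP m ^ 2) ^ i) ≤ 2 ^ i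
  | 0 => by simpa using pre_one_le n
  | i + 1 => by
    rw [pow_succ, pow_succ (2 : ℝ)]
    refine (pre_mul_le _ _ _).trans (mul_le_mul (pre_avgP_sq_pow_le n m i) ?_
      (pre_nonneg _ _) (by positivity))
    have h1 : pre n (avgP m ^ 2) ≤ 1 := by
      rw [sq]
      refine (pre_mul_le _ _ _).trans ?_
      nlinarith [pre_avgP_le n m, pre_nonneg n (avgP m)]
    linarith [pre_sub_le n 1 (avgP m ^ 2), pre_one_le n]

lemma pre_one_add_avgP_pow_le (n m : ℕ) : ∀ i, pre n ((1 + avgP m) ^ i) ≤ 2 ^ i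
  | 0 => by simpa using pre_one_le n
  | i + 1 => by
    rw [pow_succ, pow_succ (2 : ℝ)]
    refine (pre_mul_le _ _ _).trans (mul_le_mul (pre_one_add_avgP_pow_le n m i) ?_
      (pre_nonneg _ _) (by positivity))
    have : pre n (1 + avgP m) ≤ pre n 1 + pre n (avgP m) := by
      rw [pre, pre, pre, ← sum_add_distrib]
      exact sum_le_sum fun l _ => by rw [Polynomial.coeff_add]; exact abs_add_le _ _
    linarith [pre_one_le n, pre_avgP_le n m]

lemma one_add_avgP_pow_natDegree (m r : ℕ) : ((1 + avgP m) ^ r).natDegree ≤ r * m := by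
  refine Polynomial.natDegree_pow_le.trans (Nat.mul_le_mul_left r ?_)
  refine (Polynomial.natDegree_add_le _ _).trans (max_le (by simp) ?_)
  exact (avgP_natDegree m).trans (Nat.sub_le _ _)

lemma ker2_natDegree (m r : ℕ) : (ker2 m r).natDegree ≤ 2 * (r * m) := by
  refine (Polynomial.natDegree_sub_le _ _).trans (max_le (by simp) ?_)
  rw [show (1 - avgP m ^ 2) ^ r = (1 - avgP m) ^ r * (1 + avgP m) ^ r by rw [← mul_pow]; ring]
  refine Polynomial.natDegree_mul_le.trans ?_
  have h1 := (one_sub_avgP_pow_natDegree m r).trans (Nat.mul_le_mul_left r (Nat.sub_le m 1))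
  have h2 := one_add_avgP_pow_natDegree m r
  omega

lemma ker2_shift_sum_sq (m r : ℕ) (hm : 1 ≤ m) (n : ℕ) :
    ∑ l ∈ range n, (ker2 m r * Polynomial.X - ker2 m r).coeff l ^ 2
      ≤ 4 * 4 ^ r / (m : ℝ) ^ 3 := by
  have hm0 : (0 : ℝ) < m := by exact_mod_cast hm
  set S := ∑ i ∈ range r, (1 - avgP m ^ 2) ^ i with hS
  have hker : ker2 m r = avgP m ^ 2 * S := by
    have := mul_neg_geom_sum (1 - avgP m ^ 2) r
    rw [sub_sub_cancel] at this
    exact this.symm
  set D := (Polynomial.X ^ m - 1) * S with hD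
  have hkey : ker2 m r * Polynomial.X - ker2 m r = Polynomial.C (1 / (m : ℝ)) * (avgP m * D) := by
    rw [hker, hD, ← geom_sum_mul (Polynomial.X : Polynomial ℝ) m]
    simp only [avgP]
    ring
  have hS2 : ∀ k, pre k S ≤ 2 ^ r := by
    intro k
    calc pre k S ≤ ∑ i ∈ range r, pre k ((1 - avgP m ^ 2) ^ i) := by
          simp only [pre, hS, Polynomial.finsetSum_coeff]
          rw [sum_comm]
          exact sum_le_sum fun l _ => abs_sum_le_sum_abs _ _
      _ ≤ ∑ i ∈ range r, (2 : ℝ) ^ i := sum_le_sum fun i _ => pre_avgP_sq_pow_le k m i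
      _ ≤ 2 ^ r := by
          rw [← mul_one (∑ i ∈ range r, (2 : ℝ) ^ i)]
          have := geom_sum_mul (2 : ℝ) r
          norm_num at this ⊢
          linarith
  have hD2 : ∀ k, pre k D ≤ 2 * 2 ^ r := by
    intro k
    refine (pre_mul_le _ _ _).trans (mul_le_mul ?_ (hS2 k) (pre_nonneg _ _) (by norm_num))
    refine (pre_sub_le _ _ _).trans ?_
    have h1 : pre k (Polynomial.X ^ m : Polynomial ℝ) ≤ 1 := by
      simp only [pre, Polynomial.coeff_X_pow, apply_ite abs, abs_one, abs_zero]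
      rw [sum_ite_eq']
      split_ifs <;> norm_num
    linarith [pre_one_le k]
  set w := avgP m * D
  have hsup : ∀ l, |w.coeff l| ≤ 2 * 2 ^ r / (m : ℝ) := by
    intro l
    rw [Polynomial.coeff_mul, Nat.sum_antidiagonal_eq_sum_range_succ
      (fun i j => (avgP m).coeff i * D.coeff j)]
    refine (abs_sum_le_sum_abs _ _).trans ?_
    calc ∑ k ∈ range (l + 1), |(avgP m).coeff k * D.coeff (l - k)|
        ≤ ∑ k ∈ range (l + 1), 1 / (m : ℝ) * |D.coeff (l - k)| := by
          refine sum_le_sum fun k _ => ?_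
          rw [abs_mul]
          refine mul_le_mul_of_nonneg_right ?_ (abs_nonneg _)
          rw [coeff_avgP]
          split_ifs
          · exact (abs_of_nonneg (by positivity)).le
          · simp
      _ = 1 / (m : ℝ) * pre (l + 1) D := by
          rw [← mul_sum, pre]
          congr 1
          have := sum_range_reflect (fun k => |D.coeff k|) (l + 1)
          simpa using this
      _ ≤ 1 / (m : ℝ) * (2 * 2 ^ r) := mul_le_mul_of_nonneg_left (hD2 _) (by positivity)
      _ = _ := by ring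
  have hl1 : pre n w ≤ 2 * 2 ^ r :=
    (pre_mul_le _ _ _).trans (by
      simpa using mul_le_mul (pre_avgP_le n m) (hD2 n) (pre_nonneg _ _) zero_le_one)
  rw [hkey]
  calc ∑ l ∈ range n, (Polynomial.C (1 / (m : ℝ)) * w).coeff l ^ 2
      ≤ ∑ l ∈ range n, (1 / (m : ℝ)) ^ 2 * (2 * 2 ^ r / m * |w.coeff l|) := by
        refine sum_le_sum fun l _ => ?_
        rw [Polynomial.coeff_C_mul, mul_pow]
        refine mul_le_mul_of_nonneg_left ?_ (sq_nonneg _)
        rw [← sq_abs, sq]
        exact mul_le_mul_of_nonneg_right (hsup l) (abs_nonneg _)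
    _ = (1 / (m : ℝ)) ^ 2 * (2 * 2 ^ r / m) * pre n w := by
        rw [pre, mul_sum]; exact sum_congr rfl fun l _ => by ring
    _ ≤ (1 / (m : ℝ)) ^ 2 * (2 * 2 ^ r / m) * (2 * 2 ^ r) :=
        mul_le_mul_of_nonneg_left hl1 (by positivity)
    _ = 4 * 4 ^ r / (m : ℝ) ^ 3 := by
        rw [show (4 : ℝ) ^ r = 2 ^ r * 2 ^ r by rw [← mul_pow]; norm_num]
        field_simp; ring

/-- Extrapolation with the second order kernel. -/
lemma extrap2 {X : MonoidAlgebra ℝ M} (hX : Prb X) (Ω : MonoidAlgebra ℝ M) {η : ℝ} {s m r a : ℕ}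
    (hm : 1 ≤ m) (hη : nrm (X ^ s * (X - 1)) ≤ η) (ha : r * s + 2 * (r * m) ≤ a) :
    nrm (X ^ a * Ω * X ^ a - app (ker2 m r) fun l => X ^ (a + l) * Ω * X ^ (a - l))
      ≤ 2 ^ r * ((2 * m * η) ^ r * nrm Ω) := by
  rw [ker2, app_sub, app_one, Nat.add_zero, Nat.sub_zero, sub_sub_cancel,
    show (1 - avgP m ^ 2) ^ r = (1 - avgP m) ^ r * (1 + avgP m) ^ r by rw [← mul_pow]; ring]
  set p := (1 - avgP m) ^ r with hp
  set v := (1 + avgP m) ^ r with hv
  have hvd : v.natDegree < r * m + 1 := Nat.lt_succ_of_le (one_add_avgP_pow_natDegree m r)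
  have hpd : p.natDegree ≤ r * m :=
    (one_sub_avgP_pow_natDegree m r).trans (Nat.mul_le_mul_left r (Nat.sub_le m 1))
  have e : app (p * v) (fun l => X ^ (a + l) * Ω * X ^ (a - l))
      = ∑ i ∈ range (r * m + 1), v.coeff i •
          app p (fun l => X ^ (a + i + l) * Ω * X ^ (a - i - l)) := by
    conv_lhs => rw [v.as_sum_range_C_mul_X_pow' hvd]
    rw [mul_sum, app_sum]
    refine sum_congr rfl fun i _ => ?_
    rw [← mul_assoc, mul_comm p, mul_assoc, app_C_mul, app_mul_X_pow]
    congr 2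
    funext l
    rw [show a + (l + i) = a + i + l by omega, show a - (l + i) = a - i - l by omega]
  rw [e]
  refine (nrm_sum_le _ _).trans ?_
  calc ∑ i ∈ range (r * m + 1),
        nrm (v.coeff i • app p fun l => X ^ (a + i + l) * Ω * X ^ (a - i - l))
      ≤ ∑ i ∈ range (r * m + 1), |v.coeff i| * ((2 * m * η) ^ r * nrm Ω) := by
        refine sum_le_sum fun i hi => ?_
        rw [nrm_smul]
        refine mul_le_mul_of_nonneg_left ?_ (abs_nonneg _)
        have := mem_range.1 hi
        exact diff_right hX hm hη r Ω (a + i) (a - i) (by omega) (by omega)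
    _ = pre (r * m + 1) v * ((2 * m * η) ^ r * nrm Ω) := by rw [pre, sum_mul]
    _ ≤ _ := mul_le_mul_of_nonneg_right (pre_one_add_avgP_pow_le _ m r)
        (mul_nonneg (pow_nonneg (mul_nonneg (by positivity) ((nrm_nonneg _).trans hη)) r)
          (nrm_nonneg _))

/-- The difference of the base pair, diluted. -/
theorem base_shift {q : ℝ} (h0 : 0 < q) (h1 : q < 1) (K : ℕ) :
    ∃ C : ℝ, ∀ᶠ t : ℕ in atTop, ∃ G, Chi G (law q [false, true] ^ (2 * t ^ 100 + 2))
        (C / (t : ℝ) ^ 144)
      ∧ nrm (law q (baseB (t ^ 100)) - law q (baseA (t ^ 100)) - G) ≤ 1 / (t : ℝ) ^ K := by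
  classical
  set X := law q [false, true] with hXd
  set Z := law q [false] with hZd
  have hX : Prb X := prb_law h0.le h1.le _
  have hZ : Prb Z := prb_law h0.le h1.le _
  have hXZ : X = q • Z + Z * single (FreeMonoid.of true) (1 - q) := by
    rw [hXd, show ([false, true] : List Bool) = [false] ++ [true] from rfl, law_append, hZd,
      show law q [true] = chan q true by simp [law], chan, mul_add]
    congr 1
    rw [show single (1 : FreeMonoid Bool) q = q • (1 : Tr) by simp [one_def, smul_single],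
      mul_smul_comm, mul_one]
  have hle : ∀ b, q * Z.coeff b ≤ X.coeff b := by
    intro b
    rw [hXZ, coeff_add, Finsupp.add_apply, coeff_smul_apply]
    refine le_add_of_nonneg_right (mul_nn hZ.1 (fun c => ?_) b)
    simp only [coeff_single, Finsupp.single_apply]
    split_ifs
    · linarith
    · exact le_rfl
  have hlazy : ∀ b, ((1 - (1 - q ^ 2)) • (1 : Tr)).coeff b ≤ X.coeff b := by
    intro b
    refine le_trans ?_ (hle b)
    rw [coeff_smul_apply, show 1 - (1 - q ^ 2) = q * q by ring, mul_assoc]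
    refine mul_le_mul_of_nonneg_left ?_ h0.le
    rw [hZd, show law q [false] = chan q false by simp [law], chan, one_def, coeff_add,
      Finsupp.add_apply, coeff_single, coeff_single, coeff_single]
    simp only [Finsupp.single_apply]
    have : 0 ≤ 1 - q := by linarith
    split_ifs <;> linarith
  obtain ⟨c, hc1, hc⟩ := exists_smooth (r := 1 - q ^ 2) hX (by nlinarith) (by nlinarith) hlazy
  set G0 := Z - X with hG0
  have hG0m : mass G0 = 0 := by rw [hG0, mass_sub, hX.2, hZ.2, sub_self]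
  set h := (1 / q) ^ 2 with hh
  have hG0c : Chi G0 X h := by
    refine chi_of_abs_le hX fun b => ?_
    have hZX : Z.coeff b ≤ 1 / q * X.coeff b := by
      rw [one_div_mul_eq_div, le_div_iff₀ h0]
      linarith [hle b]
    have h2 : X.coeff b ≤ 1 / q * X.coeff b :=
      le_mul_of_one_le_left (hX.1 b) (by rw [le_div_iff₀ h0]; linarith)
    rw [hG0, coeff_sub, Finsupp.sub_apply, abs_le]
    constructor <;> linarith [hZ.1 b, hX.1 b]
  set R := K + 1
  refine ⟨4 * 4 ^ R * h, ?_⟩
  filter_upwards [eventually_ge_atTop (1 + 4 * 112 ^ R + R * (4 * c) + 2 * R + 2)] with t ht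
  set a := t ^ 100 with ha
  set m := t ^ 48 with hm
  set lam := t ^ 49 with hlam
  have ht1 : 1 ≤ t := by omega
  have hm1 : 1 ≤ m := Nat.one_le_pow _ _ (by omega)
  have hη : nrm (X ^ (4 * c * lam ^ 2) * (X - 1)) ≤ 28 / (lam : ℝ) :=
    Poly.smoothing hX hc1 hc (Nat.one_le_pow _ _ (by omega)) le_rfl
  have hfit : R * (4 * c * lam ^ 2) + 2 * (R * m) ≤ a := by
    calc R * (4 * c * lam ^ 2) + 2 * (R * m) = R * (4 * c) * t ^ 98 + 2 * R * t ^ 48 := by
          rw [hlam, hm, ← pow_mul]; ring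
      _ ≤ R * (4 * c) * t ^ 99 + 2 * R * t ^ 99 := by
          gcongr <;> omega
      _ = (R * (4 * c) + 2 * R) * t ^ 99 := by ring
      _ ≤ t * t ^ 99 := Nat.mul_le_mul_right _ (by omega)
      _ = a := by rw [ha, ← pow_succ']
  set d : Cf := cx * ce - ce * cx with hd
  set u : ℕ → Cf := fun l => cx ^ (a + l) * ce * cx ^ (a + 1 - l) with hu
  set cc := app (ker2 m R) fun l => cx ^ (a + l) * d * cx ^ (a - l) with hcc
  have hker := ker2_natDegree m R
  have hcc' : cc = app (ker2 m R * Polynomial.X - ker2 m R) u := by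
    rw [hcc, app_sub, ← pow_one Polynomial.X, app_mul_X_pow, ← app_sub_fun]
    refine app_congr fun l hl => ?_
    have hl' : l ≤ a := hl.trans (hker.trans (by omega))
    rw [hd, hu]
    simp only [mul_sub, sub_mul]
    rw [show a + (l + 1) = a + l + 1 by omega, pow_succ cx (a + l),
      show a + 1 - (l + 1) = a - l by omega, show a + 1 - l = a - l + 1 by omega,
      pow_succ' cx (a - l)]
    simp only [mul_assoc]
  set n := 2 * (R * m) + 2
  have hdeg : (ker2 m R * Polynomial.X - ker2 m R).natDegree < n := by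
    refine lt_of_le_of_lt (Polynomial.natDegree_sub_le _ _) (max_lt ?_ ?_)
    · refine lt_of_le_of_lt Polynomial.natDegree_mul_le ?_
      rw [Polynomial.natDegree_X]
      omega
    · omega
  rw [app_eq_sum hdeg] at hcc'
  have hHu : ∀ l ∈ range n, Hom (2 * a + 2) (u l) := by
    intro l hl
    have := mem_range.1 hl
    have h2 := hom_mul (hom_mul (hom_pow hom_cx (a + l)) hom_ce) (hom_pow hom_cx (a + 1 - l))
    rwa [show (a + l) * 1 + 1 + (a + 1 - l) * 1 = 2 * a + 2 by omega] at h2
  have hHom : Hom (2 * a + 2) cc := by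
    rw [hcc']; exact hom_sum _ _ fun l hl => hom_smul (hHu l hl) _
  have hh0 : 0 ≤ h := sq_nonneg _
  have hqf : qf h cc ≤ 4 * 4 ^ R * h / (t : ℝ) ^ 144 := by
    rw [hcc', qf_sum_eq_of_key h _ _ (fun w => (FreeMonoid.toList w).idxOf true)
      (fun l => a + l) (fun x _ y _ e => by simpa using e)]
    · have : ∀ l, qf h ((ker2 m R * Polynomial.X - ker2 m R).coeff l • u l)
          = (ker2 m R * Polynomial.X - ker2 m R).coeff l ^ 2 * h := by
        intro l
        rw [qf_smul, hu, qf_mul h (hom_mul (hom_pow hom_cx _) hom_ce) (hom_pow hom_cx _),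
          qf_mul h (hom_pow hom_cx _) hom_ce, qf_cx_pow, qf_cx_pow, qf_ce]
        ring
      rw [sum_congr rfl fun l _ => this l, ← sum_mul]
      refine (mul_le_mul_of_nonneg_right (ker2_shift_sum_sq m R hm1 n) hh0).trans_eq ?_
      rw [hm]; push_cast; ring
    · intro l _ w hw
      have hw' : w ∈ (u l).coeff.support :=
        Finsupp.support_smul (by simpa only [coeff_smul] using hw)
      obtain ⟨x, hx, y, -, rfl⟩ := mem_support_mul hw'
      obtain ⟨x1, hx1, x2, hx2, rfl⟩ := mem_support_mul hx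
      rw [cx_pow, coeff_single] at hx1
      rw [ce, coeff_single] at hx2
      rw [mem_singleton.1 (Finsupp.support_single_subset hx1),
        mem_singleton.1 (Finsupp.support_single_subset hx2), FreeMonoid.toList_mul,
        FreeMonoid.toList_mul, FreeMonoid.toList_ofList, List.append_assoc,
        List.idxOf_append_of_notMem (by simp), List.length_replicate]
      simp
  refine ⟨ev X G0 cc, (chi_ev hX hG0c hG0m hh0 _ cc hHom).mono (hX.pow _) hqf, ?_⟩
  have hev : ev X G0 cc = app (ker2 m R) fun l => X ^ (a + l) * ev X G0 d * X ^ (a - l) := by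
    rw [hcc]
    refine (app_map (ev X G0).toLinearMap _ _).trans (app_congr fun l _ => ?_)
    simp [map_mul, map_pow]
  have hdiff : law q (baseB a) - law q (baseA a) = X ^ a * ev X G0 d * X ^ a := by
    have e1 : ev X G0 d = X * Z - Z * X := by
      simp only [hd, map_sub, map_mul, ev_cx, ev_ce, hG0, mul_sub, sub_mul]
      abel
    rw [e1, baseA, baseB, law_append, law_append, law_append, law_append, law_rep, law_rep,
      ← hXd, ← hZd, pow_succ X a]
    have e2 : X ^ a * X = X * X ^ a := by rw [← pow_succ, pow_succ']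
    conv_lhs => arg 2; rw [e2]
    simp only [mul_sub, sub_mul, mul_assoc]
  have hΩ : nrm (ev X G0 d) ≤ 4 := by
    have h2 : nrm G0 ≤ 2 := by
      rw [hG0]; refine (nrm_sub_le _ _).trans ?_
      rw [hX.nrm_eq, hZ.nrm_eq]; norm_num
    simp only [hd, map_sub, map_mul, ev_cx, ev_ce]
    refine (nrm_sub_le _ _).trans ?_
    linarith [nrm_prb_mul_le hX (Y := G0), nrm_mul_prb_le hX (X := G0)]
  rw [hdiff, hev]
  refine (extrap2 hX _ hm1 hη hfit).trans ?_
  have htR : (1 : ℝ) ≤ t := by exact_mod_cast ht1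
  have he : 2 * (m : ℝ) * (28 / (lam : ℝ)) = 56 / t := by
    rw [hm, hlam]; push_cast; field_simp; ring
  rw [he]
  have h4 : (4 : ℝ) * 112 ^ R ≤ t := by
    have h5 : ((4 * 112 ^ R : ℕ) : ℝ) ≤ (t : ℝ) := Nat.cast_le.2 (by omega)
    push_cast at h5
    linarith
  calc (2 : ℝ) ^ R * ((56 / (t : ℝ)) ^ R * nrm (ev X G0 d)) ≤ 2 ^ R * ((56 / (t : ℝ)) ^ R * 4) := by
        gcongr
    _ = 4 * 112 ^ R / (t : ℝ) ^ R := by
        rw [div_pow, show (112 : ℝ) ^ R = 2 ^ R * 56 ^ R by rw [← mul_pow]; norm_num]; ring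
    _ ≤ 1 / (t : ℝ) ^ K := by
        rw [div_le_div_iff₀ (by positivity) (by positivity), one_mul, pow_succ' (t : ℝ) K]
        refine mul_le_mul_of_nonneg_right ?_ (by positivity)
        exact h4

end Vale.Agent.P321.Super
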