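import Vale.Agent.P321.Super.Words
import Vale.Agent.P321.Super.BaseDom
import Vale.Agent.P321.Super.BaseShift
import Vale.Agent.P321.Super.BaseOverlap
import Vale.Agent.P321.Super.Amplify

/-! The base pair: the position of one short slot in the sea `(01)`. -/

namespace Vale.Agent.P321.Super

open MonoidAlgebra Finset Filter Poly

lemma htK_le0 {t : ℝ} (ht : 1 ≤ t) {i j : ℕ} (hij : i ≤ j) : 1 / t ^ j ≤ 1 / t ^ i :=
  one_div_le_one_div_of_le (by positivity) (pow_le_pow_right₀ ht hij)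

lemma length_base (a : ℕ) : (baseA a).length = 4 * a + 3 ∧ (baseB a).length = 4 * a + 3 := by
  simp only [baseA, baseB, List.length_append, length_rep, List.length_cons, List.length_nil]
  constructor <;> ring

lemma baseA_ne_baseB (a : ℕ) : baseA a ≠ baseB a := by
  have e : rep (a + 1) [false, true] = rep a [false, true] ++ [false, true] := by
    simp [rep, List.replicate_succ', List.flatten_append]
  have e' : rep (a + 1) [false, true] = [false, true] ++ rep a [false, true] := by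
    simp [rep, List.replicate_succ]
  intro h
  rw [baseA, baseB] at h
  conv_lhs at h => rw [e']
  conv_rhs at h => rw [e]
  simp at h

lemma smooth_antitone {M : Type*} [Monoid M] {X : MonoidAlgebra ℝ M} (hX : Prb X) {c c' : ℕ}
    (h : Smooth X c) (hc : c ≤ c') : Smooth X c' := by
  unfold Smooth at *
  rw [pow_succ, ← mul_sub_one] at h ⊢
  exact (nrm_pow_mul_antitone hX hc _).trans h

theorem base_smooth_all {q : ℝ} (h0 : 0 < q) (h1 : q < 1) :
    ∃ τ : ℕ, ∀ᶠ a : ℕ in atTop, Smooth (law q (baseA a)) (τ * (2 * a + 2)) := by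
  obtain ⟨η, hη, τ, hov⟩ := base_overlap h0 h1
  obtain ⟨C, hC⟩ := amplify (M := FreeMonoid Bool) hη
  refine ⟨C * τ, hov.mono fun a ⟨c, hc, hcτ, hn⟩ => ?_⟩
  have hX := prb_law h0.le h1.le (baseA a)
  refine smooth_antitone hX (hC _ c hX hc hn) ?_
  rw [mul_assoc]
  exact Nat.mul_le_mul_left C hcτ

theorem base_state {q : ℝ} (h0 : 0 < q) (hlt : q < 1) : State q 101 140 := by
  obtain ⟨τ, hτ⟩ := base_smooth_all h0 hlt
  intro K
  obtain ⟨P, hdom⟩ := base_dom h0 hlt (2 * K + 12)
  obtain ⟨C, hshift⟩ := base_shift h0 hlt (2 * K + 12)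
  refine ⟨P + P, ?_⟩
  have ht100 : Tendsto (fun t : ℕ => t ^ 100) atTop atTop := tendsto_pow_atTop (by norm_num)
  filter_upwards [ht100.eventually hτ, hdom, hshift, eventually_ge_atTop (max (4 * τ) 8),
    lg_pow_le P (2 * |C| + 2)] with t hst hd hG htb htlg
  obtain ⟨⟨dA, dA'⟩, dB, dB'⟩ := hd
  obtain ⟨G, hchi, hGe⟩ := hG
  have ht8 : 8 ≤ t := (le_max_right _ _).trans htb
  have ht1 : 1 ≤ t := by omega
  have htR : (8 : ℝ) ≤ t := by exact_mod_cast ht8
  have htpos : (0 : ℝ) < t := by linarith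
  set a := t ^ 100 with ha
  have ha1 : 1 ≤ a := Nat.one_le_pow _ _ ht1
  refine ⟨baseA a, baseB a, ?_, ?_, ?_, baseA_ne_baseB a, ?_, ?_, ?_, ?_⟩
  · rw [(length_base a).1, (length_base a).2]
  · rw [(length_base a).1]
    have : t ≤ a := Nat.le_self_pow (by norm_num) t
    omega
  · rw [(length_base a).1]
    calc 4 * a + 3 ≤ t * a := le_trans (by omega) (Nat.mul_le_mul_right a ht8)
      _ = t ^ 101 := by rw [ha, ← pow_succ']
      _ ≤ t ^ (2 * 101) := Nat.pow_le_pow_right ht1 (by norm_num)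
  · refine smooth_antitone (prb_law h0.le hlt.le _) hst ?_
    calc τ * (2 * a + 2) ≤ 4 * τ * a := by nlinarith
      _ ≤ t * a := Nat.mul_le_mul_right a ((le_max_left _ _).trans htb)
      _ = t ^ 101 := by rw [ha, ← pow_succ']
  · set X := law q [false, true]
    set D := lg t ^ P
    set e := 1 / (t : ℝ) ^ (2 * K + 12) with he
    have hX : Prb X := prb_law h0.le hlt.le _
    have hA := prb_law h0.le hlt.le (baseA a)
    have hB := prb_law h0.le hlt.le (baseB a)
    have hD : 1 ≤ D := one_le_pow₀ (one_le_lg t)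
    have hH0 : 0 ≤ |C| / (t : ℝ) ^ 144 := by positivity
    have hchi' : Chi G (X ^ (2 * a + 2)) (|C| / (t : ℝ) ^ 144) :=
      hchi.mono (hX.pow _) (div_le_div_of_nonneg_right (le_abs_self C) (by positivity))
    have hm : |mass G| ≤ e := by
      have h2 := (abs_mass_le _).trans hGe
      rwa [mass_sub, mass_sub, hA.2, hB.2, sub_self, zero_sub, abs_neg] at h2
    obtain ⟨G2, hG20, hG2, hG2e⟩ := dom_convert hchi' hH0 (hX.pow _) hA hD dA
    refine ⟨G2, hG20, hG2.mono hA ?_, ?_⟩
    · rw [show 2 * D * (|C| / (t : ℝ) ^ 144) = 2 * |C| * D * (1 / (t : ℝ) ^ 144) by ring]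
      refine le_trans ?_ (htK_le0 (t := (t : ℝ)) (by linarith) (show 140 ≤ 143 by norm_num))
      rw [show (1 : ℝ) / (t : ℝ) ^ 143 = t * (1 / (t : ℝ) ^ 144) by
        rw [pow_succ (t : ℝ) 143]; field_simp]
      exact mul_le_mul_of_nonneg_right (by linarith) (by positivity)
    · have hsq : Real.sqrt (2 * (|C| / (t : ℝ) ^ 144) * e) ≤ 1 / (t : ℝ) ^ (K + 5) := by
        rw [Real.sqrt_le_iff]
        refine ⟨by positivity, ?_⟩
        have h1 : 2 * (|C| / (t : ℝ) ^ 144) ≤ t := by
          refine le_trans ?_ (show 2 * |C| ≤ (t : ℝ) from le_trans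
            (le_mul_of_one_le_right (by positivity) hD) (by linarith))
          exact mul_le_mul_of_nonneg_left (div_le_self (abs_nonneg C) (one_le_pow₀ (by linarith)))
            two_pos.le
        calc 2 * (|C| / (t : ℝ) ^ 144) * e ≤ t * e := mul_le_mul_of_nonneg_right h1 (by positivity)
          _ = 1 / (t : ℝ) ^ (2 * K + 11) := by
              rw [he, pow_succ (t : ℝ) (2 * K + 11)]; field_simp
          _ ≤ 1 / (t : ℝ) ^ (2 * (K + 5)) := htK_le0 (by linarith) (by omega)
          _ = _ := by rw [div_pow, one_pow, ← pow_mul, Nat.mul_comm]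
      rw [show law q (baseB a) - law q (baseA a) - G2
        = (law q (baseB a) - law q (baseA a) - G) + (G - G2) by abel]
      refine (nrm_add_le _ _).trans ((add_le_add hGe hG2e).trans ?_)
      have h5 : e ≤ 1 / (t : ℝ) ^ (K + 5) := htK_le0 (by linarith) (by omega)
      have h6 : 4 * (1 / (t : ℝ) ^ (K + 5)) ≤ 1 / (t : ℝ) ^ (K + 4) := by
        rw [show (1 : ℝ) / (t : ℝ) ^ (K + 4) = t * (1 / (t : ℝ) ^ (K + 5)) by
          rw [pow_succ (t : ℝ) (K + 4)]; field_simp]
        exact mul_le_mul_of_nonneg_right (by linarith) (by positivity)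
      linarith [htK_le0 (t := (t : ℝ)) (by linarith) (show K ≤ K + 4 by omega)]
  all_goals
    have hD : (1 : ℝ) ≤ lg t ^ P := one_le_pow₀ (one_le_lg t)
    have herr : 1 / (t : ℝ) ^ (2 * K + 12) + lg t ^ P * (1 / (t : ℝ) ^ (2 * K + 12))
        ≤ 1 / (t : ℝ) ^ K := by
      refine le_trans ?_ (htK_le0 (by linarith) (show K ≤ 2 * K + 11 by omega))
      rw [show (1 : ℝ) / (t : ℝ) ^ (2 * K + 11) = t * (1 / (t : ℝ) ^ (2 * K + 12)) by
        rw [pow_succ (t : ℝ) (2 * K + 11)]; field_simp]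
      have h1 : (1 : ℝ) + lg t ^ P ≤ t := by nlinarith [abs_nonneg C]
      linarith [mul_le_mul_of_nonneg_right h1 (show (0 : ℝ) ≤ 1 / (t : ℝ) ^ (2 * K + 12) by positivity)]
    rw [pow_add]
  · exact (dA'.trans dB (by linarith)).mono (prb_law h0.le hlt.le _).1 le_rfl herr
  · exact (dB'.trans dA (by linarith)).mono (prb_law h0.le hlt.le _).1 le_rfl herr

end Vale.Agent.P321.Super
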