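import Vale.Agent.P321.Super.BaseLift

/-! The base period is smooth when the deletion probability is close to one. -/

namespace Vale.Agent.P321.Super

open MonoidAlgebra Finset Filter Poly

variable {q : ℝ}

section
variable (h0 : 1 / 2 ≤ q) (h1 : q < 1)
include h0 h1

/-- Replacing the short slot of every period by its surrogate costs little. -/
lemma nrm_replace_le {a N T : ℕ} {ρ : ℝ} (ha : 1 ≤ vis q * a) (hρ : 1 ≤ ρ) (hT0 : 1 ≤ T)
    (hT : T < N) (hN : (N : ℝ) ≤ ρ * (2 * a + 1))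
    (hsmall : 10 * (1 - q) ^ 2 * (13 * ρ / vis q) ≤ 1 / (528 * 1024)) :
    nrm ((Xh q ^ a * Zh q * Xh q ^ (a + 1)) ^ T - (Xh q ^ (2 * a + 1) * Wh q) ^ T) ≤ 1 / 16 := by
  obtain ⟨hr, hr2, hpr⟩ := vis_pos h0 h1
  obtain ⟨hw0, hw1⟩ := wt_bounds h0 h1
  set r := vis q with hrdef
  have hr12 : r ≤ 1 := by rw [hrdef, vis]; nlinarith [sq_nonneg q]
  set ε := 10 * (1 - q) ^ 2 * (13 * ρ / r) with hε
  have hε0 : 0 ≤ ε := by positivity
  have hr_half : r ≤ 1 / 2 := by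
    have h3 : 130 * ρ * (1 - q) * ((1 - q) / r) ≤ 1 / (528 * 1024) := le_trans (le_of_eq (by
      rw [hε]; ring)) hsmall
    have h4 : 1 / 2 ≤ (1 - q) / r := by rw [le_div_iff₀ hr]; linarith
    have h5 : 0 ≤ 130 * ρ * (1 - q) := by
      have : 0 ≤ 1 - q := by linarith
      positivity
    have h6 := mul_le_mul_of_nonneg_left h4 h5
    have h7 : 1 * (1 - q) ≤ ρ * (1 - q) := mul_le_mul_of_nonneg_right hρ (by linarith)
    linarith
  set ℓ : ℕ := 2 * a + 1 with hℓ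
  set X₁ := Xh q ^ a * Zh q * Xh q ^ (a + 1)
  set K := Xh q ^ ℓ * Wh q
  set v₀ : ℝ := (ℓ : ℝ) * r + (1 - q) with hv₀
  have hX := conc_Xh h0 h1
  have hA : Conc X₁ v₀ v₀ := by
    have := ((hX.pow a).mul (conc_Zh h0 h1)).mul (hX.pow (a + 1))
    rwa [show (a : ℝ) * r + (1 - q) + ((a + 1 : ℕ) : ℝ) * r = v₀ by
      rw [hv₀, hℓ]; push_cast; ring] at this
  have hB : Conc K v₀ v₀ := (hX.pow ℓ).mul (conc_Wh h0 h1)
  set V : ℝ := (T : ℝ) * (((ℓ : ℝ) + 1) * r) with hV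
  have hTR : (1 : ℝ) ≤ T := by exact_mod_cast hT0
  have hVpos : 0 < V := by positivity
  have hvV : (T : ℝ) * v₀ ≤ V :=
    mul_le_mul_of_nonneg_left (by rw [hv₀]; linarith) (by positivity)
  have hq := qf_defect_le hr hr_half hw0 hw1 (h := 10 * (1 - q) ^ 2) (by positivity) hρ hT hN
    (hsmall.trans (by norm_num))
  refine (nrm_le_window (gd_three _ _ _) (gd_three _ _ _) (prb_Yh h0 h1) (by positivity)
    (mass_Gh h1 (by linarith)) (chi_Gh h0 h1) (ev_defect h0 h1 a T)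
    (show 0 < 8 * Real.sqrt V by positivity) (hA.pow T) (hB.pow T)).trans ?_
  have hout : (T : ℝ) * v₀ / (8 * Real.sqrt V) ^ 2 ≤ 1 / 64 := by
    rw [div_le_iff₀ (by positivity), mul_pow, Real.sq_sqrt hVpos.le]
    linarith
  set D : ℝ := r * (((a + T * ℓ : ℕ) : ℝ) + 1) with hD
  have hD1 : 1 ≤ D := by
    refine ha.trans (mul_le_mul_of_nonneg_left ?_ hr.le)
    push_cast
    linarith [mul_nonneg (Nat.cast_nonneg T : (0 : ℝ) ≤ T) (Nat.cast_nonneg ℓ : (0 : ℝ) ≤ ℓ)]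
  have hℓ1 : (1 : ℝ) ≤ ℓ := by rw [hℓ]; exact_mod_cast (show 1 ≤ 2 * a + 1 by omega)
  have hVD : V ≤ 4 * D := by
    have g1 := mul_le_mul_of_nonneg_left hℓ1 (mul_nonneg (zero_le_one.trans hTR) hr.le)
    have g2 : 0 ≤ r * a := mul_nonneg hr.le (Nat.cast_nonneg _)
    have g3 : 0 ≤ T * r * (ℓ : ℝ) := by positivity
    rw [hV, hD]
    push_cast
    linarith
  have hsV : Real.sqrt V ≤ 2 * Real.sqrt D := by
    refine (Real.sqrt_le_sqrt hVD).trans (le_of_eq ?_)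
    rw [Real.sqrt_mul (by norm_num), show (4 : ℝ) = 2 ^ 2 by norm_num, Real.sqrt_sq (by norm_num)]
  have hsD : 1 ≤ Real.sqrt D := Real.one_le_sqrt.2 hD1
  have hin : (2 * (8 * Real.sqrt V) + 1) * qf (10 * (1 - q) ^ 2) (defect r (wt q) a T)
      ≤ 1 / 1024 := by
    calc _ ≤ (33 * Real.sqrt D) * (8 * ε * (2 / Real.sqrt D)) :=
          mul_le_mul (by linarith) hq (qf_nonneg (by positivity) _) (by positivity)
      _ = 528 * ε := by field_simp; ring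
      _ ≤ _ := by linarith
  have hs : Real.sqrt ((2 * (8 * Real.sqrt V) + 1)
      * qf (10 * (1 - q) ^ 2) (defect r (wt q) a T)) ≤ 1 / 32 := by
    refine (Real.sqrt_le_sqrt hin).trans (le_of_eq ?_)
    rw [show (1 : ℝ) / 1024 = (1 / 32) ^ 2 by norm_num, Real.sqrt_sq (by norm_num)]
  linarith

/-- The surrogate period is smooth. -/
lemma nrm_surrogate_le {a c : ℕ} (h8 : 2 * vis q ≤ 1 / 4)
    (hc : 4 * 448 ^ 2 * (2 * a + 2) ≤ c) :
    nrm ((Xh q ^ (2 * a + 1) * Wh q) ^ c * (Xh q ^ (2 * a + 1) * Wh q - 1)) ≤ 1 / 8 := by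
  obtain ⟨hw0, hw1⟩ := wt_bounds h0 h1
  set ℓ : ℕ := 2 * a + 1 with hℓ
  have hX : Prb (Xh q) := (conc_Xh h0 h1).1
  have hW : Prb (Wh q) := (conc_Wh h0 h1).1
  have hWe : Wh q = (1 - wt q) • (1 : Gr) + wt q • Xh q := by
    rw [Wh, one_def, smul_single, smul_eq_mul, mul_one]
  have hcm : Commute (Xh q ^ ℓ) (Wh q) := by
    rw [hWe]
    exact ((Commute.one_right _).smul_right _).add_right
      (((Commute.refl _).pow_left ℓ).smul_right _)
  have e : Xh q ^ ℓ * Wh q - 1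
      = (1 - wt q) • (Xh q ^ ℓ - 1) + wt q • (Xh q ^ (ℓ + 1) - 1) := by
    rw [hWe, mul_add, mul_smul_comm, mul_smul_comm, mul_one, ← pow_succ, smul_sub, smul_sub,
      sub_smul, sub_smul, one_smul, one_smul]
    abel
  rw [hcm.mul_pow, (hcm.pow_pow c c).eq, mul_assoc, ← pow_mul, e]
  refine (nrm_prb_mul_le (hW.pow c)).trans ?_
  rw [mul_add, mul_smul_comm, mul_smul_comm]
  have hsm : nrm (Xh q ^ (ℓ * c) * (Xh q - 1)) ≤ 28 / ((448 * ℓ : ℕ) : ℝ) := by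
    refine smoothing hX le_rfl ?_ (by omega) ?_
    · rw [pow_succ, pow_one, show Xh q * Xh q - Xh q = Xh q * (Xh q - 1) by
        rw [mul_sub, mul_one]]
      exact ((nrm_prb_mul_le hX).trans (nrm_Xh_sub_one_le h1 h0)).trans h8
    · calc 4 * 1 * (448 * ℓ) ^ 2 = 4 * 448 ^ 2 * ℓ * ℓ := by ring
        _ ≤ 4 * 448 ^ 2 * (2 * a + 2) * ℓ := by gcongr; omega
        _ ≤ c * ℓ := by gcongr
        _ = ℓ * c := by ring
  have hℓ1 : (1 : ℝ) ≤ ℓ := by rw [hℓ]; exact_mod_cast (show 1 ≤ 2 * a + 1 by omega)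
  have hb : ∀ n : ℕ, n ≤ ℓ + 1 → nrm (Xh q ^ (ℓ * c) * (Xh q ^ n - 1)) ≤ 1 / 8 := by
    intro n hn
    have hn' : (n : ℝ) ≤ 2 * ℓ := by
      have : (n : ℝ) ≤ ℓ + 1 := by exact_mod_cast hn
      linarith
    refine (nrm_pow_mul_pow_sub_one_le hX _ n).trans
      ((mul_le_mul hn' hsm (nrm_nonneg _) (by positivity)).trans (le_of_eq ?_))
    push_cast
    field_simp
    ring
  refine (nrm_add_le _ _).trans ?_
  rw [nrm_smul, nrm_smul, abs_of_nonneg hw0, abs_of_nonneg (by linarith)]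
  have i1 := mul_le_mul_of_nonneg_left (hb ℓ (Nat.le_succ _)) (show 0 ≤ 1 - wt q by linarith)
  have i2 := mul_le_mul_of_nonneg_left (hb (ℓ + 1) le_rfl) hw0
  linarith

end

theorem base_smooth : ∃ q0 : ℝ, 0 < q0 ∧ q0 < 1 ∧ ∀ q : ℝ, q0 ≤ q → q < 1 →
    ∃ τ : ℕ, ∀ᶠ a : ℕ in atTop, Smooth (law q (baseA a)) (τ * (2 * a + 2)) := by
  refine ⟨1 - 1 / (528 * 1024 * 390 * (4 * 448 ^ 2)), by norm_num, by norm_num,
    fun q hq h1 => ⟨4 * 448 ^ 2, ?_⟩⟩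
  have hp : 1 - q ≤ 1 / (528 * 1024 * 390 * (4 * 448 ^ 2)) := by linarith
  norm_num at hp
  have h0 : 1 / 2 ≤ q := by linarith
  obtain ⟨hr, hr2, hpr⟩ := vis_pos h0 h1
  have hsmall : 10 * (1 - q) ^ 2 * (13 * (3 * (4 * 448 ^ 2 : ℝ)) / vis q)
      ≤ 1 / (528 * 1024) := by
    have g : (1 - q) / vis q ≤ 1 := by rw [div_le_one hr]; exact hpr
    calc 10 * (1 - q) ^ 2 * (13 * (3 * (4 * 448 ^ 2 : ℝ)) / vis q)
        = 390 * (4 * 448 ^ 2) * (1 - q) * ((1 - q) / vis q) := by ring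
      _ ≤ 390 * (4 * 448 ^ 2) * (1 - q) * 1 := mul_le_mul_of_nonneg_left g (by linarith)
      _ ≤ _ := by norm_num; linarith
  rw [eventually_atTop]
  refine ⟨⌈1 / vis q⌉₊, fun a ha => ?_⟩
  have ha' : 1 ≤ vis q * a := by
    have := (Nat.le_ceil (1 / vis q)).trans (Nat.cast_le.2 ha)
    rwa [div_le_iff₀ hr, mul_comm] at this
  set c := 4 * 448 ^ 2 * (2 * a + 2) with hc
  have hN : ((c + 2 : ℕ) : ℝ) ≤ 3 * (4 * 448 ^ 2) * (2 * (a : ℝ) + 1) := by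
    rw [hc]
    push_cast
    norm_num
    linarith [(Nat.cast_nonneg a : (0 : ℝ) ≤ a)]
  have d0 := nrm_replace_le h0 h1 ha' (T := c) (by norm_num) (by omega)
    (by omega) hN hsmall
  have d1 := nrm_replace_le h0 h1 ha' (T := c + 1) (by norm_num) (by omega)
    (by omega) hN hsmall
  have d2 := nrm_surrogate_le h0 h1 (c := c) (by linarith) le_rfl
  set X₁ := Xh q ^ a * Zh q * Xh q ^ (a + 1) with hX₁
  set K := Xh q ^ (2 * a + 1) * Wh q
  have e : law q (baseA a) = forget X₁ := by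
    rw [baseA, law_append, law_append, law_rep, law_rep, hX₁, map_mul, map_mul, map_pow, map_pow,
      forget_Xh h0 h1, forget_Zh]
  rw [Smooth, e, ← map_pow, ← map_pow, ← map_sub]
  refine (nrm_forget_le _).trans ?_
  have e2 : X₁ ^ (c + 1) - X₁ ^ c
      = ((X₁ ^ (c + 1) - K ^ (c + 1)) - (X₁ ^ c - K ^ c)) + K ^ c * (K - 1) := by
    rw [mul_sub, mul_one, ← pow_succ]
    abel
  rw [e2]
  refine (nrm_add_le _ _).trans ?_
  have := nrm_sub_le (X₁ ^ (c + 1) - K ^ (c + 1)) (X₁ ^ c - K ^ c)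
  linarith

end Vale.Agent.P321.Super
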