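import Vale.Agent.P321.Super.Defs
import Mathlib.Algebra.Order.BigOperators.Ring.Finset
import Mathlib.Analysis.Real.Sqrt
import Mathlib.Tactic.FieldSimp
import Mathlib.Tactic.Positivity

/-! Properties of the dual chi-square bound. -/

namespace Vale.Agent.P321.Super

open MonoidAlgebra Finset Poly

variable {M : Type*}

lemma pair_eq_sum {μ : MonoidAlgebra ℝ M} (φ : M → ℝ) {s : Finset M}
    (h : μ.coeff.support ⊆ s) : pair μ φ = ∑ a ∈ s, μ.coeff a * φ a :=
  Finsupp.sum_of_support_subset _ h _ fun _ _ => zero_mul _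

@[simp] lemma pair_zero (φ : M → ℝ) : pair (0 : MonoidAlgebra ℝ M) φ = 0 := by simp [pair]

lemma pair_add (μ ν : MonoidAlgebra ℝ M) (φ : M → ℝ) :
    pair (μ + ν) φ = pair μ φ + pair ν φ := by
  simp [pair, Finsupp.sum_add_index', add_mul]

lemma pair_sub (μ ν : MonoidAlgebra ℝ M) (φ : M → ℝ) :
    pair (μ - ν) φ = pair μ φ - pair ν φ := by
  have := pair_add (μ - ν) ν φ
  rw [sub_add_cancel] at this
  linarith

lemma pair_smul (r : ℝ) (μ : MonoidAlgebra ℝ M) (φ : M → ℝ) :
    pair (r • μ) φ = r * pair μ φ := by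
  classical
  rw [pair_eq_sum φ (s := μ.coeff.support) (by simpa using Finsupp.support_smul), pair,
    Finsupp.sum, mul_sum]
  simp [mul_assoc]

lemma pair_sum {ι : Type*} (s : Finset ι) (f : ι → MonoidAlgebra ℝ M) (φ : M → ℝ) :
    pair (∑ i ∈ s, f i) φ = ∑ i ∈ s, pair (f i) φ := by
  classical
  induction s using Finset.induction_on with
  | empty => simp
  | insert a s ha ih => rw [sum_insert ha, sum_insert ha, pair_add, ih]

lemma pair_single (a : M) (v : ℝ) (φ : M → ℝ) : pair (single a v) φ = v * φ a := by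
  simp [pair, Finsupp.sum_single_index]

lemma mass_eq_pair (μ : MonoidAlgebra ℝ M) : mass μ = pair μ fun _ => 1 := by
  simp [mass, pair]

lemma pair_nonneg {P : MonoidAlgebra ℝ M} (hP : ∀ a, 0 ≤ P.coeff a) {φ : M → ℝ}
    (hφ : ∀ a, 0 ≤ φ a) : 0 ≤ pair P φ :=
  sum_nonneg fun a _ => mul_nonneg (hP a) (hφ a)

lemma abs_pair_le (μ : MonoidAlgebra ℝ M) {φ : M → ℝ} {b : ℝ} (hφ : ∀ a, |φ a| ≤ b) :
    |pair μ φ| ≤ nrm μ * b := by
  refine (abs_sum_le_sum_abs _ _).trans ?_
  rw [nrm, Finsupp.sum, sum_mul]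
  exact sum_le_sum fun a _ => by
    rw [abs_mul]; exact mul_le_mul_of_nonneg_left (hφ a) (abs_nonneg _)

lemma abs_mass_le (μ : MonoidAlgebra ℝ M) : |mass μ| ≤ nrm μ := by
  simpa [mass_eq_pair] using abs_pair_le μ (φ := fun _ => 1) (b := 1) fun _ => by simp

/-- The `ℓ¹` bound. -/
lemma Chi.nrm_le {μ P : MonoidAlgebra ℝ M} {h : ℝ} (hh : Chi μ P h) (hP : Prb P) (h0 : 0 ≤ h) :
    nrm μ ≤ Real.sqrt h := by
  have e : pair μ (fun a => if 0 ≤ μ.coeff a then 1 else -1) = nrm μ := by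
    refine sum_congr rfl fun a _ => ?_
    dsimp only
    split_ifs with ha
    · rw [mul_one, abs_of_nonneg ha]
    · rw [abs_of_neg (not_le.1 ha)]; ring
  have h2 := hh fun a => if 0 ≤ μ.coeff a then 1 else -1
  rw [e, show (fun a => (if 0 ≤ μ.coeff a then (1 : ℝ) else -1) ^ 2) = fun _ => 1 by
    funext a; split_ifs <;> norm_num, ← mass_eq_pair, hP.2, mul_one] at h2
  exact Real.le_sqrt_of_sq_le h2

lemma Chi.mono {μ P : MonoidAlgebra ℝ M} {h h' : ℝ} (hh : Chi μ P h) (hP : Prb P)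
    (hle : h ≤ h') : Chi μ P h' := fun φ =>
  (hh φ).trans (mul_le_mul_of_nonneg_right hle (pair_nonneg hP.1 fun _ => sq_nonneg _))

lemma Chi.eq_zero {μ P : MonoidAlgebra ℝ M} {h : ℝ} (hh : Chi μ P h) {a : M}
    (ha : P.coeff a = 0) : μ.coeff a = 0 := by
  classical
  have h2 := hh fun b => if b = a then 1 else 0
  have e : ∀ ν : MonoidAlgebra ℝ M, pair ν (fun b => if b = a then 1 else 0) = ν.coeff a := by
    intro ν
    simp [pair, Finsupp.sum, eq_comm]
  rw [show (fun b => (if b = a then (1 : ℝ) else 0) ^ 2) = fun b => if b = a then 1 else 0 by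
    funext b; split_ifs <;> norm_num, e, e, ha, mul_zero] at h2
  exact pow_eq_zero_iff two_ne_zero |>.1 (le_antisymm h2 (sq_nonneg _))

lemma Chi.self {P : MonoidAlgebra ℝ M} (hP : Prb P) : Chi P P 1 := by
  intro φ
  rw [one_mul]
  have h0 := hP.2
  simp only [mass, Finsupp.sum] at h0
  simp only [pair, Finsupp.sum]
  have := sum_sq_le_sum_mul_sum_of_sq_le_mul P.coeff.support (r := fun a => P.coeff a * φ a)
    (f := fun a => P.coeff a) (g := fun a => P.coeff a * φ a ^ 2) (fun a _ => hP.1 a)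
    (fun a _ => mul_nonneg (hP.1 a) (sq_nonneg _)) (fun a _ => le_of_eq (by ring))
  rw [h0, one_mul] at this
  exact this

/-- Centring keeps the bound. -/
lemma Chi.centre {μ P : MonoidAlgebra ℝ M} {h : ℝ} (hh : Chi μ P h) (hP : Prb P) (h0 : 0 ≤ h) :
    Chi (μ - mass μ • P) P h := by
  intro φ
  set c := pair P φ
  have hP1 : pair P (fun _ => 1) = 1 := by rw [← mass_eq_pair]; exact hP.2
  have e1 : pair (μ - mass μ • P) φ = pair μ (fun a => φ a - c) := by
    rw [pair_sub, pair_smul]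
    simp [pair, mass, Finsupp.sum, mul_sub, sum_mul, c]
  have e2 : pair P (fun a => (φ a - c) ^ 2) = pair P (fun a => φ a ^ 2) - c ^ 2 := by
    simp only [pair, Finsupp.sum, c] at hP1 ⊢
    simp only [mul_one] at hP1
    simp_rw [sub_sq, mul_add, mul_sub, sum_add_distrib, sum_sub_distrib, ← sum_mul, hP1,
      ← mul_assoc, mul_comm (P.coeff _) 2, mul_assoc, ← mul_sum, ← mul_assoc, ← sum_mul]
    ring
  rw [e1]
  refine (hh _).trans ?_
  rw [e2]
  exact mul_le_mul_of_nonneg_left (sub_le_self _ (sq_nonneg c)) h0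

variable [Monoid M]

lemma pair_mul (μ ν : MonoidAlgebra ℝ M) (φ : M → ℝ) :
    pair (μ * ν) φ = pair ν (fun b => pair μ fun a => φ (a * b)) := by
  rw [mul_eq_sum, pair_sum, sum_congr rfl fun a _ => pair_sum _ _ φ]
  simp only [pair_single]
  rw [sum_comm]
  simp only [pair, Finsupp.sum, mul_sum]
  exact sum_congr rfl fun b _ => sum_congr rfl fun a _ => by ring

/-- The bound is multiplicative. -/
lemma Chi.mul {μ ν P R : MonoidAlgebra ℝ M} {h k : ℝ} (hμ : Chi μ P h) (hν : Chi ν R k)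
    (hR : ∀ a, 0 ≤ R.coeff a) (hk : 0 ≤ k) : Chi (μ * ν) (P * R) (h * k) := by
  intro φ
  rw [pair_mul, pair_mul]
  refine (hν _).trans ?_
  calc k * pair R (fun b => (pair μ fun a => φ (a * b)) ^ 2)
      ≤ k * pair R (fun b => h * pair P fun a => φ (a * b) ^ 2) := by
        refine mul_le_mul_of_nonneg_left (sum_le_sum fun b _ => ?_) hk
        exact mul_le_mul_of_nonneg_left (hμ _) (hR b)
    _ = h * k * pair R (fun b => pair P fun a => φ (a * b) ^ 2) := by
        simp only [pair, Finsupp.sum, mul_sum]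
        exact sum_congr rfl fun b _ => sum_congr rfl fun a _ => by ring

end Vale.Agent.P321.Super
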