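import Vale.Agent.P321.Super.Chi
import Mathlib.Algebra.MonoidAlgebra.Basic
import Mathlib.Algebra.Order.Chebyshev

/-! Orthogonal expansions over a product reference. -/

namespace Vale.Agent.P321.Super

open MonoidAlgebra Finset Poly

variable {M : Type*} [Monoid M]

@[simp] lemma ev_single (X G : MonoidAlgebra ℝ M) (w : FreeMonoid Bool) (v : ℝ) :
    ev X G (single w v) = v • (FreeMonoid.lift (fun b => cond b G X) w) := by
  simp [ev, lift_single]

@[simp] lemma ev_cx (X G : MonoidAlgebra ℝ M) : ev X G cx = X := by simp [cx]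

@[simp] lemma ev_ce (X G : MonoidAlgebra ℝ M) : ev X G ce = G := by simp [ce]

/-- The cofactor of a first letter. -/
noncomputable def tl (b : Bool) (c : Cf) : Cf :=
  c.coeff.sum fun w v =>
    match FreeMonoid.toList w with
    | [] => 0
    | a :: u => if a = b then single (FreeMonoid.ofList u) v else 0

lemma coeff_tl (b : Bool) (c : Cf) (u : FreeMonoid Bool) :
    (tl b c).coeff u = c.coeff (FreeMonoid.of b * u) := by
  classical
  rw [tl, Finsupp.sum, coeff_sum, Finsupp.finsetSum_apply,
    sum_eq_single (FreeMonoid.of b * u)]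
  · simp
  · intro w _ hw
    rcases hl : FreeMonoid.toList w with _ | ⟨a, v⟩
    · simp
    · by_cases hab : a = b
      · subst hab
        simp only [if_true, coeff_single]
        rw [Finsupp.single_eq_of_ne]
        intro h
        apply hw
        apply FreeMonoid.toList.injective
        rw [hl, h]
        simp
      · simp [hab]
  · intro h
    simp [Finsupp.notMem_support_iff.1 h]

lemma hom_tl {n : ℕ} {c : Cf} (hc : Hom (n + 1) c) (b : Bool) : Hom n (tl b c) := by
  intro u hu
  rw [Finsupp.mem_support_iff, coeff_tl, ← Finsupp.mem_support_iff] at hu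
  simpa using hc _ hu

lemma eq_single_of_hom_zero {c : Cf} (hc : Hom 0 c) : c = single 1 (c.coeff 1) := by
  classical
  ext w
  rw [coeff_single, Finsupp.single_apply]
  split_ifs with h
  · rw [← h]
  · by_contra hw
    exact h (FreeMonoid.toList.injective
      (List.eq_nil_of_length_eq_zero (hc w (Finsupp.mem_support_iff.2 hw)))).symm

lemma eq_cx_ce {n : ℕ} {c : Cf} (hc : Hom (n + 1) c) :
    c = cx * tl false c + ce * tl true c := by
  classical
  ext w
  rw [coeff_add, Finsupp.add_apply]
  rcases hl : FreeMonoid.toList w with _ | ⟨a, u⟩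
  · have hw : c.coeff w = 0 := by
      by_contra h
      have := hc w (Finsupp.mem_support_iff.2 h)
      simp [hl] at this
    rw [hw, cx, ce, coeff_single_mul_of_forall_mul_ne, coeff_single_mul_of_forall_mul_ne, add_zero]
    all_goals
      intro d hd
      rw [← hd] at hl
      simp at hl
  · obtain rfl : w = FreeMonoid.of a * FreeMonoid.ofList u :=
      FreeMonoid.toList.injective (by simp [hl])
    have key : ∀ b : Bool, (single (FreeMonoid.of b) (1 : ℝ) * tl b c).coeff
        (FreeMonoid.of a * FreeMonoid.ofList u)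
        = if b = a then c.coeff (FreeMonoid.of a * FreeMonoid.ofList u) else 0 := by
      intro b
      split_ifs with hba
      · subst hba
        rw [coeff_single_mul_eq_mul_coeff (FreeMonoid.ofList u), one_mul, coeff_tl]
        intro d _
        constructor
        · intro hd
          have := congrArg FreeMonoid.toList hd
          simp only [FreeMonoid.toList_mul, FreeMonoid.toList_of, List.singleton_append,
            List.cons.injEq, true_and] at this
          exact FreeMonoid.toList.injective this
        · rintro rfl; rfl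
      · rw [coeff_single_mul_of_forall_mul_ne]
        intro d hd
        have := congrArg FreeMonoid.toList hd
        simp only [FreeMonoid.toList_mul, FreeMonoid.toList_of, List.singleton_append,
          List.cons.injEq] at this
        exact hba this.1
    rw [cx, ce, key, key]
    cases a <;> simp

lemma tl_add (b : Bool) (c d : Cf) : tl b (c + d) = tl b c + tl b d := by
  ext u; simp [coeff_tl]

lemma tl_smul (b : Bool) (r : ℝ) (c : Cf) : tl b (r • c) = r • tl b c := by
  ext u; simp [coeff_tl]

lemma hom_add {n : ℕ} {c d : Cf} (hc : Hom n c) (hd : Hom n d) : Hom n (c + d) := by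
  classical
  intro w hw
  rw [coeff_add] at hw
  rcases mem_union.1 (Finsupp.support_add hw) with h | h
  · exact hc w h
  · exact hd w h

lemma hom_smul {n : ℕ} {c : Cf} (hc : Hom n c) (r : ℝ) : Hom n (r • c) := by
  intro w hw
  rw [coeff_smul] at hw
  exact hc w (Finsupp.support_smul hw)

lemma hom_zero (n : ℕ) : Hom n 0 := by intro w hw; simp at hw

lemma hom_sub {n : ℕ} {c d : Cf} (hc : Hom n c) (hd : Hom n d) : Hom n (c - d) := by
  rw [sub_eq_add_neg, show -d = (-1 : ℝ) • d by simp]
  exact hom_add hc (hom_smul hd _)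

lemma hom_sum {ι : Type*} {n : ℕ} (s : Finset ι) (f : ι → Cf) (h : ∀ i ∈ s, Hom n (f i)) :
    Hom n (∑ i ∈ s, f i) := by
  classical
  induction s using Finset.induction_on with
  | empty => rw [sum_empty]; exact hom_zero n
  | insert a s ha ih =>
    rw [sum_insert ha]
    exact hom_add (h a (mem_insert_self _ _)) (ih fun i hi => h i (mem_insert_of_mem hi))

lemma hom_single (w : FreeMonoid Bool) (v : ℝ) :
    Hom (FreeMonoid.toList w).length (single w v) := by
  classical
  intro u hu
  rw [coeff_single] at hu
  rw [mem_singleton.1 (Finsupp.support_single_subset hu)]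

lemma hom_cx : Hom 1 cx := hom_single _ _

lemma hom_ce : Hom 1 ce := hom_single _ _

lemma hom_one : Hom 0 (1 : Cf) := hom_single _ _

lemma hom_mul {m n : ℕ} {c d : Cf} (hc : Hom m c) (hd : Hom n d) : Hom (m + n) (c * d) := by
  rw [mul_eq_sum]
  refine hom_sum _ _ fun a ha => hom_sum _ _ fun b hb => ?_
  have := hom_single (a * b) (c.coeff a * d.coeff b)
  rwa [FreeMonoid.toList_mul, List.length_append, hc a ha, hd b hb] at this

lemma hom_pow {m : ℕ} {c : Cf} (hc : Hom m c) : ∀ k, Hom (k * m) (c ^ k)
  | 0 => by rw [zero_mul, pow_zero]; exact hom_one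
  | k + 1 => by rw [add_mul, one_mul, pow_succ]; exact hom_mul (hom_pow hc k) hc

lemma qf_eq_sum {h : ℝ} {c : Cf} {s : Finset (FreeMonoid Bool)} (hs : c.coeff.support ⊆ s) :
    qf h c = ∑ w ∈ s, c.coeff w ^ 2 * h ^ (FreeMonoid.toList w).count true :=
  Finsupp.sum_of_support_subset _ hs _ fun _ _ => by simp

lemma qf_nonneg {h : ℝ} (h0 : 0 ≤ h) (c : Cf) : 0 ≤ qf h c :=
  sum_nonneg fun w _ => mul_nonneg (sq_nonneg _) (pow_nonneg h0 _)

@[simp] lemma qf_zero (h : ℝ) : qf h 0 = 0 := by simp [qf]

lemma qf_smul (h r : ℝ) (c : Cf) : qf h (r • c) = r ^ 2 * qf h c := by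
  classical
  rw [qf_eq_sum (s := c.coeff.support) (by simpa using Finsupp.support_smul), qf, Finsupp.sum,
    mul_sum]
  exact sum_congr rfl fun w _ => by simp; ring

lemma qf_single (h : ℝ) (w : FreeMonoid Bool) (v : ℝ) :
    qf h (single w v) = v ^ 2 * h ^ (FreeMonoid.toList w).count true := by
  simp [qf, Finsupp.sum_single_index]

lemma qf_sum_le {ι : Type*} {h : ℝ} (h0 : 0 ≤ h) (s : Finset ι) (f : ι → Cf) :
    qf h (∑ i ∈ s, f i) ≤ s.card * ∑ i ∈ s, qf h (f i) := by
  classical
  set U := s.biUnion (fun i => (f i).coeff.support) ∪ (∑ i ∈ s, f i).coeff.support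
  rw [qf_eq_sum (s := U) subset_union_right]
  simp_rw [coeff_sum, Finsupp.finsetSum_apply]
  calc ∑ w ∈ U, (∑ i ∈ s, (f i).coeff w) ^ 2 * h ^ (FreeMonoid.toList w).count true
      ≤ ∑ w ∈ U, (s.card * ∑ i ∈ s, (f i).coeff w ^ 2) * h ^ (FreeMonoid.toList w).count true :=
        sum_le_sum fun w _ => mul_le_mul_of_nonneg_right sq_sum_le_card_mul_sum_sq
          (pow_nonneg h0 _)
    _ = s.card * ∑ i ∈ s, qf h (f i) := by
        simp_rw [mul_assoc, ← mul_sum, sum_mul]
        rw [sum_comm]
        congr 1
        refine sum_congr rfl fun i hi => (qf_eq_sum ?_).symm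
        exact subset_trans (subset_biUnion_of_mem (fun i => (f i).coeff.support) hi)
          subset_union_left

lemma qf_add_le {h : ℝ} (h0 : 0 ≤ h) (c d : Cf) : qf h (c + d) ≤ 2 * (qf h c + qf h d) := by
  simpa using qf_sum_le h0 (univ : Finset Bool) (fun b => cond b c d)

lemma qf_neg (h : ℝ) (c : Cf) : qf h (-c) = qf h c := by
  rw [show -c = (-1 : ℝ) • c by simp, qf_smul]; simp

lemma qf_sub_le {h : ℝ} (h0 : 0 ≤ h) (c d : Cf) : qf h (c - d) ≤ 2 * (qf h c + qf h d) := by
  rw [sub_eq_add_neg, ← qf_neg h d]; exact qf_add_le h0 c (-d)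

/-- The form is multiplicative. -/
lemma qf_mul (h : ℝ) {m n : ℕ} {c d : Cf} (hc : Hom m c) (hd : Hom n d) :
    qf h (c * d) = qf h c * qf h d := by
  classical
  set s := (c.coeff.support ×ˢ d.coeff.support).image fun p => p.1 * p.2
  have inj : Set.InjOn (fun p : FreeMonoid Bool × FreeMonoid Bool => p.1 * p.2)
      ↑(c.coeff.support ×ˢ d.coeff.support) := by
    intro p hp r hr e
    simp only [coe_product, Set.mem_prod, mem_coe] at hp hr
    have := congrArg FreeMonoid.toList e
    simp only [FreeMonoid.toList_mul] at this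
    obtain ⟨e1, e2⟩ := List.append_inj this (by rw [hc _ hp.1, hc _ hr.1])
    exact Prod.ext (FreeMonoid.toList.injective e1) (FreeMonoid.toList.injective e2)
  have hcoef : ∀ p ∈ c.coeff.support ×ˢ d.coeff.support,
      (c * d).coeff (p.1 * p.2) = c.coeff p.1 * d.coeff p.2 := by
    intro p hp
    rw [mul_eq_sum, ← sum_product', coeff_sum, Finsupp.finsetSum_apply, sum_eq_single p]
    · simp
    · intro r hr hne
      rw [coeff_single, Finsupp.single_eq_of_ne]
      exact fun e => hne (inj hr hp e.symm)
    · intro h; exact absurd hp h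
  have hsupp : (c * d).coeff.support ⊆ s := by
    intro w hw
    by_contra hn
    rw [Finsupp.mem_support_iff, mul_eq_sum, ← sum_product', coeff_sum, Finsupp.finsetSum_apply]
      at hw
    refine hw (sum_eq_zero fun p hp => ?_)
    rw [coeff_single, Finsupp.single_eq_of_ne]
    intro e
    exact hn (mem_image.2 ⟨p, hp, e.symm⟩)
  rw [qf_eq_sum hsupp, sum_image inj, qf, qf, Finsupp.sum, Finsupp.sum, sum_mul_sum,
    ← sum_product']
  refine sum_congr rfl fun p hp => ?_
  rw [hcoef p hp, FreeMonoid.toList_mul, List.count_append, pow_add]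
  ring

lemma qf_cx (h : ℝ) : qf h cx = 1 := by simp [cx, qf_single]

lemma qf_ce (h : ℝ) : qf h ce = h := by simp [ce, qf_single]

lemma qf_cx_pow (h : ℝ) : ∀ n, qf h (cx ^ n) = 1
  | 0 => by simp [one_def, qf_single]
  | n + 1 => by rw [pow_succ, qf_mul h (hom_pow hom_cx n) hom_cx, qf_cx_pow h n, qf_cx, one_mul]

/-- The fundamental bound: evaluation turns the quadratic form into a chi-square bound relative
to the product reference. -/
theorem chi_ev {X G : MonoidAlgebra ℝ M} {h : ℝ} (hX : Prb X) (hG : Chi G X h)
    (hG0 : mass G = 0) (h0 : 0 ≤ h) :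
    ∀ (n : ℕ) (c : Cf), Hom n c → Chi (ev X G c) (X ^ n) (qf h c) := by
  classical
  intro n
  induction n with
  | zero =>
    intro c hc φ
    rw [eq_single_of_hom_zero hc]
    generalize c.coeff 1 = v
    simp [pair_smul, qf_single, one_def, pair_single, mul_pow]
  | succ n ih =>
    intro c hc φ
    set f : M → ℝ := fun a => G.coeff a / X.coeff a with hf
    have hfG : ∀ a, G.coeff a = X.coeff a * f a := fun a => by
      by_cases ha : X.coeff a = 0
      · rw [hG.eq_zero ha, ha, zero_mul]
      · rw [hf]; field_simp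
    set c0 := tl false c
    set c1 := tl true c
    set S := X.coeff.support
    have hsub : G.coeff.support ⊆ S := fun a ha => Finsupp.mem_support_iff.2
      fun h' => Finsupp.mem_support_iff.1 ha (hG.eq_zero h')
    have hsum : ∑ a ∈ S, X.coeff a * f a = 0 := by
      rw [← sum_congr rfl fun a _ => hfG a, ← hG0, mass_eq_pair, pair_eq_sum _ hsub]
      simp
    have hX1 : ∑ a ∈ S, X.coeff a = 1 := hX.2
    have hff : ∑ a ∈ S, X.coeff a * f a ^ 2 ≤ h := by
      have h2 := hG f
      rw [pair_eq_sum _ hsub, pair_eq_sum _ (le_refl S)] at h2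
      have e : ∑ a ∈ S, G.coeff a * f a = ∑ a ∈ S, X.coeff a * f a ^ 2 :=
        sum_congr rfl fun a _ => by rw [hfG]; ring
      rw [e] at h2
      have hp : 0 ≤ ∑ a ∈ S, X.coeff a * f a ^ 2 :=
        sum_nonneg fun a _ => mul_nonneg (hX.1 a) (sq_nonneg _)
      by_contra hlt
      rw [not_le] at hlt
      nlinarith
    -- split off the first letter
    have e1 : pair (ev X G c) φ
        = ∑ a ∈ S, X.coeff a * pair (ev X G (c0 + f a • c1)) (fun b => φ (a * b)) := by
      conv_lhs => rw [eq_cx_ce hc]
      rw [map_add, map_mul, map_mul, ev_cx, ev_ce, pair_add, pair_mul, pair_mul]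
      have key : ∀ (Z : MonoidAlgebra ℝ M), Z.coeff.support ⊆ S → ∀ ν : MonoidAlgebra ℝ M,
          pair ν (fun b => pair Z fun a => φ (a * b))
            = ∑ a ∈ S, Z.coeff a * pair ν (fun b => φ (a * b)) := by
        intro Z hZ ν
        have hb : ∀ b, pair Z (fun a => φ (a * b)) = ∑ a ∈ S, Z.coeff a * φ (a * b) :=
          fun b => pair_eq_sum _ hZ
        rw [funext hb]
        simp only [pair, Finsupp.sum, mul_sum]
        rw [sum_comm]
        exact sum_congr rfl fun a _ => sum_congr rfl fun b _ => by ring
      rw [key X (le_refl S), key G hsub, ← sum_add_distrib]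
      refine sum_congr rfl fun a _ => ?_
      rw [map_add, map_smul, pair_add, pair_smul, hfG]
      ring
    have e2 : pair (X ^ (n + 1)) (fun b => φ b ^ 2)
        = ∑ a ∈ S, X.coeff a * pair (X ^ n) (fun b => φ (a * b) ^ 2) := by
      rw [pow_succ', pair_mul]
      simp only [pair, Finsupp.sum, mul_sum]
      rw [sum_comm]
      exact sum_congr rfl fun a _ => sum_congr rfl fun b _ => by ring
    have hq : ∑ a ∈ S, X.coeff a * qf h (c0 + f a • c1) ≤ qf h c := by
      set U := c0.coeff.support ∪ c1.coeff.support
      have hU : ∀ a, qf h (c0 + f a • c1) = ∑ w ∈ U,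
          (c0.coeff w + f a * c1.coeff w) ^ 2 * h ^ (FreeMonoid.toList w).count true := by
        intro a
        rw [qf_eq_sum (s := U)]
        · simp
        · rw [coeff_add, coeff_smul]
          exact Finsupp.support_add.trans (union_subset_union (le_refl _) Finsupp.support_smul)
      have hqc : qf h c = qf h c0 + h * qf h c1 := by
        set U' := U.image (fun w => FreeMonoid.of false * w)
        set U'' := U.image (fun w => FreeMonoid.of true * w)
        have hdis : Disjoint U' U'' := by
          simp only [U', U'', disjoint_left, mem_image]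
          rintro w ⟨u, _, rfl⟩ ⟨v, _, hv⟩
          simpa using congrArg FreeMonoid.toList hv
        rw [qf_eq_sum (h := h) (c := c) (s := U' ∪ U''), sum_union hdis,
          qf_eq_sum (h := h) (c := c0) (s := U) subset_union_left,
          qf_eq_sum (h := h) (c := c1) (s := U) subset_union_right, mul_sum,
          sum_image, sum_image]
        · congr 1
          · exact sum_congr rfl fun w _ => by simp [c0, coeff_tl]
          · exact sum_congr rfl fun w _ => by simp [c1, coeff_tl, pow_succ]; ring
        · exact fun u _ v _ e => mul_left_cancel e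
        · exact fun u _ v _ e => mul_left_cancel e
        · intro w hw
          rcases hl : FreeMonoid.toList w with _ | ⟨a, u⟩
          · simpa [hl] using hc w hw
          · obtain rfl : w = FreeMonoid.of a * FreeMonoid.ofList u :=
              FreeMonoid.toList.injective (by simp [hl])
            cases a
            · refine mem_union_left _ (mem_image.2 ⟨_, mem_union_left _ ?_, rfl⟩)
              rwa [Finsupp.mem_support_iff, coeff_tl, ← Finsupp.mem_support_iff]
            · refine mem_union_right _ (mem_image.2 ⟨_, mem_union_right _ ?_, rfl⟩)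
              rwa [Finsupp.mem_support_iff, coeff_tl, ← Finsupp.mem_support_iff]
      rw [hqc]
      have h0' : qf h c0
          = ∑ w ∈ U, c0.coeff w ^ 2 * h ^ (FreeMonoid.toList w).count true :=
        qf_eq_sum subset_union_left
      have h1' : qf h c1
          = ∑ w ∈ U, c1.coeff w ^ 2 * h ^ (FreeMonoid.toList w).count true :=
        qf_eq_sum subset_union_right
      have exp : ∑ a ∈ S, X.coeff a * qf h (c0 + f a • c1)
          = (∑ a ∈ S, X.coeff a) * qf h c0
            + 2 * (∑ a ∈ S, X.coeff a * f a)
              * (∑ w ∈ U, c0.coeff w * c1.coeff w * h ^ (FreeMonoid.toList w).count true)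
            + (∑ a ∈ S, X.coeff a * f a ^ 2) * qf h c1 := by
        rw [h0', h1']
        simp only [hU, sum_mul, mul_sum, ← sum_add_distrib]
        rw [sum_comm]
        exact sum_congr rfl fun a _ => sum_congr rfl fun w _ => by ring
      rw [exp, hX1, hsum]
      have := mul_le_mul_of_nonneg_right hff (qf_nonneg h0 c1)
      linarith
    rw [e1, e2]
    refine (sum_sq_le_sum_mul_sum_of_sq_le_mul S
      (f := fun a => X.coeff a * qf h (c0 + f a • c1))
      (g := fun a => X.coeff a * pair (X ^ n) (fun b => φ (a * b) ^ 2))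
      (fun a _ => mul_nonneg (hX.1 a) (qf_nonneg h0 _))
      (fun a _ => mul_nonneg (hX.1 a) (pair_nonneg (hX.pow n).1 fun _ => sq_nonneg _))
      (fun a _ => ?_)).trans ?_
    · rw [mul_pow, sq (X.coeff a)]
      calc X.coeff a * X.coeff a * pair (ev X G (c0 + f a • c1)) (fun b => φ (a * b)) ^ 2
          ≤ X.coeff a * X.coeff a
            * (qf h (c0 + f a • c1) * pair (X ^ n) (fun b => φ (a * b) ^ 2)) :=
            mul_le_mul_of_nonneg_left
              (ih _ (hom_add (hom_tl hc _) (hom_smul (hom_tl hc _) _)) _)
              (mul_self_nonneg _)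
        _ = _ := by ring
    · exact mul_le_mul_of_nonneg_right hq
        (sum_nonneg fun a _ => mul_nonneg (hX.1 a) (pair_nonneg (hX.pow n).1 fun _ => sq_nonneg _))

end Vale.Agent.P321.Super
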