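import Vale.Agent.P321.Super.CombSum
import Mathlib.Analysis.SpecificLimits.Basic

/-! A periodic comb of diluted defects is close to the pure power. -/

namespace Vale.Agent.P321.Super

open MonoidAlgebra Finset Filter Poly

section

variable {M : Type*} [Monoid M]

lemma one_add_pow_le {δ : ℝ} (hδ : 0 ≤ δ) :
    ∀ k : ℕ, (k : ℝ) * δ ≤ 1 / 2 → (1 + δ) ^ k ≤ 1 + 2 * k * δ
  | 0, _ => by simp
  | k + 1, h => by
    push_cast at h
    have ih := one_add_pow_le hδ k (by nlinarith)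
    rw [pow_succ]
    refine (mul_le_mul_of_nonneg_right ih (by linarith)).trans ?_
    push_cast
    nlinarith

lemma nrm_pow_le (Y : MonoidAlgebra ℝ M) : ∀ k : ℕ, nrm (Y ^ k) ≤ nrm Y ^ k
  | 0 => by rw [pow_zero, pow_zero]; exact Prb.one.nrm_eq.le
  | k + 1 => by
    rw [pow_succ, pow_succ]
    exact (nrm_mul_le _ _).trans
      (mul_le_mul_of_nonneg_right (nrm_pow_le Y k) (nrm_nonneg _))

lemma nrm_pow_le_two {Y : MonoidAlgebra ℝ M} {δ : ℝ} (hδ : 0 ≤ δ) (hY : nrm Y ≤ 1 + δ) {k : ℕ}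
    (hk : (k : ℝ) * δ ≤ 1 / 2) : nrm (Y ^ k) ≤ 2 :=
  ((nrm_pow_le Y k).trans (pow_le_pow_left₀ (nrm_nonneg _) hY k)).trans
    ((one_add_pow_le hδ k hk).trans (by linarith))

lemma nrm_pow_sub_le_two {X Y : MonoidAlgebra ℝ M} (hX : Prb X) {δ : ℝ}
    (hXY : nrm (X - Y) ≤ δ) : ∀ k : ℕ, (k : ℝ) * δ ≤ 1 / 2 → nrm (X ^ k - Y ^ k) ≤ 2 * k * δ
  | 0, _ => by simp
  | k + 1, hk => by
    have hδ : 0 ≤ δ := (nrm_nonneg _).trans hXY
    push_cast at hk
    have hk' : (k : ℝ) * δ ≤ 1 / 2 := by nlinarith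
    have hY : nrm Y ≤ 1 + δ := by
      rw [show Y = X - (X - Y) by rw [sub_sub_cancel]]
      exact (nrm_sub_le _ _).trans (add_le_add hX.nrm_eq.le hXY)
    have e : X ^ (k + 1) - Y ^ (k + 1) = X * (X ^ k - Y ^ k) + (X - Y) * Y ^ k := by
      rw [pow_succ', pow_succ', mul_sub, sub_mul]; abel
    rw [e]
    refine (nrm_add_le _ _).trans ((add_le_add ((nrm_prb_mul_le hX).trans
      (nrm_pow_sub_le_two hX hXY k hk')) ((nrm_mul_le _ _).trans
        (mul_le_mul hXY (nrm_pow_le_two hδ hY hk') (nrm_nonneg _) hδ))).trans_eq ?_)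
    push_cast; ring

lemma nrm_cR_le {A e : MonoidAlgebra ℝ M} {m : ℕ} {b β : ℝ} (hb : 0 ≤ b) (he : nrm e ≤ 1)
    {T : ℕ} (hY : ∀ j ≤ T, nrm ((A + e) ^ j) ≤ b) (hE : ∀ j ≤ T, nrm (cE A e m j) ≤ β)
    (hβ : 0 ≤ β) : ∀ T' ≤ T, ∀ j ≤ T - T', nrm ((A + e) ^ j * cR A e m T') ≤ T' * (b * β)
  | 0, _, j, _ => by simp [cR]
  | T' + 1, hT, j, hj => by
    rw [cR, mul_add, ← mul_assoc, ← pow_succ]
    refine (nrm_add_le _ _).trans ((add_le_add
      (nrm_cR_le hb he hY hE hβ T' (by omega) (j + 1) (by omega)) ?_).trans_eq (by push_cast; ring :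
        (T' : ℝ) * (b * β) + b * β = ((T' + 1 : ℕ) : ℝ) * (b * β)))
    refine (nrm_mul_le _ _).trans (mul_le_mul (hY j (by omega))
      ((nrm_mul_le _ _).trans ((mul_le_of_le_one_left (nrm_nonneg _) he).trans (hE T' (by omega))))
      (nrm_nonneg _) hb)

lemma qf_le_of_ne {h : ℝ} (h0 : 0 ≤ h) (h1 : h ≤ 1) {n : ℕ} {ω : Cf} (hω : Hom n ω)
    (hω0 : ω.coeff (FreeMonoid.ofList (List.replicate n false)) = 0) :
    qf h ω ≤ nrm ω ^ 2 * h := by
  calc qf h ω ≤ ∑ w ∈ ω.coeff.support, |ω.coeff w| ^ 2 * h := by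
        refine sum_le_sum fun w hw => ?_
        rw [sq_abs]
        exact mul_le_mul_of_nonneg_left (pow_le_of_le_one h0 h1
          (List.count_pos_iff.2 (mem_true_of_mem_support hω hω0 hw)).ne') (sq_nonneg _)
    _ ≤ _ := by
        rw [← sum_mul]
        exact mul_le_mul_of_nonneg_right (sum_sq_le_sq_sum_of_nonneg fun w _ => abs_nonneg _) h0

lemma sum_inv_le {t : ℕ} (ht : 1 ≤ t) : ∀ n : ℕ,
    ∑ g ∈ range n, 1 / ((t * Nat.sqrt (g + 1) : ℕ) : ℝ) ≤ 4 * Real.sqrt n / t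
  | 0 => by simp
  | n + 1 => by
    rw [sum_range_succ]
    refine (add_le_add (sum_inv_le ht n) le_rfl).trans ?_
    have ht0 : (0 : ℝ) < t := by exact_mod_cast ht
    set u := Nat.sqrt (n + 1)
    have hu : 1 ≤ u := Nat.sqrt_pos.2 (Nat.succ_pos n)
    have hu0 : (0 : ℝ) < u := by exact_mod_cast hu
    set x := Real.sqrt n
    set y := Real.sqrt ((n + 1 : ℕ) : ℝ)
    have hx : x ^ 2 = n := Real.sq_sqrt (Nat.cast_nonneg n)
    have hy : y ^ 2 = n + 1 := by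
      rw [Real.sq_sqrt (Nat.cast_nonneg _)]; push_cast; ring
    have hxy : x ≤ y := Real.sqrt_le_sqrt (by push_cast; linarith)
    have hx0 : 0 ≤ x := Real.sqrt_nonneg _
    have hyu : y ≤ 2 * u := by
      refine (Real.sqrt_le_left (by positivity)).2 ?_
      have h := Nat.lt_succ_sqrt (n + 1)
      have h' : n + 1 ≤ (2 * u) * (2 * u) := h.le.trans (Nat.mul_le_mul (by omega) (by omega))
      have h'' : ((n + 1 : ℕ) : ℝ) ≤ ((2 * u * (2 * u) : ℕ) : ℝ) := Nat.cast_le.2 h'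
      rw [sq]; push_cast at h'' ⊢; exact h''
    have key : 1 / (u : ℝ) ≤ 4 * (y - x) := by
      rw [div_le_iff₀ hu0]
      nlinarith [mul_le_mul_of_nonneg_left hyu (sub_nonneg.2 hxy),
        mul_le_mul_of_nonneg_left hxy (sub_nonneg.2 hxy)]
    push_cast
    rw [show 1 / ((t : ℝ) * u) = 1 / (u : ℝ) / t by field_simp, ← add_div,
      div_le_div_iff_of_pos_right ht0]
    have : y = Real.sqrt ((n : ℝ) + 1) := by simp [y]
    linarith

end

theorem comb (N w z : ℕ) (C : ℝ) (hz : w + 3 ≤ z) {ε : ℝ} (hε : 0 < ε) :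
    ∀ᶠ t : ℕ in atTop, ∀ (X X1 G : Tr) (ω : Cf), Prb X → Prb X1 → Smooth X (t ^ w) →
      mass G = 0 → Chi G X (1 / (t : ℝ) ^ z) → Hom N ω →
      ω.coeff (FreeMonoid.ofList (List.replicate N false)) = 0 → nrm ω ≤ C →
      nrm (X1 - (X ^ (2 * t ^ (w + 4) + N)
        + X ^ (t ^ (w + 4)) * ev X G ω * X ^ (t ^ (w + 4)))) ≤ 1 / (t : ℝ) ^ (2 * w + 7) →
      nrm (X1 ^ (t ^ (2 * w + 5)) - X ^ ((2 * t ^ (w + 4) + N) * t ^ (2 * w + 5))) ≤ ε := by
  set M0 := 4 * w + 12 with hM0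
  set R := (2 * w + 5) * (M0 + 1) + 1 with hR
  set K1 : ℝ := 4 ^ R * 2 ^ N * C ^ 2 * 4 with hK1
  set K3 : ℝ := 2 ^ M0 * (2 ^ (R + 2)) ^ M0 * (56 * (8 * (R + 1))) ^ R with hK3
  have hlim : Tendsto (fun t : ℕ => M0 * (Real.sqrt ((M0 + 1) * (K1 / t)) + K3 / t)
      + (2 + 2 * Real.sqrt (M0 + 1) * K1 ^ (2 * w + 6) + 2 * K3) / t) atTop (nhds 0) := by
    have h1 : ∀ c : ℝ, Tendsto (fun t : ℕ => c / t) atTop (nhds 0) :=
      tendsto_const_div_atTop_nhds_zero_nat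
    have h2 := ((((h1 ((M0 + 1) * K1)).sqrt).add (h1 K3)).const_mul (M0 : ℝ)).add
      (h1 (2 + 2 * Real.sqrt (M0 + 1) * K1 ^ (2 * w + 6) + 2 * K3))
    simp only [Real.sqrt_zero, add_zero, mul_zero] at h2
    exact h2.congr fun t => by rw [mul_div_assoc ((M0 : ℝ) + 1) K1]
  filter_upwards [hlim.eventually (Iic_mem_nhds hε),
    eventually_ge_atTop (2 + 2 * (2 * (M0 * R)) ^ 2 + 4 * (R + 1) + ⌈C ^ 2⌉₊ + ⌈K1⌉₊)]
    with t hbd ht
  intro X X1 G ω hX hX1 hsm hG0 hG hω hω0 hC hclose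
  set a := t ^ (w + 4) with ha
  set L := 2 * a + N with hL
  set T := t ^ (2 * w + 5) with hT
  have ht2 : 2 ≤ t := by omega
  have ht1 : 1 ≤ t := by omega
  have htR : (1 : ℝ) ≤ t := by exact_mod_cast ht1
  have hK1t : K1 ≤ t := (Nat.le_ceil _).trans (Nat.cast_le.2 (by omega))
  have hC2t : C ^ 2 ≤ t := (Nat.le_ceil _).trans (Nat.cast_le.2 (by omega))
  have hK10 : 0 ≤ K1 := by positivity
  have hK30 : 0 ≤ K3 := by positivity
  -- the scales
  set u := t / (4 * (R + 1)) with hu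
  have hu1 : 1 ≤ u := by
    rw [hu]; exact (Nat.one_le_div_iff (by omega)).2 (by omega)
  have hu2 : u * (4 * (R + 1)) ≤ t := Nat.div_mul_le_self _ _
  have hu3 : t ≤ u * (8 * (R + 1)) := by
    have h := Nat.lt_mul_div_succ t (show 0 < 4 * (R + 1) by omega)
    rw [← hu] at h
    refine h.le.trans ?_
    rw [show u * (8 * (R + 1)) = 4 * (R + 1) * (2 * u) by ring]
    exact Nat.mul_le_mul_left _ (by omega)
  set mg : ℕ → ℕ := fun g => t * Nat.sqrt (g + 1) with hmg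
  set lam : ℕ → ℕ := fun g => t * u * Nat.sqrt (g + 1) with hlam
  set sg : ℕ → ℕ := fun g => 4 * t ^ w * lam g ^ 2 with hsg
  set η : ℕ → ℝ := fun g => 28 / (lam g : ℝ) with hη
  have hsq : ∀ g : ℕ, 1 ≤ Nat.sqrt (g + 1) := fun g => Nat.sqrt_pos.2 (Nat.succ_pos g)
  have hm : ∀ g, 1 ≤ mg g := fun g => Nat.one_le_iff_ne_zero.2
    (Nat.mul_ne_zero (by omega) (by have := hsq g; omega))
  have hl : ∀ g, 1 ≤ lam g := fun g => Nat.one_le_iff_ne_zero.2
    (Nat.mul_ne_zero (Nat.mul_ne_zero (by omega) (by omega)) (by have := hsq g; omega))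
  have hηb : ∀ g, nrm (X ^ sg g * (X - 1)) ≤ η g := fun g =>
    Poly.smoothing hX (Nat.one_le_pow _ _ (by omega)) hsm (hl g) le_rfl
  set e : ℝ := 56 * (8 * (R + 1)) / t with he
  have heb : ∀ g, 2 * mg g * η g ≤ e := by
    intro g
    have h1 : (0 : ℝ) < Nat.sqrt (g + 1) := by exact_mod_cast hsq g
    have h2 : (0 : ℝ) < t := by linarith
    have h3 : (0 : ℝ) < u := by exact_mod_cast hu1
    have h4 : (t : ℝ) ≤ u * (8 * (R + 1)) := by exact_mod_cast hu3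
    rw [show 2 * (mg g : ℝ) * η g = 56 / u by
      simp only [mg, η, lam]; push_cast; field_simp; ring, he, div_le_div_iff₀ h3 h2]
    nlinarith
  have ha4 : 4 * R * t ≤ a := by
    calc 4 * R * t ≤ t * t := Nat.mul_le_mul_right t (by omega)
      _ = t ^ 2 := (sq t).symm
      _ ≤ a := Nat.pow_le_pow_right ht1 (by omega)
  have hfit : ∀ g, 2 * (R * sg g + R * mg g) ≤ (g + 1) * a := by
    intro g
    set v := Nat.sqrt (g + 1)
    have hv : v ^ 2 ≤ g + 1 := Nat.sqrt_le' _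
    have hv' : v ≤ g + 1 := Nat.sqrt_le_self _
    have h1 : 4 * (R * sg g) ≤ (g + 1) * a := by
      calc 4 * (R * sg g) = 16 * R * u ^ 2 * (t ^ (w + 2) * v ^ 2) := by
            simp only [sg, lam]; rw [pow_add]; ring
        _ ≤ (u * (4 * (R + 1))) ^ 2 * (t ^ (w + 2) * (g + 1)) := by
            refine Nat.mul_le_mul ?_ (Nat.mul_le_mul_left _ hv)
            rw [mul_pow, mul_comm (16 * R)]
            exact Nat.mul_le_mul_left _ (by nlinarith)
        _ ≤ t ^ 2 * (t ^ (w + 2) * (g + 1)) :=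
            Nat.mul_le_mul_right _ (Nat.pow_le_pow_left hu2 2)
        _ = (g + 1) * a := by rw [ha]; ring
    have h2 : 4 * (R * mg g) ≤ (g + 1) * a := by
      calc 4 * (R * mg g) = (4 * R * t) * v := by simp only [mg]; ring
        _ ≤ a * (g + 1) := Nat.mul_le_mul ha4 hv'
        _ = (g + 1) * a := mul_comm _ _
    omega
  set B := R * (t * Nat.sqrt (T + 1)) with hB
  have hRB : ∀ g ≤ T, R * mg g ≤ B := fun g hg =>
    Nat.mul_le_mul_left _ (Nat.mul_le_mul_left _ (Nat.sqrt_le_sqrt (Nat.succ_le_succ hg)))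
  have hBa : 2 * (M0 * B) ≤ a := by
    set v := Nat.sqrt (T + 1)
    have hv : (2 * (M0 * R) * v) ^ 2 ≤ (t ^ (w + 3)) ^ 2 := by
      calc (2 * (M0 * R) * v) ^ 2 = (2 * (M0 * R)) ^ 2 * v ^ 2 := mul_pow _ _ _
        _ ≤ (2 * (M0 * R)) ^ 2 * (T + 1) := Nat.mul_le_mul_left _ (Nat.sqrt_le' _)
        _ ≤ (2 * (M0 * R)) ^ 2 * (2 * T) := by
            have : 1 ≤ T := Nat.one_le_pow _ _ (by omega)
            exact Nat.mul_le_mul_left _ (by omega)
        _ = 2 * (2 * (M0 * R)) ^ 2 * T := by ring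
        _ ≤ t * T := Nat.mul_le_mul_right _ (by omega)
        _ = (t ^ (w + 3)) ^ 2 := by rw [hT, ← pow_mul, ← pow_succ']; congr 1; omega
    calc 2 * (M0 * B) = t * (2 * (M0 * R) * v) := by rw [hB]; ring
      _ ≤ t * t ^ (w + 3) := Nat.mul_le_mul_left _ ((Nat.pow_le_pow_iff_left (by norm_num)).1 hv)
      _ = a := by rw [ha, ← pow_succ']
  set h : ℝ := 1 / (t : ℝ) ^ z with hh
  have h0 : 0 ≤ h := by positivity
  have ht0 : (0 : ℝ) < t := by linarith
  have hh1 : h ≤ 1 / t :=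
    one_div_le_one_div_of_le ht0 (le_self_pow₀ htR (by omega))
  have hh1' : h ≤ 1 := hh1.trans ((div_le_one ht0).2 htR)
  have hqω : qf h ω ≤ C ^ 2 * h :=
    (qf_le_of_ne h0 hh1' hω hω0).trans
      (mul_le_mul_of_nonneg_right (pow_le_pow_left₀ (nrm_nonneg _) hC 2) h0)
  set Ω := ev X G ω
  have hΩ : nrm Ω ≤ 1 := by
    refine ((chi_ev hX hG hG0 h0 N ω hω).nrm_le (hX.pow N) (qf_nonneg h0 _)).trans ?_
    rw [Real.sqrt_le_one]
    calc qf h ω ≤ C ^ 2 * h := hqω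
      _ ≤ t * (1 / t) := mul_le_mul hC2t hh1 h0 (by linarith)
      _ = 1 := mul_one_div_cancel ht0.ne'
  set e1 := X ^ a * Ω * X ^ a with he1
  set A := X ^ L with hA
  have he1n : nrm e1 ≤ 1 :=
    ((nrm_mul_prb_le (hX.pow _)).trans (nrm_prb_mul_le (hX.pow _))).trans hΩ
  -- the terms
  have hterm : ∀ k, 1 ≤ k → k ≤ M0 → ∀ T' ≤ T,
      nrm (cE A e1 k T') ≤ Real.sqrt ((M0 + 1) * (K1 / t) ^ k)
        + 2 ^ M0 * (T : ℝ) ^ M0 * ((2 ^ (R + 2)) ^ M0 * e ^ R) := by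
    intro k hk hk' T' hT'
    have hkB : 2 * (k * B) ≤ a :=
      le_trans (Nat.mul_le_mul_left 2 (Nat.mul_le_mul_right B hk')) hBa
    have hs : ∑ g ∈ range (T' + 1), 1 / (mg g : ℝ) ≤ 4 * (t : ℝ) ^ (w + 3) / t := by
      refine (sum_inv_le ht1 (T' + 1)).trans (div_le_div_of_nonneg_right ?_ ht0.le)
      refine mul_le_mul_of_nonneg_left ((Real.sqrt_le_left (by positivity)).2 ?_) (by norm_num)
      have h1 : T' + 1 ≤ t ^ (2 * w + 6) := by
        calc T' + 1 ≤ 2 * T := by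
              have : 1 ≤ T := Nat.one_le_pow _ _ (by omega)
              omega
          _ ≤ t * T := Nat.mul_le_mul_right _ ht2
          _ = t ^ (2 * w + 6) := by rw [hT, ← pow_succ']
      rw [← pow_mul, show (w + 3) * 2 = 2 * w + 6 by ring]
      exact_mod_cast h1
    refine (cE_bound (B := B) (R := R) (e := e) hX hG hG0 h0 hω hω0 hΩ hm hηb heb hL
      (fun g hg => hRB g (hg.trans hT')) hfit hk hkB hs).trans (add_le_add ?_ ?_)
    · refine Real.sqrt_le_sqrt (mul_le_mul (by exact_mod_cast Nat.succ_le_succ hk')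
        (pow_le_pow_left₀ ?_ ?_ k) ?_ (by positivity))
      · exact mul_nonneg (mul_nonneg (by positivity) (qf_nonneg h0 _)) (by positivity)
      · have hp : h * (t : ℝ) ^ (w + 3) ≤ 1 := by
          rw [hh, one_div_mul_eq_div, div_le_one (by positivity)]
          exact pow_le_pow_right₀ htR hz
        calc 4 ^ R * 2 ^ N * qf h ω * (4 * (t : ℝ) ^ (w + 3) / t)
            ≤ 4 ^ R * 2 ^ N * (C ^ 2 * h) * (4 * (t : ℝ) ^ (w + 3) / t) := by gcongr
          _ = K1 * (h * (t : ℝ) ^ (w + 3)) / t := by rw [hK1]; ring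
          _ ≤ K1 / t := by
              exact div_le_div_of_nonneg_right (mul_le_of_le_one_right hK10 hp) ht0.le
      · exact pow_nonneg (mul_nonneg (mul_nonneg (by positivity) (qf_nonneg h0 _))
          (by positivity)) _
    · have h1 : (((T' + 1 : ℕ) : ℝ)) ^ k ≤ 2 ^ M0 * (T : ℝ) ^ M0 := by
        rw [← mul_pow]
        have hT1 : (1 : ℝ) ≤ T := by exact_mod_cast Nat.one_le_pow _ _ (by omega : 0 < t)
        have h2 : ((T' + 1 : ℕ) : ℝ) ≤ 2 * T := by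
          push_cast
          have : (T' : ℝ) ≤ T := Nat.cast_le.2 hT'
          linarith
        exact (pow_le_pow_left₀ (Nat.cast_nonneg _) h2 k).trans
          (pow_le_pow_right₀ (by linarith) hk')
      exact mul_le_mul h1 (mul_le_mul_of_nonneg_right
        (pow_le_pow_right₀ (one_le_pow₀ (by norm_num)) hk') (by positivity)) (by positivity)
        (by positivity)
  -- the error of the extrapolations
  have htail : (T : ℝ) * (2 ^ M0 * (T : ℝ) ^ M0 * ((2 ^ (R + 2)) ^ M0 * e ^ R)) ≤ K3 / t := by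
    have hTt : (T : ℝ) = (t : ℝ) ^ (2 * w + 5) := by simp [T]
    rw [hK3, he, div_pow, hTt, hR, pow_succ (t : ℝ) ((2 * w + 5) * (M0 + 1)), pow_mul (t : ℝ)]
    rw [pow_succ ((t : ℝ) ^ (2 * w + 5)) M0, ← hR]
    apply le_of_eq
    field_simp
  -- the remainder
  set δ := 1 / (t : ℝ) ^ (2 * w + 7) with hδ
  have hTδ : (T : ℝ) * δ = 1 / (t : ℝ) ^ 2 := by
    rw [hδ, hT, show 2 * w + 7 = (2 * w + 5) + 2 by ring]
    push_cast
    field_simp
    ring
  have hTδ1 : (T : ℝ) * δ ≤ 1 / t := by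
    rw [hTδ]
    exact one_div_le_one_div_of_le ht0 (le_self_pow₀ htR (by norm_num))
  have hTδ2 : (T : ℝ) * δ ≤ 1 / 2 :=
    hTδ1.trans (one_div_le_one_div_of_le (by norm_num) (by exact_mod_cast ht2))
  have hY : nrm (A + e1) ≤ 1 + δ := by
    rw [show A + e1 = X1 - (X1 - (A + e1)) by rw [sub_sub_cancel]]
    exact (nrm_sub_le _ _).trans (add_le_add hX1.nrm_eq.le hclose)
  have hYj : ∀ j ≤ T, nrm ((A + e1) ^ j) ≤ 2 := fun j hj =>
    nrm_pow_le_two (by positivity) hY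
      (le_trans (mul_le_mul_of_nonneg_right (Nat.cast_le.2 hj) (by positivity)) hTδ2)
  set E := 2 ^ M0 * (T : ℝ) ^ M0 * ((2 ^ (R + 2)) ^ M0 * e ^ R) with hE
  set β := Real.sqrt ((M0 + 1) * (K1 / t) ^ M0) + E with hβ
  have hR' := nrm_cR_le (m := M0) (b := 2) (β := β) (by norm_num) he1n hYj
    (fun j hj => hterm M0 (by omega) le_rfl j hj) (by positivity) T le_rfl 0 (Nat.zero_le _)
  rw [pow_zero, one_mul] at hR'
  have hT1 : (1 : ℝ) ≤ T := by exact_mod_cast Nat.one_le_pow _ _ (by omega : 0 < t)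
  have hE0 : 0 ≤ E := by positivity
  have hTsq : (T : ℝ) * Real.sqrt ((M0 + 1) * (K1 / t) ^ M0)
      ≤ Real.sqrt (M0 + 1) * K1 ^ (2 * w + 6) / t := by
    have hq : 0 ≤ K1 / t := div_nonneg hK10 ht0.le
    rw [Real.sqrt_mul (by positivity), show M0 = (2 * w + 6) * 2 by omega, pow_mul,
      Real.sqrt_sq (pow_nonneg hq _), hT, div_pow, show 2 * w + 6 = (2 * w + 5) + 1 by ring,
      pow_succ (t : ℝ)]
    push_cast
    apply le_of_eq
    field_simp
  have hsum : nrm (∑ i ∈ range M0, cE A e1 (i + 1) T)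
      ≤ M0 * (Real.sqrt ((M0 + 1) * (K1 / t)) + K3 / t) := by
    calc nrm (∑ i ∈ range M0, cE A e1 (i + 1) T)
        ≤ ∑ i ∈ range M0, nrm (cE A e1 (i + 1) T) := nrm_sum_le _ _
      _ ≤ ∑ i ∈ range M0, (Real.sqrt ((M0 + 1) * (K1 / t)) + K3 / t) := by
          refine sum_le_sum fun i hi => (hterm (i + 1) (by omega) (mem_range.1 hi) T le_rfl).trans
            (add_le_add (Real.sqrt_le_sqrt ?_) ((le_mul_of_one_le_left hE0 hT1).trans htail))
          refine mul_le_mul_of_nonneg_left ?_ (by positivity)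
          exact pow_le_of_le_one (div_nonneg hK10 ht0.le) ((div_le_one ht0).2 hK1t) (by omega)
      _ = _ := by rw [sum_const, card_range, nsmul_eq_mul]
  have hmain := pow_eq_sum_cE A e1 T M0
  have hXT : X ^ (L * T) = A ^ T := by rw [hA, pow_mul]
  rw [hXT, show X1 ^ T - A ^ T
    = (X1 ^ T - (A + e1) ^ T) + (∑ i ∈ range M0, cE A e1 (i + 1) T + cR A e1 M0 T) by
      rw [hmain]; abel]
  refine ((nrm_add_le _ _).trans (add_le_add (nrm_pow_sub_le_two hX1 hclose T hTδ2)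
    ((nrm_add_le _ _).trans (add_le_add hsum hR')))).trans (le_trans ?_ hbd)
  have h1 : (T : ℝ) * (2 * β) ≤ 2 * (Real.sqrt (M0 + 1) * K1 ^ (2 * w + 6) / t) + 2 * (K3 / t) := by
    rw [hβ, mul_add, mul_add, mul_left_comm, mul_left_comm (T : ℝ) 2 E]
    linarith
  rw [add_div, add_div, mul_div_assoc 2 K3, show 2 * Real.sqrt (↑M0 + 1) * K1 ^ (2 * w + 6) / ↑t
    = 2 * (Real.sqrt (↑M0 + 1) * K1 ^ (2 * w + 6) / t) by ring]
  have h2 : 2 * (T : ℝ) * δ ≤ 2 / t := by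
    rw [mul_assoc, show (2 : ℝ) / t = 2 * (1 / t) by ring]
    exact mul_le_mul_of_nonneg_left hTδ1 (by norm_num)
  linarith

end Vale.Agent.P321.Super
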