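import Vale.Agent.P321.Super.Kernel

/-! A chain of defects inside pure pads, all diluted against its widest pad. -/

namespace Vale.Agent.P321.Super

open MonoidAlgebra Finset Poly

variable {M : Type*} [Monoid M]

/-- The total length of a chain with defects of length `N` between the pads. -/
def tot (N : ℕ) : List ℕ → ℕ
  | [] => 0
  | [P] => P
  | P :: Q :: r => P + N + tot N (Q :: r)

/-- The starting positions of the defects. -/
def starts (N : ℕ) : ℕ → List ℕ → List ℕ
  | _, [] => []
  | _, [_] => []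
  | o, P :: Q :: r => (o + P) :: starts N (o + P + N) (Q :: r)

lemma tot_cons (N P : ℕ) {ps : List ℕ} (h : ps ≠ []) : tot N (P :: ps) = P + N + tot N ps := by
  cases ps with
  | nil => exact absurd rfl h
  | cons Q r => rfl

lemma starts_cons (N o P : ℕ) {ps : List ℕ} (h : ps ≠ []) :
    starts N o (P :: ps) = (o + P) :: starts N (o + P + N) ps := by
  cases ps with
  | nil => exact absurd rfl h
  | cons Q r => rfl

lemma starts_shift (N d : ℕ) : ∀ (o : ℕ) (ps : List ℕ),
    starts N (o + d) ps = (starts N o ps).map (· + d)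
  | _, [] => rfl
  | _, [_] => rfl
  | o, P :: Q :: r => by
    rw [starts, starts, List.map_cons, show o + d + P + N = o + P + N + d by omega,
      starts_shift N d _ (Q :: r), show o + d + P = o + P + d by omega]

lemma tot_snoc (N Q : ℕ) : ∀ {ps : List ℕ}, ps ≠ [] → tot N (ps ++ [Q]) = tot N ps + N + Q
  | [], h => absurd rfl h
  | [P], _ => rfl
  | P :: P' :: r, _ => by
    rw [List.cons_append, tot_cons N P (by simp), tot_cons N P (by simp),
      tot_snoc N Q (List.cons_ne_nil P' r)]
    omega

lemma starts_snoc (N Q : ℕ) : ∀ (o : ℕ) {ps : List ℕ}, ps ≠ [] →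
    starts N o (ps ++ [Q]) = starts N o ps ++ [o + tot N ps]
  | _, [], h => absurd rfl h
  | _, [P], _ => rfl
  | o, P :: P' :: r, _ => by
    rw [List.cons_append, starts_cons N o P (by simp), starts_cons N o P (by simp),
      starts_snoc N Q _ (List.cons_ne_nil P' r), List.cons_append, tot_cons N P (by simp)]
    simp [add_assoc]

lemma tot_reduce (N : ℕ) {l D : ℕ} (hl : l ≤ D) (r : List ℕ) :
    ∀ p : List ℕ, tot N (p ++ (D - l) :: r) + l = tot N (p ++ D :: r)
  | [] => by
    cases r with
    | nil => simp only [List.nil_append, tot]; omega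
    | cons Q r => simp only [List.nil_append, tot]; omega
  | P :: p => by
    rw [List.cons_append, List.cons_append, tot_cons N P (by simp), tot_cons N P (by simp),
      ← tot_reduce N hl r p]
    omega

lemma starts_head (N : ℕ) {l D : ℕ} (hl : l ≤ D) (o : ℕ) : ∀ r : List ℕ,
    starts N o (D :: r) = (starts N o ((D - l) :: r)).map (· + l)
  | [] => rfl
  | Q :: r => by
    rw [← starts_shift, starts, starts, show o + l + (D - l) = o + D by omega]

/-- `b` is `a` moved to the right by at most `d`. -/
def Close (d : ℕ) (a b : List ℕ) : Prop :=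
  (∀ x ∈ a, ∃ y ∈ b, x ≤ y ∧ y ≤ x + d) ∧ ∀ y ∈ b, ∃ x ∈ a, x ≤ y ∧ y ≤ x + d

lemma close_cons {d x : ℕ} {a b : List ℕ} (h : Close d a b) : Close d (x :: a) (x :: b) := by
  constructor
  · intro y hy
    rcases List.mem_cons.1 hy with rfl | hy
    · exact ⟨y, List.mem_cons_self, le_rfl, Nat.le_add_right _ _⟩
    · obtain ⟨z, hz, hz'⟩ := h.1 y hy
      exact ⟨z, List.mem_cons_of_mem _ hz, hz'⟩
  · intro y hy
    rcases List.mem_cons.1 hy with rfl | hy
    · exact ⟨y, List.mem_cons_self, le_rfl, Nat.le_add_right _ _⟩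
    · obtain ⟨z, hz, hz'⟩ := h.2 y hy
      exact ⟨z, List.mem_cons_of_mem _ hz, hz'⟩

lemma starts_reduce (N : ℕ) {l D : ℕ} (hl : l ≤ D) (r : List ℕ) : ∀ (o : ℕ) (p : List ℕ),
    Close l (starts N o (p ++ (D - l) :: r)) (starts N o (p ++ D :: r))
  | o, [] => by
    rw [List.nil_append, List.nil_append, starts_head N hl o r]
    constructor
    · exact fun x hx => ⟨x + l, List.mem_map.2 ⟨x, hx, rfl⟩, Nat.le_add_right _ _, le_rfl⟩
    · intro y hy
      obtain ⟨x, hx, rfl⟩ := List.mem_map.1 hy
      exact ⟨x, hx, Nat.le_add_right _ _, le_rfl⟩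
  | o, P :: p => by
    rw [List.cons_append, List.cons_append, starts_cons N o P (by simp),
      starts_cons N o P (by simp)]
    exact close_cons (starts_reduce N hl r _ p)

/-- The letters `e` sit in the windows given by `st`, at least one in each. -/
def Band (sl N : ℕ) (st : List ℕ) (u : List Bool) : Prop :=
  (∀ i, u[i]? = some true → ∃ p ∈ st, p ≤ i + sl ∧ i < p + N + sl)
    ∧ ∀ p ∈ st, ∃ i, u[i]? = some true ∧ p ≤ i + sl ∧ i < p + N + sl

lemma getElem?_replicate_false_ne (n i : ℕ) : (List.replicate n false)[i]? ≠ some true := by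
  simp [List.getElem?_replicate]

lemma band_first {N sl B P l : ℕ} {v u : List Bool} {st st' : List ℕ} (hv : v.length = N)
    (hvt : true ∈ v) (hl : l ≤ B) (hu : Band sl N st u) (hst : Close l st st') :
    Band (sl + B) N (P :: st'.map (· + (P + N))) (List.replicate (P + l) false ++ v ++ u) := by
  have hget : ∀ i, (List.replicate (P + l) false ++ v ++ u)[i]? = some true ↔
      (P + l ≤ i ∧ v[i - (P + l)]? = some true) ∨
        (P + l + N ≤ i ∧ u[i - (P + l + N)]? = some true) := by
    intro i
    rw [List.append_assoc, List.getElem?_append, List.getElem?_append, List.length_replicate, hv]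
    split_ifs with h1 h2
    · simp [getElem?_replicate_false_ne]; omega
    · constructor
      · exact fun h => Or.inl ⟨by omega, h⟩
      · rintro (⟨-, h⟩ | ⟨h, -⟩)
        · exact h
        · omega
    · rw [show i - (P + l) - N = i - (P + l + N) by omega]
      constructor
      · exact fun h => Or.inr ⟨by omega, h⟩
      · rintro (⟨h, h'⟩ | ⟨-, h⟩)
        · rw [List.getElem?_eq_none (by omega)] at h'
          exact absurd h' (by simp)
        · exact h
  constructor
  · intro i hi
    rcases (hget i).1 hi with ⟨h1, h2⟩ | ⟨h1, h2⟩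
    · have := (List.getElem?_eq_some_iff.1 h2).choose
      exact ⟨P, List.mem_cons_self, by omega, by omega⟩
    · obtain ⟨p, hp, hp'⟩ := hu.1 _ h2
      obtain ⟨y, hy, hy'⟩ := hst.1 p hp
      exact ⟨y + (P + N), List.mem_cons_of_mem _ (List.mem_map.2 ⟨y, hy, rfl⟩), by omega, by omega⟩
  · intro p hp
    rcases List.mem_cons.1 hp with rfl | hp
    · obtain ⟨j, hj⟩ := List.mem_iff_getElem?.1 hvt
      have := (List.getElem?_eq_some_iff.1 hj).choose
      refine ⟨p + l + j, (hget _).2 (Or.inl ⟨by omega, ?_⟩), by omega, by omega⟩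
      rwa [Nat.add_sub_cancel_left]
    · obtain ⟨y, hy, rfl⟩ := List.mem_map.1 hp
      obtain ⟨x, hx, hx'⟩ := hst.2 y hy
      obtain ⟨i, hi, hi'⟩ := hu.2 x hx
      refine ⟨P + l + N + i, (hget _).2 (Or.inr ⟨by omega, ?_⟩), by omega, by omega⟩
      rwa [Nat.add_sub_cancel_left]

lemma band_last {N sl B Q l E : ℕ} {v u : List Bool} {st : List ℕ} (hv : v.length = N)
    (hvt : true ∈ v) (hl : l ≤ B) (hu : Band sl N st u) (hlen : u.length + l = E) :
    Band (sl + B) N (st.map (· + l) ++ [E]) (u ++ v ++ List.replicate Q false) := by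
  have hget : ∀ i, (u ++ v ++ List.replicate Q false)[i]? = some true ↔
      u[i]? = some true ∨ (u.length ≤ i ∧ v[i - u.length]? = some true) := by
    intro i
    rw [List.append_assoc, List.getElem?_append, List.getElem?_append]
    split_ifs with h1 h2
    · simp; omega
    · rw [List.getElem?_eq_none (Nat.le_of_not_lt h1)]
      simp; omega
    · rw [List.getElem?_eq_none (Nat.le_of_not_lt h1), List.getElem?_eq_none (Nat.le_of_not_lt h2)]
      simp [getElem?_replicate_false_ne]
  constructor
  · intro i hi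
    rcases (hget i).1 hi with h1 | ⟨h1, h2⟩
    · obtain ⟨p, hp, hp'⟩ := hu.1 _ h1
      exact ⟨p + l, List.mem_append_left _ (List.mem_map.2 ⟨p, hp, rfl⟩), by omega, by omega⟩
    · have := (List.getElem?_eq_some_iff.1 h2).choose
      exact ⟨E, List.mem_append_right _ (by simp), by omega, by omega⟩
  · intro p hp
    rcases List.mem_append.1 hp with hp | hp
    · obtain ⟨x, hx, rfl⟩ := List.mem_map.1 hp
      obtain ⟨i, hi, hi'⟩ := hu.2 x hx
      exact ⟨i, (hget _).2 (Or.inl hi), by omega, by omega⟩
    · rw [List.mem_singleton] at hp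
      subst hp
      obtain ⟨j, hj⟩ := List.mem_iff_getElem?.1 hvt
      have := (List.getElem?_eq_some_iff.1 hj).choose
      refine ⟨u.length + j, (hget _).2 (Or.inr ⟨by omega, ?_⟩), by omega, by omega⟩
      rwa [Nat.add_sub_cancel_left]

lemma band_pow_cx {sl N D : ℕ} {w : FreeMonoid Bool} (hw : w ∈ (cx ^ D).coeff.support) :
    Band sl N [] (FreeMonoid.toList w) := by
  rw [cx_pow, coeff_single] at hw
  rw [mem_singleton.1 (Finsupp.support_single_subset hw), FreeMonoid.toList_ofList]
  refine ⟨fun i hi => absurd hi (getElem?_replicate_false_ne D i), ?_⟩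
  simp

lemma mem_support_sum {ι : Type*} {s : Finset ι} {f : ι → Cf} {w : FreeMonoid Bool}
    (hw : w ∈ (∑ i ∈ s, f i).coeff.support) : ∃ i ∈ s, w ∈ (f i).coeff.support := by
  by_contra hn
  push Not at hn
  refine Finsupp.mem_support_iff.1 hw ?_
  simp only [coeff_sum, Finsupp.finsetSum_apply]
  exact sum_eq_zero fun i hi => by simpa using hn i hi

lemma mem_support_cx_pow {D : ℕ} {w : FreeMonoid Bool} (hw : w ∈ (cx ^ D).coeff.support) :
    FreeMonoid.toList w = List.replicate D false := by
  rw [cx_pow, coeff_single] at hw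
  rw [mem_singleton.1 (Finsupp.support_single_subset hw), FreeMonoid.toList_ofList]

/-- The product of a chain: pads are powers of `X`, defects are `Ω`. -/
noncomputable def chain (X Ω : MonoidAlgebra ℝ M) : List ℕ → MonoidAlgebra ℝ M
  | [] => 1
  | [P] => X ^ P
  | P :: Q :: r => X ^ P * Ω * chain X Ω (Q :: r)

lemma chain_cons (X Ω : MonoidAlgebra ℝ M) (P : ℕ) {ps : List ℕ} (h : ps ≠ []) :
    chain X Ω (P :: ps) = X ^ P * Ω * chain X Ω ps := by
  cases ps with
  | nil => exact absurd rfl h
  | cons Q r => rfl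

lemma chain_snoc (X Ω : MonoidAlgebra ℝ M) (Q : ℕ) : ∀ {ps : List ℕ}, ps ≠ [] →
    chain X Ω (ps ++ [Q]) = chain X Ω ps * Ω * X ^ Q
  | [], h => absurd rfl h
  | [P], _ => rfl
  | P :: P' :: r, _ => by
    rw [List.cons_append, chain_cons X Ω P (by simp), chain_cons X Ω P (by simp),
      chain_snoc X Ω Q (List.cons_ne_nil P' r)]
    simp only [mul_assoc]

lemma chain_tail (X Ω : MonoidAlgebra ℝ M) : ∀ (r : List ℕ) (D : ℕ),
    chain X Ω (D :: r) = X ^ D * (r.map fun Q => Ω * X ^ Q).prod
  | [], D => by simp [chain]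
  | Q :: r, D => by
    rw [chain_cons X Ω D (List.cons_ne_nil _ _), chain_tail X Ω r Q, List.map_cons, List.prod_cons]
    simp only [mul_assoc]

lemma chain_split (X Ω : MonoidAlgebra ℝ M) (hΩ : nrm Ω ≤ 1) (hX : Prb X) (r : List ℕ) :
    ∀ p : List ℕ, ∃ H T : MonoidAlgebra ℝ M, nrm H ≤ 1 ∧ nrm T ≤ 1 ∧
      ∀ D, chain X Ω (p ++ D :: r) = H * X ^ D * T
  | [] => by
    refine ⟨1, (r.map fun Q => Ω * X ^ Q).prod, Prb.one.nrm_eq.le, ?_, fun D => ?_⟩
    · induction r with
      | nil => simpa using Prb.one.nrm_eq.le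
      | cons Q r ih =>
        rw [List.map_cons, List.prod_cons]
        exact (nrm_mul_le _ _).trans
          (mul_le_one₀ ((nrm_mul_prb_le (hX.pow _)).trans hΩ) (nrm_nonneg _) ih)
    · rw [one_mul, List.nil_append, chain_tail]
  | P :: p => by
    obtain ⟨H, T, hH, hT, h⟩ := chain_split X Ω hΩ hX r p
    refine ⟨X ^ P * Ω * H, T, ?_, hT, fun D => ?_⟩
    · exact (nrm_mul_le _ _).trans
        (mul_le_one₀ ((nrm_prb_mul_le (hX.pow _)).trans hΩ) (nrm_nonneg _) hH)
    · rw [List.cons_append, chain_cons X Ω P (by simp), h D]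
      simp only [mul_assoc]

/-- All pads except the designated one are extrapolated. -/
theorem leaf {X G : MonoidAlgebra ℝ M} {h e : ℝ} {N R B : ℕ} {ω : Cf} {s m : ℕ → ℕ}
    {η : ℕ → ℝ} (hX : Prb X) (h0 : 0 ≤ h) (hω : Hom N ω)
    (hω0 : ω.coeff (FreeMonoid.ofList (List.replicate N false)) = 0)
    (hΩ : nrm (ev X G ω) ≤ 1) (hm : ∀ g, 1 ≤ m g)
    (hη : ∀ g, nrm (X ^ s g * (X - 1)) ≤ η g) (he : ∀ g, 2 * m g * η g ≤ e) :
    ∀ (n : ℕ) (l1 l2 : List (ℕ × ℕ)) (D : ℕ), l1.length + l2.length = n →
      (∀ x ∈ l1 ++ l2, R * s x.2 + R * m x.2 ≤ x.1 ∧ R * s x.2 + R * m x.2 + n * B ≤ D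
        ∧ R * m x.2 ≤ B) →
      ∃ c : Cf, Hom (tot N (l1.map Prod.fst ++ D :: l2.map Prod.fst)) c ∧
        (∀ w ∈ c.coeff.support, Band (n * B) N
          (starts N 0 (l1.map Prod.fst ++ D :: l2.map Prod.fst)) (FreeMonoid.toList w)) ∧
        qf h c ≤ (4 ^ R * 2 ^ N * qf h ω) ^ n
          * ((l1 ++ l2).map fun x => 1 / (m x.2 : ℝ)).prod ∧
        nrm (chain X (ev X G ω) (l1.map Prod.fst ++ D :: l2.map Prod.fst) - ev X G c)
          ≤ (2 ^ (R + 2)) ^ n * e ^ R := by
  intro n
  induction n with
  | zero =>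
    intro l1 l2 D hlen _
    obtain rfl : l1 = [] := List.eq_nil_of_length_eq_zero (by omega)
    obtain rfl : l2 = [] := List.eq_nil_of_length_eq_zero (by omega)
    have he0 : 0 ≤ e := (mul_nonneg (mul_nonneg two_pos.le (Nat.cast_nonneg _))
      ((nrm_nonneg _).trans (hη 0))).trans (he 0)
    refine ⟨cx ^ D, by simpa [tot] using hom_pow hom_cx D, ?_, ?_, ?_⟩
    · intro w hw
      simpa [starts] using band_pow_cx (sl := 0) (N := N) hw
    · simp [qf_cx_pow]
    · simp [chain, map_pow, pow_nonneg he0]
  | succ n ih =>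
    intro l1 l2 D hlen hx
    have he0 : 0 ≤ e := (mul_nonneg (mul_nonneg two_pos.le (Nat.cast_nonneg _))
      ((nrm_nonneg _).trans (hη 0))).trans (he 0)
    have hδ : (0 : ℝ) ≤ e ^ R := pow_nonneg he0 R
    have herr : ∀ (g : ℕ) (Z : MonoidAlgebra ℝ M), nrm Z ≤ 1 →
        (2 * m g * η g) ^ R * nrm Z ≤ e ^ R := fun g Z hZ => by
      have h1 : 0 ≤ 2 * (m g : ℝ) * η g :=
        mul_nonneg (by positivity) ((nrm_nonneg _).trans (hη g))
      exact (mul_le_of_le_one_right (pow_nonneg h1 R) hZ).trans (pow_le_pow_left₀ h1 (he g) R)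
    have htail : ∀ {S : ℝ}, S ≤ 2 ^ (R + 1) → e ^ R + S * ((2 ^ (R + 2)) ^ n * e ^ R)
        ≤ (2 ^ (R + 2)) ^ (n + 1) * e ^ R := by
      intro S hS
      have h1 : (1 : ℝ) ≤ (2 ^ (R + 2)) ^ n * 2 ^ (R + 1) :=
        one_le_mul_of_one_le_of_one_le (one_le_pow₀ (one_le_pow₀ (by norm_num)))
          (one_le_pow₀ (by norm_num))
      calc e ^ R + S * ((2 ^ (R + 2)) ^ n * e ^ R)
          ≤ ((2 ^ (R + 2)) ^ n * 2 ^ (R + 1)) * e ^ R
            + 2 ^ (R + 1) * ((2 ^ (R + 2)) ^ n * e ^ R) :=
            add_le_add (le_mul_of_one_le_left hδ h1)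
              (mul_le_mul_of_nonneg_right hS (by positivity))
        _ = _ := by ring
    rcases l1 with _ | ⟨⟨P, g⟩, l1⟩
    · -- peel the last pad
      rcases List.eq_nil_or_concat l2 with rfl | ⟨l2', ⟨Q, g⟩, rfl⟩
      · simp at hlen
      rw [List.concat_eq_append] at hlen hx ⊢
      simp only [List.nil_append, List.map_nil, List.map_append, List.map_cons] at hx ⊢
      simp only [List.length_nil, List.length_append, List.length_cons, zero_add] at hlen
      obtain ⟨hQ, hD, hB⟩ := hx (Q, g) (by simp)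
      dsimp only at hQ hD hB
      set K := R * m g with hK
      have key : ∀ l, ∃ c : Cf, l ≤ K →
          Hom (tot N ((D - l) :: l2'.map Prod.fst)) c ∧
          (∀ w ∈ c.coeff.support, Band (n * B) N
            (starts N 0 ((D - l) :: l2'.map Prod.fst)) (FreeMonoid.toList w)) ∧
          qf h c ≤ (4 ^ R * 2 ^ N * qf h ω) ^ n
            * (l2'.map fun x => 1 / (m x.2 : ℝ)).prod ∧
          nrm (chain X (ev X G ω) ((D - l) :: l2'.map Prod.fst) - ev X G c)
            ≤ (2 ^ (R + 2)) ^ n * e ^ R := by
        intro l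
        by_cases hl : l ≤ K
        · obtain ⟨c, hc⟩ := ih [] l2' (D - l) (by simp; omega) fun x hx' => by
            obtain ⟨h1, h2, h3⟩ := hx x (List.mem_append_left _ (by simpa using hx'))
            rw [add_mul, one_mul] at h2
            exact ⟨h1, by omega, h3⟩
          exact ⟨c, fun _ => by simpa using hc⟩
        · exact ⟨0, fun h' => absurd h' hl⟩
      choose c hc using key
      rw [add_mul, one_mul] at hD
      have hlK : ∀ l ∈ range (K + 1), l ≤ K := fun l hl => Nat.lt_succ_iff.1 (mem_range.1 hl)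
      refine ⟨∑ l ∈ range (K + 1), (kerP (m g) R).coeff l • (c l * ω * cx ^ (Q + l)),
        ?_, ?_, ?_, ?_⟩
      · refine hom_sum _ _ fun l hl => hom_smul ?_ _
        have := hom_mul (hom_mul (hc l (hlK l hl)).1 hω) (hom_pow hom_cx (Q + l))
        have e1 := tot_reduce N (show l ≤ D by have := hlK l hl; omega) (l2'.map Prod.fst) []
        simp only [List.nil_append] at e1
        rwa [← List.cons_append, tot_snoc N Q (List.cons_ne_nil _ _),
          show tot N (D :: l2'.map Prod.fst) + N + Q
            = tot N ((D - l) :: l2'.map Prod.fst) + N + (Q + l) * 1 by omega]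
      · intro w hw
        obtain ⟨l, hl, hw⟩ := mem_support_sum hw
        obtain ⟨a, ha, v, hv, rfl⟩ :=
          mem_support_mul (Finsupp.support_smul (by simpa only [coeff_smul] using hw))
        obtain ⟨u, hu, v', hv', rfl⟩ := mem_support_mul ha
        obtain ⟨hc1, hc2, -, -⟩ := hc l (hlK l hl)
        have hlD : l ≤ D := by have := hlK l hl; omega
        rw [← List.cons_append, starts_snoc N Q 0 (List.cons_ne_nil _ _), zero_add,
          starts_head N hlD 0, FreeMonoid.toList_mul, FreeMonoid.toList_mul,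
          mem_support_cx_pow hv, add_mul n, one_mul]
        refine band_last (hω v' hv') (mem_true_of_mem_support hω hω0 hv') ?_ (hc2 u hu) ?_
        · exact (hlK l hl).trans hB
        · have e1 := tot_reduce N hlD (l2'.map Prod.fst) []
          simp only [List.nil_append] at e1
          rw [hc1 u hu, e1]
      · refine (qf_shift_left h0 hω hω0 _ _ Q c _ fun l hl => (hc l (hlK l hl)).1).trans ?_
        rw [List.prod_append]
        rw [List.prod_singleton]
        set Pr := (l2'.map fun x => 1 / (m x.2 : ℝ)).prod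
        set Kq := 4 ^ R * 2 ^ N * qf h ω with hKq
        have hsum : ∑ l ∈ range (K + 1), (kerP (m g) R).coeff l ^ 2 * qf h (c l)
            ≤ 4 ^ R / (m g : ℝ) * (Kq ^ n * Pr) := by
          refine (sum_le_sum fun l hl => mul_le_mul_of_nonneg_left (hc l (hlK l hl)).2.2.1
            (sq_nonneg _)).trans ?_
          rw [← sum_mul]
          refine mul_le_mul_of_nonneg_right (kerP_sum_sq _ _ (hm g)) ?_
          refine mul_nonneg (pow_nonneg (mul_nonneg (by positivity) (qf_nonneg h0 _)) _)
            (List.prod_nonneg ?_)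
          intro a ha
          obtain ⟨x, -, rfl⟩ := List.mem_map.1 ha
          positivity
        refine (mul_le_mul_of_nonneg_left hsum
          (mul_nonneg (by positivity) (qf_nonneg h0 _))).trans_eq ?_
        rw [hKq]; ring
      · have hc' := fun D' => chain_tail X (ev X G ω) (l2'.map Prod.fst) D'
        simp only [List.map_map] at hc'
        set U := (l2'.map ((fun P => ev X G ω * X ^ P) ∘ Prod.fst)).prod * ev X G ω with hU
        have hUn : nrm U ≤ 1 := by
          refine (nrm_mul_le _ _).trans (mul_le_one₀ ?_ (nrm_nonneg _) hΩ)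
          clear hc' hU hlen hx ih hc
          induction l2' with
          | nil => simpa using Prb.one.nrm_eq.le
          | cons y r ih' =>
            rw [List.map_cons, List.prod_cons]
            exact (nrm_mul_le _ _).trans
              (mul_le_one₀ ((nrm_mul_prb_le (hX.pow _)).trans hΩ) (nrm_nonneg _) ih')
        rw [← List.cons_append, chain_snoc _ _ _ (List.cons_ne_nil _ _), hc']
        have e1 : X ^ D * (l2'.map ((fun P => ev X G ω * X ^ P) ∘ Prod.fst)).prod * ev X G ω * X ^ Q
            = X ^ D * U * X ^ Q := by rw [hU]; simp only [mul_assoc]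
        have e2 : ev X G (∑ l ∈ range (K + 1), (kerP (m g) R).coeff l • (c l * ω * cx ^ (Q + l)))
            = ∑ l ∈ range (K + 1), (kerP (m g) R).coeff l
              • (ev X G (c l) * ev X G ω * X ^ (Q + l)) := by
          simp [map_sum, map_smul, map_mul, map_pow]
        rw [e1, e2]
        have h1 := (extrap_left hX U (P := D) (Q := Q) (hm g) (hη g) (by omega)
          (show R * s g ≤ Q by omega)).trans (herr g U hUn)
        rw [app_eq_sum (Nat.lt_succ_of_le (kerP_natDegree _ _))] at h1
        have h2 : nrm (∑ l ∈ range (K + 1), (kerP (m g) R).coeff l • (X ^ (D - l) * U * X ^ (Q + l))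
            - ∑ l ∈ range (K + 1), (kerP (m g) R).coeff l
              • (ev X G (c l) * ev X G ω * X ^ (Q + l)))
            ≤ (∑ l ∈ range (K + 1), |(kerP (m g) R).coeff l|) * ((2 ^ (R + 2)) ^ n * e ^ R) := by
          rw [← sum_sub_distrib, sum_mul]
          refine (nrm_sum_le _ _).trans (sum_le_sum fun l hl => ?_)
          rw [← smul_sub, nrm_smul]
          refine mul_le_mul_of_nonneg_left ?_ (abs_nonneg _)
          rw [show X ^ (D - l) * U * X ^ (Q + l)
              = chain X (ev X G ω) ((D - l) :: l2'.map Prod.fst) * ev X G ω * X ^ (Q + l) by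
            rw [hc', hU]; simp only [mul_assoc], ← sub_mul, ← sub_mul]
          exact ((nrm_mul_prb_le (hX.pow _)).trans ((nrm_mul_le _ _).trans
            (mul_le_of_le_one_right (nrm_nonneg _) hΩ))).trans (hc l (hlK l hl)).2.2.2
        refine le_trans ?_ (htail (kerP_sum_abs _ _ (hm g)))
        refine le_trans (le_of_eq_of_le ?_ (nrm_add_le _ _)) (add_le_add h1 h2)
        congr 1; abel
    · -- peel the first pad
      simp only [List.length_cons] at hlen
      obtain ⟨hP, hD, hB⟩ := hx (P, g) (by simp)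
      dsimp only at hP hD hB
      set K := R * m g with hK
      set p' := l1.map Prod.fst
      set r := l2.map Prod.fst
      have key : ∀ l, ∃ c : Cf, l ≤ K →
          Hom (tot N (p' ++ (D - l) :: r)) c ∧
          (∀ w ∈ c.coeff.support, Band (n * B) N
            (starts N 0 (p' ++ (D - l) :: r)) (FreeMonoid.toList w)) ∧
          qf h c ≤ (4 ^ R * 2 ^ N * qf h ω) ^ n
            * ((l1 ++ l2).map fun x => 1 / (m x.2 : ℝ)).prod ∧
          nrm (chain X (ev X G ω) (p' ++ (D - l) :: r) - ev X G c)
            ≤ (2 ^ (R + 2)) ^ n * e ^ R := by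
        intro l
        by_cases hl : l ≤ K
        · obtain ⟨c, hc⟩ := ih l1 l2 (D - l) (by omega) fun x hx' => by
            obtain ⟨h1, h2, h3⟩ := hx x (List.mem_cons_of_mem _ hx')
            rw [add_mul, one_mul] at h2
            exact ⟨h1, by omega, h3⟩
          exact ⟨c, fun _ => hc⟩
        · exact ⟨0, fun h' => absurd h' hl⟩
      choose c hc using key
      rw [add_mul, one_mul] at hD
      have hlK : ∀ l ∈ range (K + 1), l ≤ K := fun l hl => Nat.lt_succ_iff.1 (mem_range.1 hl)
      simp only [List.map_cons, List.cons_append]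
      refine ⟨∑ l ∈ range (K + 1), (kerP (m g) R).coeff l • (cx ^ (P + l) * ω * c l),
        ?_, ?_, ?_, ?_⟩
      · refine hom_sum _ _ fun l hl => hom_smul ?_ _
        have := hom_mul (hom_mul (hom_pow hom_cx (P + l)) hω) (hc l (hlK l hl)).1
        have e1 := tot_reduce N (show l ≤ D by have := hlK l hl; omega) r p'
        rwa [tot_cons N P (by simp), show P + N + tot N (p' ++ D :: r)
            = (P + l) * 1 + N + tot N (p' ++ (D - l) :: r) by omega]
      · intro w hw
        obtain ⟨l, hl, hw⟩ := mem_support_sum hw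
        obtain ⟨a, ha, v, hv, rfl⟩ :=
          mem_support_mul (Finsupp.support_smul (by simpa only [coeff_smul] using hw))
        obtain ⟨u, hu, v', hv', rfl⟩ := mem_support_mul ha
        have hlD : l ≤ D := by have := hlK l hl; omega
        have e := starts_shift N (P + N) 0 (p' ++ D :: r)
        rw [Nat.zero_add] at e
        rw [starts_cons N 0 P (by simp), zero_add, e, FreeMonoid.toList_mul, FreeMonoid.toList_mul,
          mem_support_cx_pow hu, add_mul n, one_mul]
        refine band_first (hω v' hv') (mem_true_of_mem_support hω hω0 hv') ?_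
          ((hc l (hlK l hl)).2.1 v hv) (starts_reduce N hlD r 0 p')
        exact (hlK l hl).trans hB
      · refine (qf_shift_right h0 hω hω0 _ _ P c _ fun l hl => (hc l (hlK l hl)).1).trans ?_
        rw [List.prod_cons]
        set Pr := ((l1 ++ l2).map fun x => 1 / (m x.2 : ℝ)).prod
        set Kq := 4 ^ R * 2 ^ N * qf h ω with hKq
        have hsum : ∑ l ∈ range (K + 1), (kerP (m g) R).coeff l ^ 2 * qf h (c l)
            ≤ 4 ^ R / (m g : ℝ) * (Kq ^ n * Pr) := by
          refine (sum_le_sum fun l hl => mul_le_mul_of_nonneg_left (hc l (hlK l hl)).2.2.1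
            (sq_nonneg _)).trans ?_
          rw [← sum_mul]
          refine mul_le_mul_of_nonneg_right (kerP_sum_sq _ _ (hm g)) ?_
          refine mul_nonneg (pow_nonneg (mul_nonneg (by positivity) (qf_nonneg h0 _)) _)
            (List.prod_nonneg ?_)
          intro a ha
          obtain ⟨x, -, rfl⟩ := List.mem_map.1 ha
          positivity
        refine (mul_le_mul_of_nonneg_left hsum
          (mul_nonneg (by positivity) (qf_nonneg h0 _))).trans_eq ?_
        rw [hKq]; ring
      · obtain ⟨H, T, hH, hT, hsplit⟩ := chain_split X (ev X G ω) hΩ hX r p'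
        have e2 : ev X G (∑ l ∈ range (K + 1), (kerP (m g) R).coeff l • (cx ^ (P + l) * ω * c l))
            = ∑ l ∈ range (K + 1), (kerP (m g) R).coeff l
              • (X ^ (P + l) * ev X G ω * ev X G (c l)) := by
          simp [map_sum, map_smul, map_mul, map_pow]
        set U := ev X G ω * H with hU
        have hUn : nrm U ≤ 1 := (nrm_mul_le _ _).trans (mul_le_one₀ hΩ (nrm_nonneg _) hH)
        have e1 : chain X (ev X G ω) (P :: (p' ++ D :: r)) = X ^ P * U * X ^ D * T := by
          rw [chain_cons _ _ _ (by simp), hsplit, hU]; simp only [mul_assoc]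
        rw [e1, e2]
        have h1 := (extrap_right hX U (P := P) (Q := D) (hm g) (hη g)
          (show R * s g ≤ P by omega) (by omega)).trans (herr g U hUn)
        rw [app_eq_sum (Nat.lt_succ_of_le (kerP_natDegree _ _))] at h1
        set S1 := ∑ l ∈ range (K + 1), (kerP (m g) R).coeff l • (X ^ (P + l) * U * X ^ (D - l))
        have h1' : nrm (X ^ P * U * X ^ D * T - S1 * T) ≤ e ^ R := by
          rw [← sub_mul]
          exact ((nrm_mul_le _ _).trans (mul_le_of_le_one_right (nrm_nonneg _) hT)).trans h1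
        have h2 : nrm (S1 * T - ∑ l ∈ range (K + 1), (kerP (m g) R).coeff l
              • (X ^ (P + l) * ev X G ω * ev X G (c l)))
            ≤ (∑ l ∈ range (K + 1), |(kerP (m g) R).coeff l|) * ((2 ^ (R + 2)) ^ n * e ^ R) := by
          simp only [S1, sum_mul, ← sum_sub_distrib, smul_mul_assoc]
          refine (nrm_sum_le _ _).trans (sum_le_sum fun l hl => ?_)
          rw [← smul_sub, nrm_smul]
          refine mul_le_mul_of_nonneg_left ?_ (abs_nonneg _)
          rw [show X ^ (P + l) * U * X ^ (D - l) * T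
              = X ^ (P + l) * ev X G ω * chain X (ev X G ω) (p' ++ (D - l) :: r) by
            rw [hsplit, hU]; simp only [mul_assoc], ← mul_sub]
          refine ((nrm_mul_le _ _).trans (mul_le_of_le_one_left (nrm_nonneg _) ?_)).trans
            (hc l (hlK l hl)).2.2.2
          exact (nrm_prb_mul_le (hX.pow _)).trans hΩ
        refine le_trans ?_ (htail (kerP_sum_abs _ _ (hm g)))
        refine le_trans (le_of_eq_of_le ?_ (nrm_add_le _ _)) (add_le_add h1' h2)
        congr 1; abel

end Vale.Agent.P321.Super
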