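import Vale.Agent.P321.Super.CombSeg
import Mathlib.Data.List.Sort
import Mathlib.Data.Nat.Sqrt

/-! The expansion of a comb power in the positions of its defects. -/

namespace Vale.Agent.P321.Super

open MonoidAlgebra Finset Poly

variable {S : Type*} [Ring S]

/-- The products of length `T` with exactly `m` factors `e`, the others equal to `A`. -/
def cE (A e : S) : ℕ → ℕ → S
  | 0, T => A ^ T
  | _ + 1, 0 => 0
  | m + 1, T + 1 => A * cE A e (m + 1) T + e * cE A e m T

/-- The remainder of the expansion after `m` factors. -/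
def cR (A e : S) (m : ℕ) : ℕ → S
  | 0 => 0
  | T + 1 => (A + e) * cR A e m T + e * cE A e m T

lemma cR_eq (A e : S) (m : ℕ) :
    ∀ T, cR A e m T = cE A e (m + 1) T + cR A e (m + 1) T
  | 0 => by simp [cR, cE]
  | T + 1 => by
    rw [cR, cR, cE, cR_eq A e m T]
    simp only [add_mul, mul_add]
    abel

lemma pow_eq_cR (A e : S) : ∀ T : ℕ, (A + e) ^ T = A ^ T + cR A e 0 T
  | 0 => by simp [cR]
  | T + 1 => by
    rw [pow_succ', cR, pow_eq_cR A e T, cE, mul_add, add_mul, pow_succ']
    abel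

lemma pow_eq_sum_cE (A e : S) (T : ℕ) : ∀ m : ℕ,
    (A + e) ^ T = A ^ T + ∑ i ∈ range m, cE A e (i + 1) T + cR A e m T
  | 0 => by simpa using pow_eq_cR A e T
  | m + 1 => by
    rw [pow_eq_sum_cE A e T m, cR_eq A e m T, sum_range_succ]
    abel

lemma cE_succ (A e : S) (m : ℕ) :
    ∀ T, cE A e (m + 1) T = ∑ i ∈ range T, A ^ i * (e * cE A e m (T - 1 - i))
  | 0 => by simp [cE]
  | T + 1 => by
    rw [cE, cE_succ A e m T, sum_range_succ', mul_sum]
    congr 1
    · refine sum_congr rfl fun i _ => ?_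
      rw [pow_succ', mul_assoc, show T + 1 - 1 - (i + 1) = T - 1 - i by omega]
    · simp

/-- The lists of gaps between `m` factors `e` among `T`. -/
def cfg : ℕ → ℕ → Finset (List ℕ)
  | 0, T => {[T]}
  | m + 1, T => (range T).biUnion fun i => (cfg m (T - 1 - i)).image (List.cons i)

/-- The product with the given gaps. -/
def val (A e : S) : List ℕ → S
  | [] => 1
  | [g] => A ^ g
  | g :: g' :: r => A ^ g * (e * val A e (g' :: r))

lemma mem_cfg : ∀ {m T : ℕ} {g : List ℕ}, g ∈ cfg m T → g.length = m + 1 ∧ ∀ x ∈ g, x ≤ T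
  | 0, T, g, h => by
    simp only [cfg, mem_singleton] at h
    subst h
    simp
  | m + 1, T, g, h => by
    simp only [cfg, mem_biUnion, mem_image, mem_range] at h
    obtain ⟨i, hi, r, hr, rfl⟩ := h
    obtain ⟨hl, hb⟩ := mem_cfg hr
    refine ⟨by simp [hl], fun x hx => ?_⟩
    rcases List.mem_cons.1 hx with rfl | hx
    · omega
    · have := hb x hx; omega

lemma cfg_disjoint (m T : ℕ) : Set.PairwiseDisjoint (↑(range T))
    fun i => (cfg m (T - 1 - i)).image (List.cons i) := by
  intro i _ j _ hij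
  simp only [Function.onFun, disjoint_left, mem_image]
  rintro _ ⟨r, _, rfl⟩ ⟨r', _, h⟩
  exact hij (List.cons.inj h).1.symm

lemma val_cons (A e : S) (g : ℕ) {r : List ℕ} (h : r ≠ []) :
    val A e (g :: r) = A ^ g * (e * val A e r) := by
  cases r with
  | nil => exact absurd rfl h
  | cons a b => rfl

lemma cE_eq_sum (A e : S) : ∀ m T, cE A e m T = ∑ g ∈ cfg m T, val A e g
  | 0, T => by simp [cE, cfg, val]
  | m + 1, T => by
    rw [cE_succ, cfg, sum_biUnion (cfg_disjoint m T)]
    refine sum_congr rfl fun i _ => ?_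
    rw [sum_image (fun a _ b _ h => (List.cons.inj h).2), cE_eq_sum A e m, mul_sum, mul_sum]
    refine sum_congr rfl fun r hr => ?_
    rw [val_cons A e i]
    intro h
    simpa [h] using (mem_cfg hr).1

lemma card_cfg_le : ∀ m T, (cfg m T).card ≤ (T + 1) ^ m
  | 0, T => by simp [cfg]
  | m + 1, T => by
    refine card_biUnion_le.trans ?_
    calc ∑ i ∈ range T, ((cfg m (T - 1 - i)).image (List.cons i)).card
        ≤ ∑ i ∈ range T, (T + 1) ^ m := by
          refine sum_le_sum fun i _ => card_image_le.trans ((card_cfg_le m _).trans ?_)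
          exact Nat.pow_le_pow_left (by omega) m
      _ ≤ (T + 1) ^ (m + 1) := by
          rw [sum_const, card_range, smul_eq_mul, pow_succ, mul_comm]
          exact Nat.mul_le_mul_left _ (Nat.le_succ T)

/-- The pads of a list of gaps, after `b` free slots, each labelled by its gap. -/
def pads (a L : ℕ) : ℕ → List ℕ → List (ℕ × ℕ)
  | _, [] => []
  | b, [g] => [(b + g * L, g)]
  | b, g :: g' :: r => (b + g * L + a, g) :: pads a L a (g' :: r)

/-- The copies which hold a factor `e`. -/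
def ks : ℕ → List ℕ → List ℕ
  | _, [] => []
  | _, [_] => []
  | i, g :: g' :: r => (i + g) :: ks (i + g + 1) (g' :: r)

lemma pads_snd (a L : ℕ) : ∀ (b : ℕ) (g : List ℕ), (pads a L b g).map Prod.snd = g
  | _, [] => rfl
  | _, [_] => rfl
  | b, g :: g' :: r => by rw [pads, List.map_cons, pads_snd a L a]

lemma pads_fst_ne_nil (a L b : ℕ) {g : List ℕ} (h : g ≠ []) :
    (pads a L b g).map Prod.fst ≠ [] := by
  intro h'
  rw [List.map_eq_nil_iff] at h'
  exact h (by rw [← pads_snd a L b g, h']; rfl)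

lemma le_pads (a L : ℕ) : ∀ (g : List ℕ), ∀ x ∈ pads a L a g, a + x.2 * L ≤ x.1
  | [], x, h => by simp [pads] at h
  | [g], x, h => by
    simp only [pads, List.mem_singleton] at h
    subst h; simp
  | g :: g' :: r, x, h => by
    rw [pads, List.mem_cons] at h
    rcases h with rfl | h
    · simp only; omega
    · exact le_pads a L (g' :: r) x h

lemma le_pads_zero (a L : ℕ) {g : List ℕ} (hg : 2 ≤ g.length) :
    ∀ x ∈ pads a L 0 g, a + x.2 * L ≤ x.1 := by
  match g, hg with
  | g :: g' :: r, _ =>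
    intro x h
    rw [pads, List.mem_cons] at h
    rcases h with rfl | h
    · simp only; omega
    · exact le_pads a L (g' :: r) x h

lemma chain_pads {M : Type*} [Monoid M] (X Ω : MonoidAlgebra ℝ M) (a L : ℕ) :
    ∀ (b : ℕ) (g : List ℕ), g ≠ [] → chain X Ω ((pads a L b g).map Prod.fst)
      = X ^ b * val (X ^ L) (X ^ a * Ω * X ^ a) g
  | _, [], h => absurd rfl h
  | b, [g], _ => by simp [pads, chain, val, pow_add, ← pow_mul, mul_comm L g]
  | b, g :: g' :: r, _ => by
    rw [pads, List.map_cons, chain_cons _ _ _ (pads_fst_ne_nil a L a (List.cons_ne_nil _ _)),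
      chain_pads X Ω a L a _ (List.cons_ne_nil _ _), val_cons _ _ _ (List.cons_ne_nil _ _)]
    simp only [pow_add, mul_comm g L, pow_mul, mul_assoc]

lemma tot_pads (N a L : ℕ) (hL : L = 2 * a + N) : ∀ (m T : ℕ) (g : List ℕ), g ∈ cfg m T →
    ∀ b, tot N ((pads a L b g).map Prod.fst) = b + T * L
  | 0, T, g, hg, b => by
    simp only [cfg, mem_singleton] at hg
    subst hg
    simp [pads, tot]
  | m + 1, T, g, hg, b => by
    simp only [cfg, mem_biUnion, mem_image, mem_range] at hg
    obtain ⟨i, hi, r, hr, rfl⟩ := hg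
    obtain ⟨x, r', rfl⟩ : ∃ x r', r = x :: r' :=
      List.exists_cons_of_ne_nil fun h => by simpa [h] using (mem_cfg hr).1
    rw [pads, List.map_cons, tot_cons N _ (pads_fst_ne_nil a L a (List.cons_ne_nil _ _)),
      tot_pads N a L hL m _ _ hr a]
    obtain ⟨k, rfl⟩ : ∃ k, T = i + 1 + k := ⟨T - 1 - i, by omega⟩
    rw [show i + 1 + k - 1 - i = k by omega, add_mul, add_mul, one_mul]
    omega

lemma starts_pads (N a L : ℕ) (hL : L = 2 * a + N) : ∀ (g : List ℕ) (o b i : ℕ), o + b = i * L →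
    starts N o ((pads a L b g).map Prod.fst) = (ks i g).map fun k => k * L + a
  | [], _, _, _, _ => rfl
  | [_], _, _, _, _ => rfl
  | g :: g' :: r, o, b, i, h => by
    rw [pads, List.map_cons, starts_cons N _ _ (pads_fst_ne_nil a L a (List.cons_ne_nil _ _)), ks,
      List.map_cons, starts_pads N a L hL (g' :: r) _ a (i + g + 1)]
    · congr 1
      rw [add_mul]; omega
    · rw [add_mul, add_mul, one_mul]; omega

lemma le_of_mem_ks : ∀ (i : ℕ) (g : List ℕ), ∀ k ∈ ks i g, i ≤ k
  | _, [], k, h => by simp [ks] at h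
  | _, [_], k, h => by simp [ks] at h
  | i, g :: g' :: r, k, h => by
    rw [ks, List.mem_cons] at h
    rcases h with rfl | h
    · omega
    · have := le_of_mem_ks _ _ k h; omega

lemma ks_inj : ∀ (m T i : ℕ) (g g' : List ℕ), g ∈ cfg m T → g' ∈ cfg m T →
    (ks i g).toFinset = (ks i g').toFinset → g = g'
  | 0, T, i, g, g', hg, hg', _ => by
    simp only [cfg, mem_singleton] at hg hg'
    rw [hg, hg']
  | m + 1, T, i, g, g', hg, hg', h => by
    simp only [cfg, mem_biUnion, mem_image, mem_range] at hg hg'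
    obtain ⟨a, -, r, hr, rfl⟩ := hg
    obtain ⟨b, -, r', hr', rfl⟩ := hg'
    obtain ⟨x, t, rfl⟩ : ∃ x t, r = x :: t :=
      List.exists_cons_of_ne_nil fun h => by simpa [h] using (mem_cfg hr).1
    obtain ⟨y, t', rfl⟩ : ∃ y t', r' = y :: t' :=
      List.exists_cons_of_ne_nil fun h => by simpa [h] using (mem_cfg hr').1
    rw [ks, ks, List.toFinset_cons, List.toFinset_cons] at h
    have ha : ∀ k ∈ (ks (i + a + 1) (x :: t)).toFinset, i + a + 1 ≤ k := fun k hk =>
      le_of_mem_ks _ _ k (List.mem_toFinset.1 hk)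
    have hb : ∀ k ∈ (ks (i + b + 1) (y :: t')).toFinset, i + b + 1 ≤ k := fun k hk =>
      le_of_mem_ks _ _ k (List.mem_toFinset.1 hk)
    have hab : a = b := by
      rcases mem_insert.1 (h ▸ mem_insert_self (i + a) _) with h1 | h1
      · omega
      rcases mem_insert.1 (h.symm ▸ mem_insert_self (i + b) _) with h2 | h2
      · omega
      have := hb _ h1
      have := ha _ h2
      omega
    subst hab
    have hr'' : (ks (i + a + 1) (x :: t)).toFinset = (ks (i + a + 1) (y :: t')).toFinset := by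
      have := congrArg (fun s : Finset ℕ => s.erase (i + a)) h
      simp only [erase_insert_eq_erase] at this
      rwa [erase_eq_of_notMem fun h' => by have := ha _ h'; omega,
        erase_eq_of_notMem fun h' => by have := hb _ h'; omega] at this
    rw [ks_inj m _ _ _ _ hr hr' hr'']

lemma exists_split_max : ∀ {g : List ℕ}, g ≠ [] →
    ∃ g1 x g2, g = g1 ++ x :: g2 ∧ ∀ y ∈ g, y ≤ x
  | [], h => absurd rfl h
  | [a], _ => ⟨[], a, [], rfl, by simp⟩
  | a :: b :: r, _ => by
    obtain ⟨g1, x, g2, hg, hx⟩ := exists_split_max (List.cons_ne_nil b r)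
    rcases le_total a x with h | h
    · refine ⟨a :: g1, x, g2, by rw [hg]; rfl, fun y hy => ?_⟩
      rcases List.mem_cons.1 hy with rfl | hy
      · exact h
      · exact hx y hy
    · refine ⟨[], a, b :: r, rfl, fun y hy => ?_⟩
      rcases List.mem_cons.1 hy with rfl | hy
      · exact le_rfl
      · exact (hx y hy).trans h

/-- The copies touched by a word. -/
def touched (L : ℕ) (u : List Bool) : Finset ℕ :=
  ((range u.length).filter fun i => u[i]? = some true).image fun i => i / L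

lemma touched_eq {N a L sl : ℕ} (hL : L = 2 * a + N) (hsl : sl ≤ a) {ps : List ℕ} {u : List Bool}
    (h : Band sl N (ps.map fun k => k * L + a) u) : touched L u = ps.toFinset := by
  have key : ∀ i k, k * L + a ≤ i + sl → i < k * L + a + N + sl → i / L = k := by
    intro i k h1 h2
    refine Nat.div_eq_of_lt_le (by omega) ?_
    rw [add_mul, one_mul]; omega
  ext k
  simp only [touched, mem_image, mem_filter, mem_range, List.mem_toFinset]
  constructor
  · rintro ⟨i, ⟨-, hi⟩, rfl⟩
    obtain ⟨p, hp, h1, h2⟩ := h.1 i hi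
    obtain ⟨k', hk', rfl⟩ := List.mem_map.1 hp
    rwa [key i k' h1 h2]
  · intro hk
    obtain ⟨i, hi, h1, h2⟩ := h.2 _ (List.mem_map.2 ⟨k, hk, rfl⟩)
    exact ⟨i, ⟨(List.getElem?_eq_some_iff.1 hi).choose, hi⟩, key i k h1 h2⟩

/-- `∑ j, ∏ i ≠ j, φ (g i)`. -/
def dv (φ : ℕ → ℝ) : List ℕ → ℝ
  | [] => 0
  | a :: r => (r.map φ).prod + φ a * dv φ r

lemma dv_nonneg {φ : ℕ → ℝ} (hφ : ∀ a, 0 ≤ φ a) : ∀ g, 0 ≤ dv φ g
  | [] => le_rfl
  | a :: r => by
    refine add_nonneg (List.prod_nonneg fun x hx => ?_) (mul_nonneg (hφ a) (dv_nonneg hφ r))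
    obtain ⟨y, -, rfl⟩ := List.mem_map.1 hx
    exact hφ y

lemma prod_le_dv {φ : ℕ → ℝ} (hφ : ∀ a, 0 ≤ φ a) (x : ℕ) (g2 : List ℕ) :
    ∀ g1 : List ℕ, ((g1 ++ g2).map φ).prod ≤ dv φ (g1 ++ x :: g2)
  | [] => by
    rw [List.nil_append, List.nil_append, dv]
    exact le_add_of_nonneg_right (mul_nonneg (hφ x) (dv_nonneg hφ g2))
  | a :: g1 => by
    rw [List.cons_append, List.map_cons, List.prod_cons, List.cons_append, dv]
    refine (mul_le_mul_of_nonneg_left (prod_le_dv hφ x g2 g1) (hφ a)).trans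
      (le_add_of_nonneg_left (List.prod_nonneg fun y hy => ?_))
    obtain ⟨z, -, rfl⟩ := List.mem_map.1 hy
    exact hφ z

lemma sum_prod_cfg_le {φ : ℕ → ℝ} (hφ : ∀ a, 0 ≤ φ a) {s : ℝ} : ∀ (m T : ℕ),
    ∑ i ∈ range (T + 1), φ i ≤ s →
    ∑ T' ∈ range (T + 1), ∑ g ∈ cfg m T', (g.map φ).prod ≤ s ^ (m + 1)
  | 0, T, hs => by simpa [cfg] using hs
  | m + 1, T, hs => by
    have hP : ∀ T', 0 ≤ ∑ g ∈ cfg m T', (g.map φ).prod := fun T' => sum_nonneg fun g _ =>
      List.prod_nonneg fun x hx => by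
        obtain ⟨y, -, rfl⟩ := List.mem_map.1 hx
        exact hφ y
    have e : ∀ T' : ℕ, ∑ g ∈ cfg (m + 1) T', (g.map φ).prod
        = ∑ i ∈ range T', φ i * ∑ g ∈ cfg m (T' - 1 - i), (g.map φ).prod := by
      intro T'
      rw [cfg, sum_biUnion (cfg_disjoint m T')]
      refine sum_congr rfl fun i _ => ?_
      rw [sum_image (fun a _ b _ h => (List.cons.inj h).2), mul_sum]
      simp
    calc ∑ T' ∈ range (T + 1), ∑ g ∈ cfg (m + 1) T', (g.map φ).prod
        = ∑ T' ∈ range (T + 1), ∑ i ∈ range T',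
            φ i * ∑ g ∈ cfg m (T' - 1 - i), (g.map φ).prod := sum_congr rfl fun T' _ => e T'
      _ = ∑ T' ∈ range (T + 1), ∑ i ∈ range T',
            φ (T' - 1 - i) * ∑ g ∈ cfg m i, (g.map φ).prod := by
          refine sum_congr rfl fun T' _ => ?_
          rw [← sum_range_reflect]
          refine sum_congr rfl fun i hi => ?_
          have := mem_range.1 hi
          rw [show T' - 1 - (T' - 1 - i) = i by omega]
      _ = ∑ i ∈ range (T + 1), ∑ T' ∈ Ioc i T,
            φ (T' - 1 - i) * ∑ g ∈ cfg m i, (g.map φ).prod := by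
          refine sum_comm' fun x y => ?_
          simp only [mem_range, mem_Ioc]
          omega
      _ ≤ ∑ i ∈ range (T + 1), s * ∑ g ∈ cfg m i, (g.map φ).prod := by
          refine sum_le_sum fun i hi => ?_
          rw [← sum_mul]
          refine mul_le_mul_of_nonneg_right (le_trans ?_ hs) (hP i)
          calc ∑ T' ∈ Ioc i T, φ (T' - 1 - i)
              = ∑ j ∈ (Ioc i T).image (fun T' => T' - 1 - i), φ j := by
                refine (sum_image fun a ha b hb h => ?_).symm
                simp only [mem_coe, mem_Ioc] at ha hb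
                omega
            _ ≤ ∑ j ∈ range (T + 1), φ j := by
                refine sum_le_sum_of_subset_of_nonneg (fun j hj => ?_) fun j _ _ => hφ j
                simp only [mem_image, mem_Ioc] at hj
                obtain ⟨T', h1, rfl⟩ := hj
                rw [mem_range]; omega
      _ ≤ s ^ (m + 1 + 1) := by
          rw [← mul_sum, pow_succ' s (m + 1)]
          exact mul_le_mul_of_nonneg_left (sum_prod_cfg_le hφ m T hs)
            (le_trans (sum_nonneg fun j _ => hφ j) hs)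

lemma sum_dv_cfg_le {φ : ℕ → ℝ} (hφ : ∀ a, 0 ≤ φ a) {s : ℝ} : ∀ (m T : ℕ),
    ∑ i ∈ range (T + 1), φ i ≤ s → ∑ g ∈ cfg m T, dv φ g ≤ (m + 1) * s ^ m
  | 0, T, _ => by simp [cfg, dv]
  | m + 1, T, hs => by
    have hs0 : 0 ≤ s := le_trans (sum_nonneg fun j _ => hφ j) hs
    have hP : ∀ T', 0 ≤ ∑ g ∈ cfg m T', (g.map φ).prod := fun T' => sum_nonneg fun g _ =>
      List.prod_nonneg fun x hx => by
        obtain ⟨y, -, rfl⟩ := List.mem_map.1 hx
        exact hφ y
    rw [cfg, sum_biUnion (cfg_disjoint m T)]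
    calc ∑ i ∈ range T, ∑ g ∈ (cfg m (T - 1 - i)).image (List.cons i), dv φ g
        = ∑ i ∈ range T, ((∑ g ∈ cfg m (T - 1 - i), (g.map φ).prod)
            + φ i * ∑ g ∈ cfg m (T - 1 - i), dv φ g) := by
          refine sum_congr rfl fun i _ => ?_
          rw [sum_image (fun a _ b _ h => (List.cons.inj h).2), mul_sum, ← sum_add_distrib]
          rfl
      _ ≤ s ^ (m + 1) + s * ((m + 1) * s ^ m) := by
          rw [sum_add_distrib]
          refine add_le_add ?_ ?_
          · rw [sum_range_reflect (fun i => ∑ g ∈ cfg m i, (g.map φ).prod) T]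
            refine le_trans ?_ (sum_prod_cfg_le hφ m T hs)
            exact sum_le_sum_of_subset_of_nonneg (range_subset_range.2 (Nat.le_succ T))
              fun i _ _ => hP i
          · refine le_trans (sum_le_sum fun i hi => mul_le_mul_of_nonneg_left
              (sum_dv_cfg_le (s := s) hφ m (T - 1 - i) ?_) (hφ i)) ?_
            · exact le_trans (sum_le_sum_of_subset_of_nonneg
                (range_subset_range.2 (by omega)) fun j _ _ => hφ j) hs
            · rw [← sum_mul]
              refine mul_le_mul_of_nonneg_right (le_trans ?_ hs) (by positivity)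
              exact sum_le_sum_of_subset_of_nonneg (range_subset_range.2 (Nat.le_succ T))
                fun j _ _ => hφ j
      _ = (↑(m + 1) + 1) * s ^ (m + 1) := by push_cast; ring

variable {M : Type*} [Monoid M]

/-- The terms with exactly `k` defects are small. -/
theorem cE_bound {X G : MonoidAlgebra ℝ M} {h e s₀ : ℝ} {N a L R B : ℕ} {ω : Cf} {sg mg : ℕ → ℕ}
    {η : ℕ → ℝ} (hX : Prb X) (hG : Chi G X h) (hG0 : mass G = 0) (h0 : 0 ≤ h) (hω : Hom N ω)
    (hω0 : ω.coeff (FreeMonoid.ofList (List.replicate N false)) = 0)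
    (hΩ : nrm (ev X G ω) ≤ 1) (hm : ∀ g, 1 ≤ mg g)
    (hη : ∀ g, nrm (X ^ sg g * (X - 1)) ≤ η g) (he : ∀ g, 2 * mg g * η g ≤ e)
    (hL : L = 2 * a + N) {T : ℕ} (hT : ∀ g ≤ T, R * mg g ≤ B)
    (hfit : ∀ g, 2 * (R * sg g + R * mg g) ≤ (g + 1) * a) {k : ℕ} (hk : 1 ≤ k)
    (hkB : 2 * (k * B) ≤ a) (hs : ∑ g ∈ range (T + 1), 1 / (mg g : ℝ) ≤ s₀) :
    nrm (cE (X ^ L) (X ^ a * ev X G ω * X ^ a) k T)
      ≤ Real.sqrt ((k + 1) * (4 ^ R * 2 ^ N * qf h ω * s₀) ^ k)
        + (T + 1 : ℕ) ^ k * ((2 ^ (R + 2)) ^ k * e ^ R) := by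
  classical
  set φ : ℕ → ℝ := fun g => 1 / (mg g : ℝ)
  have hφ : ∀ g, 0 ≤ φ g := fun g => by positivity
  set Kq := 4 ^ R * 2 ^ N * qf h ω
  have hKq : 0 ≤ Kq := mul_nonneg (by positivity) (qf_nonneg h0 _)
  have key : ∀ g : List ℕ, ∃ c : Cf, g ∈ cfg k T → Hom (T * L) c
      ∧ (∀ w ∈ c.coeff.support, touched L (FreeMonoid.toList w) = (ks 0 g).toFinset)
      ∧ qf h c ≤ Kq ^ k * dv φ g
      ∧ nrm (val (X ^ L) (X ^ a * ev X G ω * X ^ a) g - ev X G c)
        ≤ (2 ^ (R + 2)) ^ k * e ^ R := by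
    intro g
    by_cases hg : g ∈ cfg k T
    swap
    · exact ⟨0, fun h => absurd h hg⟩
    obtain ⟨hlen, hle⟩ := mem_cfg hg
    have hne : g ≠ [] := fun h => by simp [h] at hlen
    obtain ⟨g1, x, g2, hsplit, hmax⟩ := exists_split_max hne
    have hp := pads_snd a L 0 g
    conv_rhs at hp => rw [hsplit]
    obtain ⟨l1, l', hl, h1, h'⟩ := List.map_eq_append_iff.1 hp
    obtain ⟨⟨D, x'⟩, l2, rfl, hx', h2⟩ := List.map_eq_cons_iff.1 h'
    dsimp only at hx'
    subst hx'
    have hlp := le_pads_zero a L (g := g) (by omega)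
    have hL' : ∀ d : ℕ, (d + 1) * a ≤ a + d * L := fun d => by
      rw [add_mul, one_mul, add_comm]
      exact Nat.add_le_add_left (Nat.mul_le_mul_left d (by omega)) a
    obtain ⟨c, hc1, hc2, hc3, hc4⟩ := leaf (B := B) (R := R) hX h0 hω hω0 hΩ hm hη he k l1 l2 D
      (by
        have e1 := congrArg List.length h1
        have e2 := congrArg List.length h2
        have e3 := congrArg List.length hsplit
        simp only [List.length_map] at e1 e2
        simp only [List.length_append, List.length_cons] at e3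
        omega)
      (by
        intro y hy
        have hy' : y ∈ pads a L 0 g := by
          rw [hl]
          rcases List.mem_append.1 hy with h | h
          · exact List.mem_append_left _ h
          · exact List.mem_append_right _ (List.mem_cons_of_mem _ h)
        have hyg : y.2 ∈ g := by
          have := List.mem_map_of_mem (f := Prod.snd) hy'
          rwa [pads_snd] at this
        have hD : (D, x') ∈ pads a L 0 g := by rw [hl]; simp
        have e1 := hlp y hy'
        have e2 : a + x' * L ≤ D := hlp _ hD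
        have e3 := hfit y.2
        have e4 := hL' y.2
        have e5 := hL' x'
        have e6 : (y.2 + 1) * a ≤ (x' + 1) * a :=
          Nat.mul_le_mul_right a (Nat.succ_le_succ (hmax _ hyg))
        have e7 : a ≤ (y.2 + 1) * a := Nat.le_mul_of_pos_left a (Nat.succ_pos _)
        exact ⟨by omega, by omega, hT _ (hle _ hyg)⟩)
    have hmap : l1.map Prod.fst ++ D :: l2.map Prod.fst = (pads a L 0 g).map Prod.fst := by
      simp [hl]
    rw [hmap] at hc1 hc2 hc4
    rw [tot_pads N a L hL k T g hg 0, zero_add] at hc1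
    rw [starts_pads N a L hL g 0 0 0 (by simp)] at hc2
    rw [chain_pads X (ev X G ω) a L 0 g hne, pow_zero, one_mul] at hc4
    refine ⟨c, fun _ => ⟨hc1, fun w hw => touched_eq hL (by omega) (hc2 w hw),
      hc3.trans (mul_le_mul_of_nonneg_left ?_ (pow_nonneg hKq k)), hc4⟩⟩
    rw [hsplit, ← h1, ← h2]
    have e1 : (l1 ++ l2).map (fun x => 1 / (mg x.2 : ℝ))
        = (l1.map Prod.snd ++ l2.map Prod.snd).map φ := by
      simp [φ, Function.comp_def]
    rw [e1]
    exact prod_le_dv hφ x' _ _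
  choose c hc using key
  set C := ∑ g ∈ cfg k T, c g with hC
  have hHom : Hom (T * L) C := hom_sum _ _ fun g hg => (hc g hg).1
  have hqf : qf h C ≤ (k + 1) * (Kq * s₀) ^ k := by
    rw [hC, qf_sum_eq_of_key h _ _ (fun w => touched L (FreeMonoid.toList w))
      (fun g => (ks 0 g).toFinset) (fun g hg g' hg' e => ks_inj k T 0 g g' hg hg' e)
      (fun g hg => (hc g hg).2.1)]
    refine (sum_le_sum fun g hg => (hc g hg).2.2.1).trans ?_
    rw [← mul_sum]
    refine (mul_le_mul_of_nonneg_left (sum_dv_cfg_le hφ k T hs) (pow_nonneg hKq k)).trans_eq ?_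
    rw [mul_left_comm, ← mul_pow]
  have h1 : nrm (ev X G C) ≤ Real.sqrt ((k + 1) * (Kq * s₀) ^ k) :=
    ((chi_ev hX hG hG0 h0 _ C hHom).nrm_le (hX.pow _) (qf_nonneg h0 _)).trans
      (Real.sqrt_le_sqrt hqf)
  have h2 : nrm (cE (X ^ L) (X ^ a * ev X G ω * X ^ a) k T - ev X G C)
      ≤ (T + 1 : ℕ) ^ k * ((2 ^ (R + 2)) ^ k * e ^ R) := by
    have he0 : 0 ≤ e := (mul_nonneg (mul_nonneg two_pos.le (Nat.cast_nonneg _))
      ((nrm_nonneg _).trans (hη 0))).trans (he 0)
    rw [cE_eq_sum, hC, map_sum, ← sum_sub_distrib]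
    refine (nrm_sum_le _ _).trans ((sum_le_sum fun g hg => (hc g hg).2.2.2).trans ?_)
    rw [sum_const, nsmul_eq_mul]
    refine mul_le_mul_of_nonneg_right ?_ (by positivity)
    exact_mod_cast card_cfg_le k T
  calc nrm (cE (X ^ L) (X ^ a * ev X G ω * X ^ a) k T)
      = nrm (ev X G C + (cE (X ^ L) (X ^ a * ev X G ω * X ^ a) k T - ev X G C)) := by
        rw [add_sub_cancel]
    _ ≤ _ := (nrm_add_le _ _).trans (add_le_add h1 h2)

end Vale.Agent.P321.Super
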