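import Vale.Agent.P321.Poly.Channel
import Vale.Agent.P321.Poly.Smoothing
import Mathlib.Algebra.Polynomial.Basic
import Mathlib.Algebra.MonoidAlgebra.Lift
import Mathlib.Data.Nat.Log
import Mathlib.Order.Filter.AtTopBot.Basic

/-! Definitions for the superpolynomial lower bound on worst-case trace reconstruction. -/

namespace Vale.Agent.P321.Super

open MonoidAlgebra Finset Filter Poly

variable {M : Type*}

/-- The pairing of a finitely supported measure with a function. -/
noncomputable def pair (μ : MonoidAlgebra ℝ M) (φ : M → ℝ) : ℝ :=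
  μ.coeff.sum fun a v => v * φ a

/-- `Chi μ P h`: the chi-square divergence of the signed measure `μ` relative to `P` is at most
`h`, in dual form. -/
def Chi (μ P : MonoidAlgebra ℝ M) (h : ℝ) : Prop :=
  ∀ φ : M → ℝ, (pair μ φ) ^ 2 ≤ h * pair P (fun a => φ a ^ 2)

/-- `Dom R P C err`: `R ≤ C • P` up to a nonnegative measure of norm at most `err`. -/
def Dom (R P : MonoidAlgebra ℝ M) (C err : ℝ) : Prop :=
  ∃ r : MonoidAlgebra ℝ M, (∀ a, 0 ≤ r.coeff a) ∧ nrm r ≤ err
    ∧ ∀ a, R.coeff a ≤ C * P.coeff a + r.coeff a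

/-- Laws of traces. -/
abbrev Tr := MonoidAlgebra ℝ (FreeMonoid Bool)

/-- Formal coefficient space: combinations of words in the letters `x` (false) and `e` (true). -/
abbrev Cf := MonoidAlgebra ℝ (FreeMonoid Bool)

/-- The letter for the law of a slot. -/
noncomputable def cx : Cf := single (FreeMonoid.of false) 1

/-- The letter for the perturbation of a slot. -/
noncomputable def ce : Cf := single (FreeMonoid.of true) 1

/-- All words of `c` have length `n`. -/
def Hom (n : ℕ) (c : Cf) : Prop := ∀ w ∈ c.coeff.support, (FreeMonoid.toList w).length = n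

/-- The quadratic form of the orthogonal expansion. -/
noncomputable def qf (h : ℝ) (c : Cf) : ℝ :=
  c.coeff.sum fun w v => v ^ 2 * h ^ (FreeMonoid.toList w).count true

/-- Evaluation of formal combinations. -/
noncomputable def ev [Monoid M] (X G : MonoidAlgebra ℝ M) : Cf →ₐ[ℝ] MonoidAlgebra ℝ M :=
  MonoidAlgebra.lift ℝ (MonoidAlgebra ℝ M) (FreeMonoid Bool)
    (FreeMonoid.lift fun b => cond b G X)

/-- Thue-Morse products in a monoid. -/
def tmP {S : Type*} [Mul S] (a b : S) : ℕ → S × S
  | 0 => (a, b)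
  | r + 1 => ((tmP a b r).1 * (tmP a b r).2, (tmP a b r).2 * (tmP a b r).1)

/-- The iterated commutator with powers of `x`. -/
def lin {S : Type*} [Ring S] (x e : S) : ℕ → S
  | 0 => e
  | r + 1 => lin x e r * x ^ 2 ^ r - x ^ 2 ^ r * lin x e r

/-- Apply a weight polynomial to a sequence. -/
noncomputable def app {α : Type*} [AddCommGroup α] [Module ℝ α] (w : Polynomial ℝ) (f : ℕ → α) :
    α :=
  w.sum fun l a => a • f l

/-- The uniform window `[0, m)`. -/
noncomputable def avgP (m : ℕ) : Polynomial ℝ :=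
  Polynomial.C (1 / (m : ℝ)) * ∑ l ∈ range m, Polynomial.X ^ l

/-- The smoothing kernel of order `r` built on windows of size `m`. -/
noncomputable def kerP (m r : ℕ) : Polynomial ℝ := 1 - (1 - avgP m) ^ r

/-- A logarithmic scale. -/
noncomputable def lg (t : ℕ) : ℝ := (Nat.log 2 t : ℝ) + 2

/-- `X` has smooth powers from `c` on. -/
def Smooth [Monoid M] (X : MonoidAlgebra ℝ M) (c : ℕ) : Prop :=
  nrm (X ^ (c + 1) - X ^ c) ≤ 1 / 4

/-- `Y - X` has small chi-square divergence relative to `X`, up to a tiny error. -/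
def Near (X Y : MonoidAlgebra ℝ M) (h β : ℝ) : Prop :=
  ∃ G : MonoidAlgebra ℝ M, mass G = 0 ∧ Chi G X h ∧ nrm (Y - X - G) ≤ β

/-- The properties carried by the recursion at scale `t`. -/
def Good (q : ℝ) (t w z K P E : ℕ) (A B : List Bool) : Prop :=
  A.length = B.length ∧ t ≤ A.length ∧ A.length ≤ t ^ E ∧ A ≠ B
    ∧ Smooth (law q A) (t ^ w)
    ∧ Near (law q A) (law q B) (1 / (t : ℝ) ^ z) (1 / (t : ℝ) ^ K)
    ∧ Dom (law q A) (law q B) (lg t ^ P) (1 / (t : ℝ) ^ K)
    ∧ Dom (law q B) (law q A) (lg t ^ P) (1 / (t : ℝ) ^ K)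

/-- The recursion state: smoothing exponent `w`, divergence exponent `z`. -/
def State (q : ℝ) (w z : ℕ) : Prop :=
  ∀ K : ℕ, ∃ P : ℕ, ∀ᶠ t : ℕ in atTop, ∃ A B : List Bool, Good q t w z K P (2 * w) A B

/-- The sea `(01)` with one short slot after `a` slots. -/
def baseA (a : ℕ) : List Bool :=
  rep a [false, true] ++ [false] ++ rep (a + 1) [false, true]

/-- The sea `(01)` with one short slot after `a + 1` slots. -/
def baseB (a : ℕ) : List Bool :=
  rep (a + 1) [false, true] ++ [false] ++ rep a [false, true]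

end Vale.Agent.P321.Super
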