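import Vale.Agent.P321.Super.GainMid

/-! One round of the construction: two levels and one gain of `t^m`. -/

namespace Vale.Agent.P321.Super

open MonoidAlgebra Finset Filter Poly

/-- The numerical side of the change of reference. -/
lemma ref_bound {t Q b : ℝ} {N m K lam : ℕ} (ht : 2 ≤ t) (hQ : 1 ≤ Q) (hQt : 2 * Q ≤ t)
    (hN : (N : ℝ) + 6 ≤ t) (hlam : 2 * K + 14 ≤ lam) (hb : b ≤ 2) :
    2 * t * Q * ((t ^ (2 * m)) * (2 * (1 / t ^ (2 * K + 2 * m + 14))) + b / t ^ lam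
      + N * (1 / t ^ (2 * K + 2 * m + 14))) ≤ 1 / t ^ (2 * K + 11) := by
  have ht1 : 1 ≤ t := by linarith
  have htpos : 0 < t := by linarith
  set u := 1 / t ^ (2 * K + 14) with hu
  have hu0 : 0 ≤ u := by positivity
  have e1 : t ^ (2 * m) * (2 * (1 / t ^ (2 * K + 2 * m + 14))) = 2 * u := by
    rw [hu, show 2 * K + 2 * m + 14 = 2 * K + 14 + 2 * m by ring, pow_add t (2 * K + 14)]
    field_simp
  have e2 : b / t ^ lam ≤ 2 * u := by
    rw [div_eq_mul_one_div]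
    exact mul_le_mul hb (htK_le ht1 hlam) (by positivity) two_pos.le
  have e3 : (N : ℝ) * (1 / t ^ (2 * K + 2 * m + 14)) ≤ N * u :=
    mul_le_mul_of_nonneg_left (htK_le ht1 (by omega)) (Nat.cast_nonneg N)
  rw [e1]
  calc 2 * t * Q * (2 * u + b / t ^ lam + N * (1 / t ^ (2 * K + 2 * m + 14)))
      ≤ 2 * t * Q * ((N + 6) * u) :=
        mul_le_mul_of_nonneg_left (by linarith [mul_nonneg (Nat.cast_nonneg (α := ℝ) N) hu0])
          (by positivity)
    _ ≤ t * t * (t * u) := by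
        refine mul_le_mul ?_ (mul_le_mul_of_nonneg_right hN hu0) (by positivity) (by positivity)
        calc 2 * t * Q = t * (2 * Q) := by ring
          _ ≤ t * t := mul_le_mul_of_nonneg_left hQt htpos.le
    _ = 1 / t ^ (2 * K + 11) := by
        rw [hu, show 2 * K + 14 = 2 * K + 11 + 3 by ring, pow_add t (2 * K + 11)]
        field_simp

theorem gain_state (q : ℝ) (h0 : 0 ≤ q) (h1 : q ≤ 1) {w z m : ℕ} (hz : w + 5 ≤ z)
    (hm : 4 * m + 2 ≤ z) (hm' : 2 * m ≤ 2 * w + 9) (hs : State q w z) :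
    State q (4 * w + 15) (4 * z + m - 4) := by
  intro K
  set R2 := K + 4 with hR2
  obtain ⟨K2', h2⟩ := level_core q h0 h1 (w := 2 * w + 5) (z := 2 * z - 1) (by omega) K R2 le_rfl
  set K1 := max K2' (2 * K + 2 * m + 14) with hK1
  set R1 := max (K1 + 4) (K + 2 * m + 8) with hR1
  obtain ⟨K', h1'⟩ := level_core q h0 h1 (w := w) (z := z) (by omega) K1 R1 (le_max_left _ _)
  set K'' := max K' (2 * K + 2 * m + 15) with hK''
  have hK''1 : 2 * K + 2 * m + 15 ≤ K'' := le_max_right _ _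
  obtain ⟨P, hP⟩ := hs K''
  obtain ⟨P1, hev1⟩ := h1' P (2 * w)
  obtain ⟨P2, hev2⟩ := h2 P1 (2 * w + w + 5)
  obtain ⟨C, hC, hmid⟩ := gain_mid w z m R1 R2 K K'' hm (le_max_right _ _) (by omega)
  set lam := 2 * K + 14 with hlam
  set PD := P * 2 ^ R1 with hPD
  refine ⟨P2, ?_⟩
  filter_upwards [hP, hev1, hev2, hmid, eventually_ge_atTop 2,
    eventually_const_le ((2 : ℝ) ^ R1), eventually_const_le (((2 ^ R2 : ℕ) : ℝ) + 6),
    eventually_const_le (2 * (28 * 2 ^ R2 : ℝ) ^ R2), eventually_const_le (2 * C),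
    eventually_const_le 30, eventually_ge_atTop (4 * R2),
    lg_pow_le ((PD + P1) * 2 ^ R2) (2 * C), lg_pow_le (PD * lam) (2 * lam * 2 ^ lam * C),
    lg_pow_le PD ((2 : ℝ) ^ R1)]
    with t hgood hlev1 hlev2 hmid ht2 htN1 htN2 htR2' htC2 ht30 htR2 htlg htlg2 htlg3
  obtain ⟨A, B, hg⟩ := hgood
  have ht1 : 1 ≤ t := by omega
  have g1 := hlev1 A B (hg.mono h0 h1 ht1 (le_max_left _ _) le_rfl)
  have g2 := hlev2 _ _ (g1.mono h0 h1 ht1 (le_max_left _ _) le_rfl)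
  rw [show 2 * (2 * w + 5) + 5 = 4 * w + 15 by ring] at g2
  set A1 := lvA (t ^ (w + 4)) R1 A B with hA1
  set B1 := lvB (t ^ (w + 4)) R1 A B with hB1
  set A2 := lvA (t ^ (2 * w + 5 + 4)) R2 A1 B1 with hA2
  set B2 := lvB (t ^ (2 * w + 5 + 4)) R2 A1 B1 with hB2
  refine ⟨A2, B2, g2.1, g2.2.1, g2.2.2.1.trans (Nat.pow_le_pow_right ht1 (by omega)), g2.2.2.2.1,
    g2.2.2.2.2.1, ?_, g2.2.2.2.2.2.2.1, g2.2.2.2.2.2.2.2⟩
  obtain ⟨-, -, -, -, hsm, ⟨G, hG0, hG, hβ⟩, hAB, hBA⟩ := hg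
  obtain ⟨-, -, -, -, hsm1, -, hAB1, hBA1⟩ := g1
  set X := law q A
  set Y := law q B
  set X1 := law q A1
  set Y1 := law q B1
  have hX : Prb X := prb_law h0 h1 A
  have hY : Prb Y := prb_law h0 h1 B
  have hX1 : Prb X1 := prb_law h0 h1 A1
  have hY1 : Prb Y1 := prb_law h0 h1 B1
  have eX1 := law_lvA (q := q) (t ^ (w + 4)) R1 A B
  have eY1 := law_lvB (q := q) (t ^ (w + 4)) R1 A B
  obtain ⟨hclose, μ, hμ, hμe⟩ := hmid X Y G hX hY hsm hG0 hG hβ X1 Y1 eX1 eY1 hX1 hY1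
  have ht : (2 : ℝ) ≤ t := by exact_mod_cast ht2
  have ht1' : (1 : ℝ) ≤ t := by linarith
  have htpos : (0 : ℝ) < t := by linarith
  have htK : ∀ {i j : ℕ}, i ≤ j → 1 / (t : ℝ) ^ j ≤ 1 / (t : ℝ) ^ i := htK_le ht1'
  have hlgD : ∀ k, (1 : ℝ) ≤ lg t ^ k := fun k => one_le_pow₀ (one_le_lg t)
  set a2 := t ^ (2 * w + 5 + 4) with ha2
  set d := t ^ (2 * m) with hd
  set L := 2 * t ^ (w + 4) + 2 ^ R1
  set p := a2 - d with hp
  have hda : d ≤ a2 := Nat.pow_le_pow_right ht1 (by omega)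
  have ea : a2 = p + d := by omega
  set n := d * L + 2 ^ R2 * L + d * L
  -- the reference
  set D := lg t ^ PD with hD
  set D1 := lg t ^ P1
  set e := 1 / (t : ℝ) ^ (2 * K + 2 * m + 14) with he
  have hXX : Dom (X ^ L) X1 D e := by
    obtain ⟨-, -, da, -, -, -⟩ := lv_dom hX hY (hlgD P) (show (0 : ℝ) ≤ 1 / (t : ℝ) ^ K'' by
      positivity) hAB hBA (t ^ (w + 4)) R1
    rw [← eX1, ← pow_mul] at da
    exact da.mono hX1.1 le_rfl (absorb ht1' htlg3 (by omega))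
  have hle1 : 1 / (t : ℝ) ^ K1 ≤ e := htK (le_max_right _ _)
  set δ := C / (t : ℝ) ^ (2 * m + 1)
  have href := ref_dom hX hX1 hY1 (hlgD PD) (hlgD P1) (show 0 ≤ e by positivity) ht1'
    L d p R2 lam (by omega) hXX (show nrm (X ^ L - X1) ≤ δ from hclose)
    (hAB1.mono hY1.1 le_rfl hle1) (hBA1.mono hX1.1 le_rfl hle1)
  rw [← ea, ← hD] at href
  have eX2 : law q A2 = X1 ^ a2 * (tmP X1 Y1 R2).1 * X1 ^ a2 := law_lvA a2 R2 A1 B1
  have eY2 : law q B2 = X1 ^ a2 * (tmP X1 Y1 R2).2 * X1 ^ a2 := law_lvB a2 R2 A1 B1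
  rw [← eX2] at href
  set Q := (D * D1) ^ 2 ^ R2 with hQdef
  have hQ : 1 ≤ Q := one_le_pow₀ (one_le_mul_of_one_le_of_one_le (hlgD PD) (hlgD P1))
  have hQlg : Q = lg t ^ ((PD + P1) * 2 ^ R2) := by
    simp only [hQdef, hD, D1, ← pow_add, ← pow_mul]
  rw [← hQlg] at htlg
  have hQC : 2 * Q ≤ 2 * C * Q := mul_le_mul_of_nonneg_right (by linarith) (by linarith)
  have hD0 : 0 ≤ D := zero_le_one.trans (hlgD PD)
  have hx0 : 0 ≤ (lam : ℝ) * (2 * D) ^ lam * δ := mul_nonneg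
    (mul_nonneg (Nat.cast_nonneg _) (pow_nonneg (by linarith) _))
    (div_nonneg (by linarith) (by positivity))
  have hbd : (1 + lam * (2 * D) ^ lam * δ) ^ d ≤ 2 := by
    have hx := hx0
    have hdx : (d : ℝ) * ((lam : ℝ) * (2 * D) ^ lam * δ) ≤ 1 / 2 := by
      have e1 : (d : ℝ) * ((lam : ℝ) * (2 * D) ^ lam * δ)
          = 2 * lam * 2 ^ lam * C * lg t ^ (PD * lam) / (2 * t) := by
        simp only [δ, hd, hD, mul_pow, ← pow_mul, Nat.cast_pow, pow_succ]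
        field_simp
      rw [e1, div_le_iff₀ (by positivity)]
      linarith
    exact (one_add_pow_le hx d hdx).trans (by linarith)
  have hrefe : Dom (X1 ^ p * X ^ n * X1 ^ p) (law q A2) (t * Q * t) (1 / (t : ℝ) ^ (2 * K + 11)) := by
    refine href.mono (prb_law h0 h1 A2).1 le_rfl ?_
    have := ref_bound (N := 2 ^ R2) (m := m) (K := K) (lam := lam) ht hQ (by linarith) htN2 le_rfl hbd
    rw [show ((t : ℝ) ^ (2 * m)) = (d : ℝ) by simp [hd]] at this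
    refine le_trans (le_of_eq ?_) this
    push_cast
    ring
  -- the difference
  set E1 := Y1 - X1 with hE1
  have hlin : nrm (X1 ^ a2 * lin X1 E1 R2 * X1 ^ a2) ≤ 1 / (t : ℝ) ^ (K + 3) := by
    have hE1n : nrm E1 ≤ 2 :=
      (nrm_sub_le _ _).trans (by rw [hY1.nrm_eq, hX1.nrm_eq]; norm_num)
    refine (lin_shrink (R := R2) hX1 hE1n (eta_bound hX1 ht1 hsm1 le_rfl) R2 le_rfl a2
      (pad_room htR2)).trans ?_
    rw [show (2 : ℝ) ^ R2 * (28 / (t : ℝ)) = 28 * 2 ^ R2 / t by ring, div_pow,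
      ← mul_div_assoc, div_eq_mul_one_div]
    exact absorb ht1' htR2' (by omega)
  have hdiff : law q B2 - law q A2
      = X1 ^ a2 * lin X1 E1 R2 * X1 ^ a2
        + X1 ^ p * (X1 ^ d * ev X1 E1 (tmU R2) * X1 ^ d) * X1 ^ p := by
    have e1 : ev X1 E1 (tmU R2) = (tmP X1 Y1 R2).2 - (tmP X1 Y1 R2).1 - lin X1 E1 R2 := by
      rw [tmU, map_sub, map_sub, (map_tmP (ev X1 E1) _ _ R2).1, (map_tmP (ev X1 E1) _ _ R2).2,
        map_lin, map_add, ev_cx, ev_ce, hE1, add_sub_cancel]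
    have e2 : ∀ U : Tr, X1 ^ p * (X1 ^ d * U * X1 ^ d) * X1 ^ p = X1 ^ a2 * U * X1 ^ a2 := by
      intro U
      conv_rhs => enter [2]; rw [ea, Nat.add_comm p d, pow_add]
      conv_rhs => rw [ea, pow_add]
      simp only [mul_assoc]
    rw [e2, eX2, eY2, e1]
    noncomm_ring
  have hne : nrm (law q B2 - law q A2 - X1 ^ p * μ * X1 ^ p) ≤ 3 / (t : ℝ) ^ (K + 3) := by
    rw [hdiff, show ∀ U V W : Tr, U + V - W = U + (V - W) from fun U V W => by abel,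
      ← sub_mul, ← mul_sub]
    refine (nrm_add_le _ _).trans ((add_le_add hlin ((nrm_pad_le hX1 p _).trans hμe)).trans_eq ?_)
    ring
  set ν := X1 ^ p * μ * X1 ^ p
  have hH0 : 0 ≤ C / (t : ℝ) ^ (4 * z + m) := by positivity
  have hν : Chi ν (X1 ^ p * X ^ n * X1 ^ p) (C / (t : ℝ) ^ (4 * z + m)) := by
    have := ((Chi.self (hX1.pow p)).mul hμ (hX.pow n).1 hH0).mul (Chi.self (hX1.pow p))
      (hX1.pow p).1 zero_le_one
    rwa [one_mul, mul_one] at this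
  have hmass : |mass ν| ≤ 3 / (t : ℝ) ^ (K + 3) := by
    have h2 := (abs_mass_le _).trans hne
    rwa [mass_sub, mass_sub, (prb_law h0 h1 A2).2, (prb_law h0 h1 B2).2, sub_self, zero_sub,
      abs_neg] at h2
  obtain ⟨G2, hG20, hG2, hG2e⟩ := dom_convert hν hH0 (((hX1.pow p).mul (hX.pow n)).mul (hX1.pow p))
    (prb_law h0 h1 A2) (one_le_mul_of_one_le_of_one_le
      (one_le_mul_of_one_le_of_one_le ht1' hQ) ht1') hrefe
  refine ⟨G2, hG20, hG2.mono (prb_law h0 h1 A2) ?_, ?_⟩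
  · rw [show 2 * (t * Q * t) * (C / (t : ℝ) ^ (4 * z + m))
      = 2 * C * Q * ((t : ℝ) * t / (t : ℝ) ^ (4 * z + m)) by ring]
    refine (mul_le_mul_of_nonneg_right htlg (by positivity)).trans ?_
    rw [show 4 * z + m = 4 * z + m - 4 + 4 by omega, pow_add, Nat.add_sub_cancel]
    rw [← mul_div_assoc, div_le_div_iff₀ (by positivity) (by positivity), one_mul,
      mul_comm ((t : ℝ) ^ (4 * z + m - 4))]
    refine mul_le_mul_of_nonneg_right ?_ (by positivity)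
    calc (t : ℝ) * (t * t) = (t : ℝ) ^ 3 := by ring
      _ ≤ (t : ℝ) ^ 4 := pow_le_pow_right₀ ht1' (by norm_num)
  · have hH1 : C / (t : ℝ) ^ (4 * z + m) ≤ 1 := by
      rw [div_le_one (by positivity)]
      calc C ≤ (t : ℝ) := by linarith
        _ ≤ (t : ℝ) ^ (4 * z + m) := le_self_pow₀ ht1' (by omega)
    have hsq : Real.sqrt (2 * (C / (t : ℝ) ^ (4 * z + m)) * (1 / (t : ℝ) ^ (2 * K + 11)))
        ≤ 1 / (t : ℝ) ^ (K + 3) := by
      rw [Real.sqrt_le_iff]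
      refine ⟨by positivity, ?_⟩
      calc _ ≤ 2 * 1 * (1 / (t : ℝ) ^ (2 * K + 11)) := by gcongr
        _ ≤ 1 / (t : ℝ) ^ (2 * (K + 3)) := absorb ht1' (by linarith) (by omega)
        _ = _ := by rw [div_pow, one_pow, ← pow_mul, Nat.mul_comm]
    rw [show law q B2 - law q A2 - G2 = (law q B2 - law q A2 - ν) + (ν - G2) by abel]
    refine (nrm_add_le _ _).trans ((add_le_add hne hG2e).trans ?_)
    rw [show (3 : ℝ) / (t : ℝ) ^ (K + 3) = 3 * (1 / (t : ℝ) ^ (K + 3)) by ring] at hmass ⊢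
    refine le_trans ?_ (absorb ht1' ht30 (show K + 1 ≤ K + 3 by omega))
    have h9 : 0 ≤ 1 / (t : ℝ) ^ (K + 3) := by positivity
    linarith

end Vale.Agent.P321.Super
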