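import Vale.Agent.P321.Super.Coef
import Mathlib.Algebra.Polynomial.Degree.Lemmas
import Mathlib.Algebra.Polynomial.BigOperators
import Mathlib.Algebra.Ring.GeomSum
import Mathlib.Algebra.BigOperators.Intervals

/-! Extrapolating a defect over a window of shifts. -/

namespace Vale.Agent.P321.Super

open MonoidAlgebra Finset Poly

variable {M : Type*} [Monoid M]

section app

variable {α β : Type*} [AddCommGroup α] [Module ℝ α] [AddCommGroup β] [Module ℝ β]

lemma app_eq_sum {w : Polynomial ℝ} {n : ℕ} (hn : w.natDegree < n) (f : ℕ → α) :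
    app w f = ∑ l ∈ range n, w.coeff l • f l :=
  Polynomial.sum_over_range' w (fun l => zero_smul ℝ (f l)) n hn

lemma app_add (v w : Polynomial ℝ) (f : ℕ → α) : app (v + w) f = app v f + app w f :=
  Polynomial.sum_add_index v w _ (fun l => zero_smul ℝ (f l)) fun l a b => add_smul a b (f l)

@[simp] lemma app_zero (f : ℕ → α) : app (0 : Polynomial ℝ) f = 0 := Polynomial.sum_zero_index _

lemma app_sub (v w : Polynomial ℝ) (f : ℕ → α) : app (v - w) f = app v f - app w f := by
  rw [eq_sub_iff_add_eq, ← app_add, sub_add_cancel]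

lemma app_one (f : ℕ → α) : app (1 : Polynomial ℝ) f = f 0 := by
  rw [app_eq_sum (n := 1) (by simp)]
  simp

lemma app_sum {ι : Type*} (s : Finset ι) (v : ι → Polynomial ℝ) (f : ℕ → α) :
    app (∑ i ∈ s, v i) f = ∑ i ∈ s, app (v i) f := by
  classical
  induction s using Finset.induction_on with
  | empty => simp
  | insert a s ha ih => rw [sum_insert ha, sum_insert ha, app_add, ih]

lemma app_monomial (j : ℕ) (a : ℝ) (f : ℕ → α) : app (Polynomial.monomial j a) f = a • f j :=
  Polynomial.sum_monomial_index a _ (zero_smul ℝ _)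

lemma app_C_mul (c : ℝ) (w : Polynomial ℝ) (f : ℕ → α) :
    app (Polynomial.C c * w) f = c • app w f := by
  induction w using Polynomial.induction_on' with
  | add v w hv hw => rw [mul_add, app_add, app_add, hv, hw, smul_add]
  | monomial j a => rw [Polynomial.C_mul_monomial, app_monomial, app_monomial, mul_smul]

lemma app_mul_X_pow (w : Polynomial ℝ) (j : ℕ) (f : ℕ → α) :
    app (w * Polynomial.X ^ j) f = app w fun l => f (l + j) := by
  induction w using Polynomial.induction_on' with
  | add v w hv hw => rw [add_mul, app_add, app_add, hv, hw]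
  | monomial i a =>
    rw [← Polynomial.monomial_one_right_eq_X_pow, Polynomial.monomial_mul_monomial, mul_one,
      app_monomial, app_monomial]

lemma app_congr {w : Polynomial ℝ} {f g : ℕ → α} (h : ∀ l ≤ w.natDegree, f l = g l) :
    app w f = app w g := by
  refine sum_congr rfl fun l hl => ?_
  dsimp only
  rw [h l (Polynomial.le_natDegree_of_mem_supp l hl)]

lemma app_map (φ : α →ₗ[ℝ] β) (w : Polynomial ℝ) (f : ℕ → α) :
    φ (app w f) = app w fun l => φ (f l) := by
  simp [app, Polynomial.sum_def, map_sum]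

lemma app_sub_fun (w : Polynomial ℝ) (f g : ℕ → α) :
    app w (fun l => f l - g l) = app w f - app w g := by
  simp [app, Polynomial.sum_def, smul_sub, sum_sub_distrib]

lemma app_smul_fun (c : ℝ) (w : Polynomial ℝ) (f : ℕ → α) :
    app w (fun l => c • f l) = c • app w f := by
  simp only [app, Polynomial.sum_def, smul_sum]
  exact sum_congr rfl fun l _ => smul_comm _ _ _

lemma app_sum_fun {ι : Type*} (w : Polynomial ℝ) (s : Finset ι) (f : ι → ℕ → α) :
    app w (fun l => ∑ i ∈ s, f i l) = ∑ i ∈ s, app w (f i) := by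
  simp only [app, Polynomial.sum_def, smul_sum]
  exact sum_comm

end app

omit [Monoid M] in
lemma nrm_app_le {w : Polynomial ℝ} {n : ℕ} (hn : w.natDegree < n)
    {f : ℕ → MonoidAlgebra ℝ M} {b : ℝ} (hf : ∀ l < n, nrm (f l) ≤ b) :
    nrm (app w f) ≤ (∑ l ∈ range n, |w.coeff l|) * b := by
  rw [app_eq_sum hn, sum_mul]
  refine (nrm_sum_le _ _).trans (sum_le_sum fun l hl => ?_)
  rw [nrm_smul]
  exact mul_le_mul_of_nonneg_left (hf l (mem_range.1 hl)) (abs_nonneg _)

lemma avgP_natDegree (m : ℕ) : (avgP m).natDegree ≤ m - 1 := by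
  refine (Polynomial.natDegree_C_mul_le _ _).trans
    (Polynomial.natDegree_sum_le_of_forall_le _ _ fun l hl => ?_)
  rw [Polynomial.natDegree_X_pow]
  have := mem_range.1 hl
  omega

lemma one_sub_avgP_pow_natDegree (m r : ℕ) :
    ((1 - avgP m) ^ r).natDegree ≤ r * (m - 1) := by
  refine Polynomial.natDegree_pow_le.trans (Nat.mul_le_mul_left r ?_)
  refine (Polynomial.natDegree_sub_le _ _).trans ?_
  simp [avgP_natDegree m]

lemma kerP_natDegree (m r : ℕ) : (kerP m r).natDegree ≤ r * m := by
  refine (Polynomial.natDegree_sub_le _ _).trans ?_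
  simp only [Polynomial.natDegree_one]
  exact max_le (Nat.zero_le _)
    ((one_sub_avgP_pow_natDegree m r).trans (Nat.mul_le_mul_left r (Nat.sub_le m 1)))

/-- The mass of the first `n` coefficients. -/
noncomputable def pre (n : ℕ) (w : Polynomial ℝ) : ℝ := ∑ l ∈ range n, |w.coeff l|

lemma pre_nonneg (n : ℕ) (w : Polynomial ℝ) : 0 ≤ pre n w := sum_nonneg fun _ _ => abs_nonneg _

lemma pre_mono {m n : ℕ} (h : m ≤ n) (w : Polynomial ℝ) : pre m w ≤ pre n w :=
  sum_le_sum_of_subset_of_nonneg (range_subset_range.2 h) fun _ _ _ => abs_nonneg _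

lemma pre_sub_le (n : ℕ) (v w : Polynomial ℝ) : pre n (v - w) ≤ pre n v + pre n w := by
  rw [pre, pre, pre, ← sum_add_distrib]
  exact sum_le_sum fun l _ => by rw [Polynomial.coeff_sub]; exact abs_sub _ _

lemma pre_one_le (n : ℕ) : pre n (1 : Polynomial ℝ) ≤ 1 := by
  simp only [pre, Polynomial.coeff_one, apply_ite abs, abs_one, abs_zero]
  rw [sum_ite_eq']
  split_ifs <;> norm_num

lemma pre_mul_le (n : ℕ) (v w : Polynomial ℝ) : pre n (v * w) ≤ pre n v * pre n w := by
  calc pre n (v * w) ≤ ∑ l ∈ range n, ∑ k ∈ range (l + 1), |v.coeff k| * |w.coeff (l - k)| := by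
        refine sum_le_sum fun l _ => ?_
        rw [Polynomial.coeff_mul, Nat.sum_antidiagonal_eq_sum_range_succ
          (fun i j => v.coeff i * w.coeff j)]
        exact (abs_sum_le_sum_abs _ _).trans_eq (sum_congr rfl fun k _ => abs_mul _ _)
    _ = ∑ k ∈ range n, ∑ j ∈ range (n - k), |v.coeff k| * |w.coeff j| :=
        sum_range_diag_flip n fun k j => |v.coeff k| * |w.coeff j|
    _ ≤ pre n v * pre n w := by
        rw [pre, pre, sum_mul]
        refine sum_le_sum fun k _ => ?_
        rw [← mul_sum]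
        exact mul_le_mul_of_nonneg_left (pre_mono (Nat.sub_le n k) w) (abs_nonneg _)

lemma coeff_avgP (m l : ℕ) : (avgP m).coeff l = if l < m then 1 / (m : ℝ) else 0 := by
  simp [avgP, Polynomial.coeff_C_mul, Polynomial.finsetSum_coeff, Polynomial.coeff_X_pow]

lemma pre_avgP_le (n m : ℕ) : pre n (avgP m) ≤ 1 := by
  rcases Nat.eq_zero_or_pos m with rfl | hm
  · simp [pre, coeff_avgP]
  calc pre n (avgP m) ≤ pre (max n m) (avgP m) := pre_mono (le_max_left _ _) _
    _ = ∑ l ∈ range m, 1 / (m : ℝ) := by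
        rw [pre, ← sum_subset (range_subset_range.2 (le_max_right n m))]
        · refine sum_congr rfl fun l hl => ?_
          rw [coeff_avgP, if_pos (mem_range.1 hl), abs_of_nonneg (by positivity)]
        · intro l _ hl
          rw [coeff_avgP, if_neg (by simpa using hl), abs_zero]
    _ = 1 := by
        have : (m : ℝ) ≠ 0 := by positivity
        simp [this]

lemma pre_one_sub_avgP_pow_le (n m : ℕ) : ∀ i, pre n ((1 - avgP m) ^ i) ≤ 2 ^ i
  | 0 => by simpa using pre_one_le n
  | i + 1 => by
    rw [pow_succ, pow_succ]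
    refine (pre_mul_le _ _ _).trans (mul_le_mul (pre_one_sub_avgP_pow_le n m i) ?_
      (pre_nonneg _ _) (by positivity))
    linarith [pre_sub_le n 1 (avgP m), pre_one_le n, pre_avgP_le n m]

lemma kerP_eq (m r : ℕ) : kerP m r = avgP m * ∑ i ∈ range r, (1 - avgP m) ^ i := by
  have := mul_neg_geom_sum (1 - avgP m) r
  rw [sub_sub_cancel] at this
  exact this.symm

lemma pre_geom_le (n m r : ℕ) : pre n (∑ i ∈ range r, (1 - avgP m) ^ i) ≤ 2 ^ r := by
  calc pre n (∑ i ∈ range r, (1 - avgP m) ^ i)
      ≤ ∑ i ∈ range r, pre n ((1 - avgP m) ^ i) := by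
        simp only [pre, Polynomial.finsetSum_coeff]
        rw [sum_comm]
        exact sum_le_sum fun l _ => abs_sum_le_sum_abs _ _
    _ ≤ ∑ i ∈ range r, (2 : ℝ) ^ i := sum_le_sum fun i _ => pre_one_sub_avgP_pow_le n m i
    _ ≤ 2 ^ r := by
        induction r with
        | zero => simp
        | succ r ih => rw [sum_range_succ, pow_succ]; linarith

lemma pre_kerP_le (n m r : ℕ) : pre n (kerP m r) ≤ 2 ^ r := by
  rw [kerP_eq]
  exact (pre_mul_le _ _ _).trans (by
    simpa using mul_le_mul (pre_avgP_le n m) (pre_geom_le n m r) (pre_nonneg _ _) zero_le_one)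

lemma kerP_sum_abs (m r : ℕ) (hm : 1 ≤ m) :
    ∑ l ∈ range (r * m + 1), |(kerP m r).coeff l| ≤ 2 ^ (r + 1) := by
  refine (pre_kerP_le (r * m + 1) m r).trans ?_
  rw [pow_succ]
  linarith [pow_pos (show (0 : ℝ) < 2 by norm_num) r]

lemma kerP_sum_sq (m r : ℕ) (hm : 1 ≤ m) :
    ∑ l ∈ range (r * m + 1), (kerP m r).coeff l ^ 2 ≤ 4 ^ r / (m : ℝ) := by
  set n := r * m + 1
  have hsup : ∀ l < n, |(kerP m r).coeff l| ≤ 2 ^ r / (m : ℝ) := by
    intro l hl
    rw [kerP_eq, Polynomial.coeff_mul, Nat.sum_antidiagonal_eq_sum_range_succ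
      (fun i j => (avgP m).coeff i * (∑ i ∈ range r, (1 - avgP m) ^ i).coeff j)]
    set w := ∑ i ∈ range r, (1 - avgP m) ^ i
    refine (abs_sum_le_sum_abs _ _).trans ?_
    calc ∑ k ∈ range (l + 1), |(avgP m).coeff k * w.coeff (l - k)|
        ≤ ∑ k ∈ range (l + 1), 1 / (m : ℝ) * |w.coeff (l - k)| := by
          refine sum_le_sum fun k _ => ?_
          rw [abs_mul]
          refine mul_le_mul_of_nonneg_right ?_ (abs_nonneg _)
          rw [coeff_avgP]
          split_ifs
          · exact (abs_of_nonneg (by positivity)).le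
          · simp
      _ = 1 / (m : ℝ) * pre (l + 1) w := by
          rw [← mul_sum, pre]
          congr 1
          have := sum_range_reflect (fun k => |w.coeff k|) (l + 1)
          simpa using this
      _ ≤ 1 / (m : ℝ) * 2 ^ r := by
          exact mul_le_mul_of_nonneg_left (pre_geom_le _ _ _) (by positivity)
      _ = _ := by ring
  calc ∑ l ∈ range n, (kerP m r).coeff l ^ 2
      ≤ ∑ l ∈ range n, 2 ^ r / (m : ℝ) * |(kerP m r).coeff l| := by
        refine sum_le_sum fun l hl => ?_
        rw [← sq_abs, sq]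
        exact mul_le_mul_of_nonneg_right (hsup l (mem_range.1 hl)) (abs_nonneg _)
    _ ≤ 2 ^ r / (m : ℝ) * 2 ^ r := by
        rw [← mul_sum]
        exact mul_le_mul_of_nonneg_left (pre_kerP_le n m r) (by positivity)
    _ = 4 ^ r / (m : ℝ) := by
        rw [show (4 : ℝ) = 2 * 2 by norm_num, mul_pow]; ring

lemma nrm_pow_mul_pow_sub_one_le' {X : MonoidAlgebra ℝ M} (hX : Prb X) {η : ℝ} {s m j : ℕ}
    (hη : nrm (X ^ s * (X - 1)) ≤ η) (hj : j ≤ m) :
    nrm (X ^ s * (X ^ j - 1)) ≤ m * η := by
  have hη0 : 0 ≤ η := (nrm_nonneg _).trans hη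
  refine (nrm_pow_mul_pow_sub_one_le hX s j).trans ?_
  calc (j : ℝ) * nrm (X ^ s * (X - 1)) ≤ j * η := mul_le_mul_of_nonneg_left hη (Nat.cast_nonneg j)
    _ ≤ m * η := mul_le_mul_of_nonneg_right (Nat.cast_le.2 hj) hη0

lemma app_one_sub_avgP_mul {α : Type*} [AddCommGroup α] [Module ℝ α] {m : ℕ} (hm : 1 ≤ m)
    (p : Polynomial ℝ) (g : ℕ → α) :
    app (p * (1 - avgP m)) g
      = app p fun l => (1 / (m : ℝ)) • ∑ j ∈ range m, (g l - g (l + j)) := by
  have hm0 : (m : ℝ) ≠ 0 := by positivity
  rw [mul_sub, mul_one, app_sub, avgP, ← mul_assoc, mul_comm p, mul_assoc, app_C_mul, mul_sum,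
    app_sum]
  simp only [app_mul_X_pow]
  rw [← app_sum_fun, ← app_smul_fun, ← app_sub_fun]
  refine app_congr fun l _ => ?_
  rw [sum_sub_distrib, sum_const, card_range, smul_sub, ← Nat.cast_smul_eq_nsmul ℝ, smul_smul,
    one_div_mul_cancel hm0, one_smul]

/-- Iterated differences of a defect moving to the right. -/
lemma diff_right {X : MonoidAlgebra ℝ M} (hX : Prb X) {η : ℝ} {s m : ℕ} (hm : 1 ≤ m)
    (hη : nrm (X ^ s * (X - 1)) ≤ η) : ∀ (r : ℕ) (Ω : MonoidAlgebra ℝ M) (P Q : ℕ),
    r * s ≤ P → r * s + r * m ≤ Q →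
    nrm (app ((1 - avgP m) ^ r) fun l => X ^ (P + l) * Ω * X ^ (Q - l))
      ≤ (2 * m * η) ^ r * nrm Ω
  | 0, Ω, P, Q, _, _ => by
    rw [pow_zero, pow_zero, app_one, one_mul, Nat.add_zero, Nat.sub_zero]
    exact (nrm_mul_prb_le (hX.pow _)).trans (nrm_prb_mul_le (hX.pow _))
  | r + 1, Ω, P, Q, hP, hQ => by
    have hη0 : 0 ≤ η := (nrm_nonneg _).trans hη
    have hm0 : (0 : ℝ) < m := by exact_mod_cast hm
    rw [add_mul, one_mul] at hP
    rw [add_mul, one_mul, add_mul, one_mul] at hQ
    have hdeg := (one_sub_avgP_pow_natDegree m r).trans (Nat.mul_le_mul_left r (Nat.sub_le m 1))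
    set U := fun j => X ^ s * (X ^ j - 1) with hU
    have key : ∀ j < m, nrm (app ((1 - avgP m) ^ r) fun l =>
          X ^ (P + l) * Ω * X ^ (Q - l) - X ^ (P + (l + j)) * Ω * X ^ (Q - (l + j)))
        ≤ 2 * ((2 * m * η) ^ r * (m * η * nrm Ω)) := by
      intro j hj
      have e : app ((1 - avgP m) ^ r) (fun l =>
            X ^ (P + l) * Ω * X ^ (Q - l) - X ^ (P + (l + j)) * Ω * X ^ (Q - (l + j)))
          = app ((1 - avgP m) ^ r) (fun l => X ^ (P + l) * (Ω * U j) * X ^ (Q - j - s - l))
            - app ((1 - avgP m) ^ r) (fun l => X ^ (P - s + l) * (U j * Ω) * X ^ (Q - j - l)) := by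
        rw [← app_sub_fun]
        refine app_congr fun l hl => ?_
        have hl' := hl.trans hdeg
        have e1 : X ^ (P + l) * (Ω * U j) * X ^ (Q - j - s - l)
            = X ^ (P + l) * Ω * X ^ (Q - l) - X ^ (P + l) * Ω * X ^ (Q - (l + j)) := by
          rw [hU]
          simp only [mul_sub, sub_mul, mul_one, mul_assoc, ← pow_add]
          rw [show s + j + (Q - j - s - l) = Q - l by omega,
            show s + (Q - j - s - l) = Q - (l + j) by omega]
        have e2 : X ^ (P - s + l) * (U j * Ω) * X ^ (Q - j - l)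
            = X ^ (P + (l + j)) * Ω * X ^ (Q - (l + j)) - X ^ (P + l) * Ω * X ^ (Q - (l + j)) := by
          rw [hU]
          simp only [mul_sub, sub_mul, mul_one, ← mul_assoc, ← pow_add]
          rw [show P - s + l + (s + j) = P + (l + j) by omega,
            show P - s + l + s = P + l by omega, show Q - j - l = Q - (l + j) by omega]
        rw [e1, e2]
        abel
      rw [e]
      refine (nrm_sub_le _ _).trans ?_
      have hUj : nrm (U j) ≤ m * η := nrm_pow_mul_pow_sub_one_le' hX hη hj.le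
      have b1 := diff_right hX hm hη r (Ω * U j) P (Q - j - s) (by omega) (by omega)
      have b2 := diff_right hX hm hη r (U j * Ω) (P - s) (Q - j) (by omega) (by omega)
      have c1 : nrm (Ω * U j) ≤ m * η * nrm Ω :=
        (nrm_mul_le _ _).trans (by nlinarith [nrm_nonneg Ω])
      have c2 : nrm (U j * Ω) ≤ m * η * nrm Ω :=
        (nrm_mul_le _ _).trans (by nlinarith [nrm_nonneg Ω])
      have hp : 0 ≤ (2 * m * η) ^ r := by positivity
      linarith [mul_le_mul_of_nonneg_left c1 hp, mul_le_mul_of_nonneg_left c2 hp]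
    rw [pow_succ, app_one_sub_avgP_mul hm, app_smul_fun, app_sum_fun, nrm_smul,
      abs_of_pos (by positivity)]
    refine (mul_le_mul_of_nonneg_left ((nrm_sum_le _ _).trans
      (sum_le_sum fun j hj => key j (mem_range.1 hj))) (by positivity)).trans_eq ?_
    rw [sum_const, card_range, nsmul_eq_mul, pow_succ]
    field_simp

/-- Iterated differences of a defect moving to the left. -/
lemma diff_left {X : MonoidAlgebra ℝ M} (hX : Prb X) {η : ℝ} {s m : ℕ} (hm : 1 ≤ m)
    (hη : nrm (X ^ s * (X - 1)) ≤ η) : ∀ (r : ℕ) (Ω : MonoidAlgebra ℝ M) (P Q : ℕ),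
    r * s + r * m ≤ P → r * s ≤ Q →
    nrm (app ((1 - avgP m) ^ r) fun l => X ^ (P - l) * Ω * X ^ (Q + l))
      ≤ (2 * m * η) ^ r * nrm Ω
  | 0, Ω, P, Q, _, _ => by
    rw [pow_zero, pow_zero, app_one, one_mul, Nat.add_zero, Nat.sub_zero]
    exact (nrm_mul_prb_le (hX.pow _)).trans (nrm_prb_mul_le (hX.pow _))
  | r + 1, Ω, P, Q, hP, hQ => by
    have hη0 : 0 ≤ η := (nrm_nonneg _).trans hη
    have hm0 : (0 : ℝ) < m := by exact_mod_cast hm
    rw [add_mul, one_mul] at hQ
    rw [add_mul, one_mul, add_mul, one_mul] at hP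
    have hdeg := (one_sub_avgP_pow_natDegree m r).trans (Nat.mul_le_mul_left r (Nat.sub_le m 1))
    set U := fun j => X ^ s * (X ^ j - 1) with hU
    have key : ∀ j < m, nrm (app ((1 - avgP m) ^ r) fun l =>
          X ^ (P - l) * Ω * X ^ (Q + l) - X ^ (P - (l + j)) * Ω * X ^ (Q + (l + j)))
        ≤ 2 * ((2 * m * η) ^ r * (m * η * nrm Ω)) := by
      intro j hj
      have e : app ((1 - avgP m) ^ r) (fun l =>
            X ^ (P - l) * Ω * X ^ (Q + l) - X ^ (P - (l + j)) * Ω * X ^ (Q + (l + j)))
          = app ((1 - avgP m) ^ r) (fun l => X ^ (P - j - s - l) * (U j * Ω) * X ^ (Q + l))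
            - app ((1 - avgP m) ^ r) (fun l => X ^ (P - j - l) * (Ω * U j) * X ^ (Q - s + l)) := by
        rw [← app_sub_fun]
        refine app_congr fun l hl => ?_
        have hl' := hl.trans hdeg
        have e1 : X ^ (P - j - s - l) * (U j * Ω) * X ^ (Q + l)
            = X ^ (P - l) * Ω * X ^ (Q + l) - X ^ (P - (l + j)) * Ω * X ^ (Q + l) := by
          rw [hU]
          simp only [mul_sub, sub_mul, mul_one, ← mul_assoc, ← pow_add]
          rw [show P - j - s - l + (s + j) = P - l by omega,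
            show P - j - s - l + s = P - (l + j) by omega]
        have e2 : X ^ (P - j - l) * (Ω * U j) * X ^ (Q - s + l)
            = X ^ (P - (l + j)) * Ω * X ^ (Q + (l + j)) - X ^ (P - (l + j)) * Ω * X ^ (Q + l) := by
          rw [hU]
          simp only [mul_sub, sub_mul, mul_one, mul_assoc, ← pow_add]
          rw [show s + j + (Q - s + l) = Q + (l + j) by omega,
            show s + (Q - s + l) = Q + l by omega, show P - j - l = P - (l + j) by omega]
        rw [e1, e2]
        abel
      rw [e]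
      refine (nrm_sub_le _ _).trans ?_
      have hUj : nrm (U j) ≤ m * η := nrm_pow_mul_pow_sub_one_le' hX hη hj.le
      have b1 := diff_left hX hm hη r (U j * Ω) (P - j - s) Q (by omega) (by omega)
      have b2 := diff_left hX hm hη r (Ω * U j) (P - j) (Q - s) (by omega) (by omega)
      have c1 : nrm (U j * Ω) ≤ m * η * nrm Ω :=
        (nrm_mul_le _ _).trans (by nlinarith [nrm_nonneg Ω])
      have c2 : nrm (Ω * U j) ≤ m * η * nrm Ω :=
        (nrm_mul_le _ _).trans (by nlinarith [nrm_nonneg Ω])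
      have hp : 0 ≤ (2 * m * η) ^ r := by positivity
      linarith [mul_le_mul_of_nonneg_left c1 hp, mul_le_mul_of_nonneg_left c2 hp]
    rw [pow_succ, app_one_sub_avgP_mul hm, app_smul_fun, app_sum_fun, nrm_smul,
      abs_of_pos (by positivity)]
    refine (mul_le_mul_of_nonneg_left ((nrm_sum_le _ _).trans
      (sum_le_sum fun j hj => key j (mem_range.1 hj))) (by positivity)).trans_eq ?_
    rw [sum_const, card_range, nsmul_eq_mul, pow_succ]
    field_simp

/-- Moving a defect to the right inside pure pads. -/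
theorem extrap_right {X : MonoidAlgebra ℝ M} (hX : Prb X) (Ω : MonoidAlgebra ℝ M) {η : ℝ}
    {s m r P Q : ℕ} (hm : 1 ≤ m) (hη : nrm (X ^ s * (X - 1)) ≤ η) (hP : r * s ≤ P)
    (hQ : r * s + r * m ≤ Q) :
    nrm (X ^ P * Ω * X ^ Q - app (kerP m r) fun l => X ^ (P + l) * Ω * X ^ (Q - l))
      ≤ (2 * m * η) ^ r * nrm Ω := by
  rw [kerP, app_sub, app_one, Nat.add_zero, Nat.sub_zero, sub_sub_cancel]
  exact diff_right hX hm hη r Ω P Q hP hQ

/-- Moving a defect to the left inside pure pads. -/
theorem extrap_left {X : MonoidAlgebra ℝ M} (hX : Prb X) (Ω : MonoidAlgebra ℝ M) {η : ℝ}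
    {s m r P Q : ℕ} (hm : 1 ≤ m) (hη : nrm (X ^ s * (X - 1)) ≤ η) (hP : r * s + r * m ≤ P)
    (hQ : r * s ≤ Q) :
    nrm (X ^ P * Ω * X ^ Q - app (kerP m r) fun l => X ^ (P - l) * Ω * X ^ (Q + l))
      ≤ (2 * m * η) ^ r * nrm Ω := by
  rw [kerP, app_sub, app_one, Nat.add_zero, Nat.sub_zero, sub_sub_cancel]
  exact diff_left hX hm hη r Ω P Q hP hQ

lemma cx_pow (k : ℕ) : cx ^ k = single (FreeMonoid.ofList (List.replicate k false)) 1 := by
  induction k with
  | zero => simp [one_def]
  | succ k ih =>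
    rw [pow_succ, ih, cx, single_mul_single, mul_one]
    congr 1
    apply FreeMonoid.toList.injective
    simp [List.replicate_succ']

lemma eq_replicate_false : ∀ {l : List Bool}, true ∉ l → l = List.replicate l.length false
  | [], _ => rfl
  | true :: l, h => absurd List.mem_cons_self h
  | false :: l, h => by
    rw [List.length_cons, List.replicate_succ,
      ← eq_replicate_false fun h' => h (List.mem_cons_of_mem _ h')]

lemma mem_true_of_mem_support {n : ℕ} {c : Cf} (hc : Hom n c)
    (hc0 : c.coeff (FreeMonoid.ofList (List.replicate n false)) = 0) {u : FreeMonoid Bool}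
    (hu : u ∈ c.coeff.support) : true ∈ FreeMonoid.toList u := by
  by_contra h
  refine Finsupp.mem_support_iff.1 hu ?_
  rw [← hc u hu, ← eq_replicate_false h] at hc0
  simpa using hc0

lemma card_support_le {n : ℕ} {c : Cf} (hc : Hom n c) :
    (c.coeff.support.card : ℝ) ≤ 2 ^ n := by
  have h := card_le_card_of_injOn (fun u (i : Fin n) => (FreeMonoid.toList u).getD i false)
    (t := (univ : Finset (Fin n → Bool))) (fun _ _ => mem_univ _) (s := c.coeff.support) (by
      intro u hu v hv e
      apply FreeMonoid.toList.injective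
      refine List.ext_getElem ((hc u hu).trans (hc v hv).symm) fun i hi hi' => ?_
      have := congrFun e ⟨i, hc u hu ▸ hi⟩
      simpa [List.getD, hi, hi'] using this)
  have h2 : c.coeff.support.card ≤ 2 ^ n := by simpa using h
  exact_mod_cast h2

lemma eq_sum_single (c : Cf) : c = ∑ u ∈ c.coeff.support, single u (c.coeff u) := by
  classical
  ext w
  simp [coeff_sum, Finsupp.finsetSum_apply, Finsupp.single_apply, eq_comm]

/-- Combinations with separated supports add up. -/
lemma qf_sum_eq_of_key {ι κ : Type*} (h : ℝ) (s : Finset ι) (f : ι → Cf)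
    (key : FreeMonoid Bool → κ) (val : ι → κ) (hval : Set.InjOn val s)
    (hkey : ∀ i ∈ s, ∀ w ∈ (f i).coeff.support, key w = val i) :
    qf h (∑ i ∈ s, f i) = ∑ i ∈ s, qf h (f i) := by
  classical
  induction s using Finset.induction_on with
  | empty => simp
  | insert a s ha ih =>
    rw [sum_insert ha, sum_insert ha, ← ih (hval.mono (by simp)) fun i hi =>
      hkey i (mem_insert_of_mem hi)]
    set d := ∑ i ∈ s, f i
    have hdis : Disjoint (f a).coeff.support d.coeff.support := by
      rw [disjoint_left]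
      intro w hw hw'
      obtain ⟨i, hi, hwi⟩ : ∃ i ∈ s, w ∈ (f i).coeff.support := by
        by_contra hn
        push Not at hn
        refine Finsupp.mem_support_iff.1 hw' ?_
        simp only [d, coeff_sum, Finsupp.finsetSum_apply]
        exact sum_eq_zero fun i hi => by simpa using hn i hi
      have e := (hkey a (mem_insert_self a s) w hw).symm.trans
        (hkey i (mem_insert_of_mem hi) w hwi)
      exact ha (hval (mem_coe.2 (mem_insert_self a s)) (mem_coe.2 (mem_insert_of_mem hi)) e ▸ hi)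
    rw [qf_eq_sum (c := f a + d) (s := (f a).coeff.support ∪ d.coeff.support)
      (by rw [coeff_add]; exact Finsupp.support_add), sum_union hdis, qf, qf, Finsupp.sum,
      Finsupp.sum]
    congr 1
    · refine sum_congr rfl fun w hw => ?_
      have : d.coeff w = 0 := by simpa using disjoint_left.1 hdis hw
      simp [this]
    · refine sum_congr rfl fun w hw => ?_
      have : (f a).coeff w = 0 := by simpa using disjoint_right.1 hdis hw
      simp [this]

lemma mem_support_mul {a b : Cf} {w : FreeMonoid Bool} (hw : w ∈ (a * b).coeff.support) :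
    ∃ u ∈ a.coeff.support, ∃ v ∈ b.coeff.support, w = u * v := by
  classical
  by_contra hn
  push Not at hn
  refine Finsupp.mem_support_iff.1 hw ?_
  rw [mul_eq_sum]
  simp only [coeff_sum, Finsupp.finsetSum_apply, coeff_single]
  exact sum_eq_zero fun u hu => sum_eq_zero fun v hv =>
    Finsupp.single_eq_of_ne (hn u hu v hv)

/-- Averaging over shifts of a defect with arbitrary continuations to the right. -/
theorem qf_shift_right {h : ℝ} (h0 : 0 ≤ h) {n : ℕ} {c : Cf} (hc : Hom n c)
    (hc0 : c.coeff (FreeMonoid.ofList (List.replicate n false)) = 0) (s : Finset ℕ) (k : ℕ → ℝ)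
    (P : ℕ) (d : ℕ → Cf) (nd : ℕ → ℕ) (hd : ∀ l ∈ s, Hom (nd l) (d l)) :
    qf h (∑ l ∈ s, k l • (cx ^ (P + l) * c * d l))
      ≤ 2 ^ n * qf h c * ∑ l ∈ s, k l ^ 2 * qf h (d l) := by
  classical
  have e : ∑ l ∈ s, k l • (cx ^ (P + l) * c * d l)
      = ∑ u ∈ c.coeff.support, ∑ l ∈ s, k l • (cx ^ (P + l) * single u (c.coeff u) * d l) := by
    rw [sum_comm]
    refine sum_congr rfl fun l _ => ?_
    conv_lhs => rw [eq_sum_single c, mul_sum, sum_mul, smul_sum]
  have hu : ∀ u ∈ c.coeff.support,
      qf h (∑ l ∈ s, k l • (cx ^ (P + l) * single u (c.coeff u) * d l))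
        = qf h (single u (c.coeff u)) * ∑ l ∈ s, k l ^ 2 * qf h (d l) := by
    intro u hu
    have hm := mem_true_of_mem_support hc hc0 hu
    rw [qf_sum_eq_of_key h s _ (fun w => (FreeMonoid.toList w).idxOf true)
      (fun l => P + l + (FreeMonoid.toList u).idxOf true) (fun a _ b _ e => by simpa using e),
      mul_sum]
    · refine sum_congr rfl fun l hl => ?_
      have hu' := hom_single u (c.coeff u)
      rw [qf_smul, qf_mul h (hom_mul (hom_pow hom_cx _) hu') (hd l hl),
        qf_mul h (hom_pow hom_cx _) hu', qf_cx_pow]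
      ring
    · intro l _ w hw
      obtain ⟨a, ha, v, -, rfl⟩ := mem_support_mul (Finsupp.support_smul (by simpa only [coeff_smul] using hw))
      rw [cx_pow, single_mul_single, coeff_single] at ha
      rw [mem_singleton.1 (Finsupp.support_single_subset ha), FreeMonoid.toList_mul,
        FreeMonoid.toList_mul, FreeMonoid.toList_ofList, List.append_assoc,
        List.idxOf_append_of_notMem (by simp), List.length_replicate,
        List.idxOf_append_of_mem hm]
  rw [e]
  refine (qf_sum_le h0 _ _).trans ?_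
  rw [sum_congr rfl hu, ← sum_mul, ← mul_assoc]
  refine mul_le_mul_of_nonneg_right (mul_le_mul (card_support_le hc) (le_of_eq ?_)
    (sum_nonneg fun u _ => qf_nonneg h0 _) (by positivity))
    (sum_nonneg fun l _ => mul_nonneg (sq_nonneg _) (qf_nonneg h0 _))
  exact sum_congr rfl fun u _ => qf_single h u _

/-- Averaging over shifts of a defect with arbitrary continuations to the left. -/
theorem qf_shift_left {h : ℝ} (h0 : 0 ≤ h) {n : ℕ} {c : Cf} (hc : Hom n c)
    (hc0 : c.coeff (FreeMonoid.ofList (List.replicate n false)) = 0) (s : Finset ℕ) (k : ℕ → ℝ)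
    (Q : ℕ) (d : ℕ → Cf) (nd : ℕ → ℕ) (hd : ∀ l ∈ s, Hom (nd l) (d l)) :
    qf h (∑ l ∈ s, k l • (d l * c * cx ^ (Q + l)))
      ≤ 2 ^ n * qf h c * ∑ l ∈ s, k l ^ 2 * qf h (d l) := by
  classical
  have e : ∑ l ∈ s, k l • (d l * c * cx ^ (Q + l))
      = ∑ u ∈ c.coeff.support, ∑ l ∈ s, k l • (d l * single u (c.coeff u) * cx ^ (Q + l)) := by
    rw [sum_comm]
    refine sum_congr rfl fun l _ => ?_
    conv_lhs => rw [eq_sum_single c, mul_sum, sum_mul, smul_sum]
  have hu : ∀ u ∈ c.coeff.support,
      qf h (∑ l ∈ s, k l • (d l * single u (c.coeff u) * cx ^ (Q + l)))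
        = qf h (single u (c.coeff u)) * ∑ l ∈ s, k l ^ 2 * qf h (d l) := by
    intro u hu
    have hm := mem_true_of_mem_support hc hc0 hu
    rw [qf_sum_eq_of_key h s _ (fun w => (FreeMonoid.toList w).reverse.idxOf true)
      (fun l => Q + l + (FreeMonoid.toList u).reverse.idxOf true)
      (fun a _ b _ e => by simpa using e), mul_sum]
    · refine sum_congr rfl fun l hl => ?_
      have hu' := hom_single u (c.coeff u)
      rw [qf_smul, qf_mul h (hom_mul (hd l hl) hu') (hom_pow hom_cx _),
        qf_mul h (hd l hl) hu', qf_cx_pow]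
      ring
    · intro l _ w hw
      obtain ⟨a, ha, v, hv, rfl⟩ := mem_support_mul (Finsupp.support_smul (by simpa only [coeff_smul] using hw))
      obtain ⟨a1, -, a2, ha2, rfl⟩ := mem_support_mul ha
      rw [cx_pow, coeff_single] at hv
      rw [coeff_single] at ha2
      rw [mem_singleton.1 (Finsupp.support_single_subset hv),
        mem_singleton.1 (Finsupp.support_single_subset ha2), FreeMonoid.toList_mul,
        FreeMonoid.toList_mul, FreeMonoid.toList_ofList, List.reverse_append, List.reverse_append,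
        List.reverse_replicate, List.idxOf_append_of_notMem (by simp), List.length_replicate,
        List.idxOf_append_of_mem (List.mem_reverse.2 hm)]
  rw [e]
  refine (qf_sum_le h0 _ _).trans ?_
  rw [sum_congr rfl hu, ← sum_mul, ← mul_assoc]
  refine mul_le_mul_of_nonneg_right (mul_le_mul (card_support_le hc) (le_of_eq ?_)
    (sum_nonneg fun u _ => qf_nonneg h0 _) (by positivity))
    (sum_nonneg fun l _ => mul_nonneg (sq_nonneg _) (qf_nonneg h0 _))
  exact sum_congr rfl fun u _ => qf_single h u _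

/-- Averaging over shifts dilutes the quadratic form. -/
theorem qf_app_shift {h : ℝ} (h0 : 0 ≤ h) {n : ℕ} {c : Cf} (hc : Hom n c)
    (hc0 : c.coeff (FreeMonoid.ofList (List.replicate n false)) = 0) {m r P Q : ℕ} (hm : 1 ≤ m)
    (hQ : r * m ≤ Q) :
    Hom (P + n + Q) (app (kerP m r) fun l => cx ^ (P + l) * c * cx ^ (Q - l))
      ∧ qf h (app (kerP m r) fun l => cx ^ (P + l) * c * cx ^ (Q - l))
          ≤ 4 ^ r / (m : ℝ) * 2 ^ n * qf h c := by
  rw [app_eq_sum (Nat.lt_succ_of_le (kerP_natDegree m r))]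
  constructor
  · refine hom_sum _ _ fun l hl => hom_smul ?_ _
    have hl' : l ≤ r * m := Nat.lt_succ_iff.1 (mem_range.1 hl)
    have := hom_mul (hom_mul (hom_pow hom_cx (P + l)) hc) (hom_pow hom_cx (Q - l))
    rwa [show (P + l) * 1 + n + (Q - l) * 1 = P + n + Q by omega] at this
  · refine (qf_shift_right h0 hc hc0 _ _ P (fun l => cx ^ (Q - l)) _
      fun l _ => hom_pow hom_cx _).trans ?_
    simp only [qf_cx_pow, mul_one]
    calc 2 ^ n * qf h c * ∑ l ∈ range (r * m).succ, (kerP m r).coeff l ^ 2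
        ≤ 2 ^ n * qf h c * (4 ^ r / (m : ℝ)) :=
          mul_le_mul_of_nonneg_left (kerP_sum_sq m r hm)
            (mul_nonneg (by positivity) (qf_nonneg h0 c))
      _ = _ := by ring

end Vale.Agent.P321.Super
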