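import Vale.Agent.P321.Super.Words
import Vale.Agent.P321.Super.Kernel
import Mathlib.Algebra.Algebra.Hom

/-! Algebra for the two-level gain: substitution of a level into the next one. -/

namespace Vale.Agent.P321.Super

open MonoidAlgebra Finset Poly

/-- The coefficient of the pure word, as a homomorphism. -/
noncomputable def pureC : Cf →ₐ[ℝ] ℝ :=
  MonoidAlgebra.lift ℝ ℝ (FreeMonoid Bool) (FreeMonoid.lift fun b => cond b 0 1)

@[simp] lemma pureC_cx : pureC cx = 1 := by simp [pureC, cx, lift_single]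

@[simp] lemma pureC_ce : pureC ce = 0 := by simp [pureC, ce, lift_single]

lemma pure_word_val : ∀ l : List Bool,
    (FreeMonoid.lift fun b => cond b (0 : ℝ) 1) (FreeMonoid.ofList l)
      = if l.count true = 0 then 1 else 0
  | [] => by simp
  | a :: l => by
    rw [FreeMonoid.ofList_cons, map_mul, pure_word_val l]
    cases a <;> simp

lemma pureC_eq {n : ℕ} {c : Cf} (hc : Hom n c) :
    pureC c = c.coeff (FreeMonoid.ofList (List.replicate n false)) := by
  classical
  set w0 := FreeMonoid.ofList (List.replicate n false)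
  conv_lhs => rw [← sum_coeff_single c]
  rw [Finsupp.sum, map_sum]
  simp only [pureC, lift_single]
  rw [sum_eq_single w0]
  · rw [pure_word_val, if_pos (by simp [List.count_replicate])]
    simp
  · intro w hw hne
    rw [show w = FreeMonoid.ofList (FreeMonoid.toList w) from rfl, pure_word_val, if_neg, smul_zero]
    intro h0
    apply hne
    apply FreeMonoid.toList.injective
    rw [show FreeMonoid.toList w0 = List.replicate n false from rfl]
    refine List.eq_replicate_iff.2 ⟨hc w hw, fun b hb => ?_⟩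
    rw [List.count_eq_zero] at h0
    cases b
    · rfl
    · exact absurd hb h0
  · intro h
    simp [Finsupp.notMem_support_iff.1 h]

/-- Removing the pure part removes its square from the form. -/
lemma qf_sub_pure (h : ℝ) {n : ℕ} {c : Cf} (hc : Hom n c) (h1 : pureC c = 1) :
    qf h (c - cx ^ n) = qf h c - 1 := by
  classical
  set w0 := FreeMonoid.ofList (List.replicate n false)
  have hpow : cx ^ n = single w0 1 := cx_pow n
  have h1' : c.coeff w0 = 1 := by rw [← pureC_eq hc, h1]
  set U := insert w0 (c.coeff.support)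
  have hsub : (c - cx ^ n).coeff.support ⊆ U := by
    intro w hw
    rw [hpow] at hw
    by_contra hn
    simp only [U, mem_insert, not_or] at hn
    rw [Finsupp.mem_support_iff, coeff_sub, Finsupp.sub_apply, Finsupp.notMem_support_iff.1 hn.2,
      coeff_single, Finsupp.single_eq_of_ne hn.1, sub_zero] at hw
    exact hw rfl
  rw [qf_eq_sum hsub, qf_eq_sum (c := c) (s := U) (subset_insert _ _), hpow,
    ← add_sum_erase _ _ (mem_insert_self w0 _), ← add_sum_erase _ _ (mem_insert_self w0 _)]
  have e : ∀ w ∈ U.erase w0, (c - single w0 1).coeff w = c.coeff w := by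
    intro w hw
    rw [coeff_sub, Finsupp.sub_apply, coeff_single,
      Finsupp.single_eq_of_ne (ne_of_mem_erase hw), sub_zero]
  rw [sum_congr rfl fun w hw => by rw [e w hw]]
  simp [h1', w0, List.count_replicate]

/-- Words of the difference have at least two defects. -/
lemma two_le_count {c : Cf} {C : ℝ} (hC : 0 < C)
    (hq : ∀ h : ℝ, 0 ≤ h → h ≤ 1 → qf h c ≤ C * h ^ 2) {w : FreeMonoid Bool}
    (hw : w ∈ c.coeff.support) : 2 ≤ (FreeMonoid.toList w).count true := by
  by_contra hlt
  rw [not_le] at hlt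
  set v := c.coeff w
  have hv : v ≠ 0 := Finsupp.mem_support_iff.1 hw
  set h := min 1 (v ^ 2 / (2 * C))
  have hh0 : 0 < h := lt_min one_pos (by positivity)
  have hle : v ^ 2 * h ^ (FreeMonoid.toList w).count true ≤ qf h c :=
    single_le_sum (f := fun u => c.coeff u ^ 2 * h ^ (FreeMonoid.toList u).count true)
      (fun u _ => by positivity) hw
  have h1 : h ^ 1 ≤ h ^ (FreeMonoid.toList w).count true :=
    pow_le_pow_of_le_one hh0.le (min_le_left _ _) (by omega)
  have h2 := hle.trans (hq h hh0.le (min_le_left _ _))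
  have h3 : v ^ 2 * h ≤ C * h ^ 2 :=
    (mul_le_mul_of_nonneg_left (by simpa using h1) (sq_nonneg v)).trans h2
  have h4 : C * h ≤ v ^ 2 / 2 := by
    have := mul_le_mul_of_nonneg_left (min_le_right 1 (v ^ 2 / (2 * C))) hC.le
    rw [show C * (v ^ 2 / (2 * C)) = v ^ 2 / 2 by field_simp] at this
    exact this
  have hv2 : 0 < v ^ 2 := by positivity
  nlinarith [mul_le_mul_of_nonneg_right h4 hh0.le, mul_pos hv2 hh0]

lemma card_mul_le (c d : Cf) :
    (c * d).coeff.support.card ≤ c.coeff.support.card * d.coeff.support.card := by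
  classical
  rw [← card_product]
  refine le_trans (card_le_card ?_) (card_image_le (f := fun p => p.1 * p.2))
  intro w hw
  by_contra hn
  rw [Finsupp.mem_support_iff, mul_eq_sum, ← sum_product', coeff_sum, Finsupp.finsetSum_apply]
    at hw
  refine hw (sum_eq_zero fun p hp => ?_)
  rw [coeff_single, Finsupp.single_eq_of_ne]
  intro e
  exact hn (mem_image.2 ⟨p, hp, e.symm⟩)

lemma card_cx_pow (n : ℕ) : (cx ^ n).coeff.support.card ≤ 1 := by
  rw [cx, single_pow, coeff_single]
  exact le_trans (card_le_card Finsupp.support_single_subset) (by simp)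

/-- Shifting a pattern dilutes it, counted by words. -/
lemma qf_shift_card {h : ℝ} (h0 : 0 ≤ h) {n : ℕ} {c : Cf} (hc : Hom n c)
    (hc2 : ∀ w ∈ c.coeff.support, 1 ≤ (FreeMonoid.toList w).count true) {m r P Q : ℕ}
    (hm : 1 ≤ m) (hQ : r * m ≤ Q) :
    Hom (P + n + Q) (app (kerP m r) fun l => cx ^ (P + l) * c * cx ^ (Q - l))
      ∧ qf h (app (kerP m r) fun l => cx ^ (P + l) * c * cx ^ (Q - l))
          ≤ 4 ^ r / (m : ℝ) * c.coeff.support.card * qf h c := by
  classical
  have hsup : (kerP m r).support ⊆ range (r * m + 1) := by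
    intro l hl
    rw [mem_range]
    have := (Polynomial.le_natDegree_of_mem_supp l hl).trans (kerP_natDegree m r)
    omega
  set F : ℕ → Cf := fun l => cx ^ (P + l) * c * cx ^ (Q - l)
  have happ : app (kerP m r) F = ∑ l ∈ range (r * m + 1), (kerP m r).coeff l • F l := by
    rw [app, Polynomial.sum_def]
    refine sum_subset hsup fun l _ hl => ?_
    rw [Polynomial.notMem_support_iff.1 hl, zero_smul]
  rw [happ]
  have hhom : ∀ l ∈ range (r * m + 1), Hom (P + n + Q) (F l) := by
    intro l hl
    rw [mem_range] at hl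
    have := hom_mul (hom_mul (hom_cx_pow (P + l)) hc) (hom_cx_pow (Q - l))
    rwa [show P + l + n + (Q - l) = P + n + Q by omega] at this
  refine ⟨hom_sum _ _ fun l hl => hom_smul (hhom l hl) _, ?_⟩
  set T : FreeMonoid Bool → ℕ → FreeMonoid Bool := fun w l =>
    FreeMonoid.ofList (List.replicate (P + l) false) * w
      * FreeMonoid.ofList (List.replicate (Q - l) false)
  have hpow := cx_pow
  have hF : ∀ l, F l = ∑ w ∈ c.coeff.support, single (T w l) (c.coeff w) := by
    intro l
    simp only [F, T, hpow]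
    conv_lhs => rw [← sum_coeff_single c, Finsupp.sum]
    rw [mul_sum, sum_mul]
    exact sum_congr rfl fun w _ => by simp [single_mul_single]
  have hswap : ∑ l ∈ range (r * m + 1), (kerP m r).coeff l • F l
      = ∑ w ∈ c.coeff.support, ∑ l ∈ range (r * m + 1),
          single (T w l) ((kerP m r).coeff l * c.coeff w) := by
    rw [sum_comm]
    exact sum_congr rfl fun l _ => by rw [hF, smul_sum]; simp
  rw [hswap]
  refine (qf_sum_le h0 _ _).trans ?_
  rw [show 4 ^ r / (m : ℝ) * c.coeff.support.card * qf h c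
    = c.coeff.support.card * (4 ^ r / (m : ℝ) * qf h c) by ring]
  refine mul_le_mul_of_nonneg_left ?_ (Nat.cast_nonneg _)
  rw [qf, Finsupp.sum, mul_sum]
  refine sum_le_sum fun w hw => ?_
  have hcount : ∀ l, (FreeMonoid.toList (T w l)).count true = (FreeMonoid.toList w).count true := by
    intro l; simp [T, List.count_replicate]
  have inj : Set.InjOn (T w) ↑(range (r * m + 1)) := by
    intro l _ l' _ e
    have e1 := congrArg FreeMonoid.toList e
    simp only [T, FreeMonoid.toList_mul, FreeMonoid.toList_ofList, List.append_assoc] at e1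
    obtain ⟨u, v, huv, hu⟩ : ∃ u v, FreeMonoid.toList w = u ++ true :: v ∧ true ∉ u :=
      List.eq_append_cons_of_mem (List.count_pos_iff.1 (hc2 w hw))
    rw [huv] at e1
    have key : ∀ k, List.idxOf true (List.replicate k false ++ ((u ++ true :: v) ++
        List.replicate (Q - (k - P)) false)) = k + u.length := by
      intro k
      rw [List.idxOf_append_of_notMem (by simp), List.length_replicate, List.append_assoc,
        List.idxOf_append_of_notMem hu, List.cons_append, List.idxOf_cons_self, add_zero]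
    have k1 := key (P + l)
    have k2 := key (P + l')
    rw [Nat.add_sub_cancel_left] at k1 k2
    rw [e1, k2] at k1
    omega
  have e : ∑ l ∈ range (r * m + 1), single (T w l) ((kerP m r).coeff l * c.coeff w)
      = ∑ u ∈ (range (r * m + 1)).image (T w),
          single u ((∑ l ∈ range (r * m + 1), if T w l = u then (kerP m r).coeff l else 0)
            * c.coeff w) := by
    rw [sum_image inj]
    refine sum_congr rfl fun l hl => ?_
    rw [sum_eq_single l, if_pos rfl]
    · intro l' hl' hne
      rw [if_neg fun e => hne (inj hl' hl e)]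
    · intro h; exact absurd hl h
  rw [e, qf_eq_sum (s := (range (r * m + 1)).image (T w))]
  · rw [sum_image inj]
    calc _ = ∑ l ∈ range (r * m + 1), (kerP m r).coeff l ^ 2
          * (c.coeff w ^ 2 * h ^ (FreeMonoid.toList w).count true) := by
          refine sum_congr rfl fun l hl => ?_
          rw [coeff_sum, Finsupp.finsetSum_apply, sum_image inj, sum_eq_single l, coeff_single,
            Finsupp.single_eq_same, hcount, sum_eq_single l, if_pos rfl]
          · ring
          · intro l' hl' hne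
            rw [if_neg fun e => hne (inj hl' hl e)]
          · intro h; exact absurd hl h
          · intro l' hl' hne
            rw [coeff_single, Finsupp.single_eq_of_ne fun e => hne (inj hl' hl e.symm)]
          · intro h; exact absurd hl h
      _ ≤ _ := by
          rw [← sum_mul]
          exact mul_le_mul_of_nonneg_right (kerP_sum_sq m r hm)
            (mul_nonneg (sq_nonneg _) (pow_nonneg h0 _))
  · intro u hu
    by_contra hn
    rw [Finsupp.mem_support_iff, coeff_sum, Finsupp.finsetSum_apply] at hu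
    refine hu (sum_eq_zero fun v hv => ?_)
    rw [coeff_single, Finsupp.single_eq_of_ne]
    intro e
    exact hn (e ▸ hv)

lemma ev_comp {M : Type*} [Monoid M] (X G : MonoidAlgebra ℝ M) (a b c : Cf) :
    ev X G (ev a b c) = ev (ev X G a) (ev X G b) c := by
  have h : (ev X G).comp (ev a b) = ev (ev X G a) (ev X G b) := by
    apply (MonoidAlgebra.lift ℝ (MonoidAlgebra ℝ M) (FreeMonoid Bool)).symm.injective
    apply FreeMonoid.hom_eq
    intro x
    cases x <;> simp [ev, lift_single]
  exact DFunLike.congr_fun h c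

/-- Bounds for substituting a level into words of the next one. -/
lemma subst_word {L : ℕ} {xc ec : Cf} (hx : Hom L xc) (he : Hom L ec) {h hh B : ℝ} {S : ℕ}
    (h0 : 0 ≤ h) (h1 : h ≤ 1) (hh0 : 0 ≤ hh) (hB : 1 ≤ B) (bx : qf h (xc - cx ^ L) ≤ B * h)
    (be : qf h ec ≤ B * hh) (hS : ec.coeff.support.card ≤ S) : ∀ l : List Bool,
    let w := single (FreeMonoid.ofList l) (1 : ℝ)
    Hom (l.length * L) (ev (cx ^ L) ec w) ∧ Hom (l.length * L) (ev xc ec w)
      ∧ qf h (ev (cx ^ L) ec w) ≤ (4 * B) ^ l.length * hh ^ l.count true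
      ∧ qf h (ev xc ec w) ≤ (4 * B) ^ l.length * hh ^ l.count true
      ∧ qf h (ev xc ec w - ev (cx ^ L) ec w) ≤ (4 * B) ^ l.length * hh ^ l.count true * h
      ∧ (ev (cx ^ L) ec w).coeff.support.card ≤ (S + 1) ^ l.length
      ∧ ∀ u ∈ (ev (cx ^ L) ec w).coeff.support, l.count true ≠ 0 →
          ∃ u1 ∈ ec.coeff.support, (FreeMonoid.toList u1).count true
            ≤ (FreeMonoid.toList u).count true
  | [] => by
    simp [one_def, qf_single, h0]
    exact hom_single _ _
  | a :: l => by
    obtain ⟨p1, p2, p3, p4, p5, p6, p7⟩ := subst_word hx he h0 h1 hh0 hB bx be hS l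
    have hcons : single (FreeMonoid.ofList (a :: l)) (1 : ℝ)
        = single (FreeMonoid.of a) 1 * single (FreeMonoid.ofList l) 1 := by
      simp [single_mul_single]
    set w := single (FreeMonoid.ofList l) (1 : ℝ)
    set W := (4 * B) ^ l.length * hh ^ l.count true
    have hW : 0 ≤ W := by positivity
    have hxq : qf h xc ≤ 4 * B := by
      have h2 := qf_add_le h0 (xc - cx ^ L) (cx ^ L)
      rw [sub_add_cancel, qf_cx_pow] at h2
      nlinarith
    simp only [hcons, map_mul, List.length_cons, add_mul, one_mul]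
    rw [Nat.add_comm (l.length * L)]
    cases a
    · simp only [show single (FreeMonoid.of false) (1 : ℝ) = cx from rfl, ev_cx,
        List.count_cons_of_ne (show false ≠ true by simp)]
      refine ⟨hom_mul (hom_cx_pow L) p1, hom_mul hx p2, ?_, ?_, ?_, ?_, ?_⟩
      · rw [qf_mul h (hom_cx_pow L) p1, qf_cx_pow, one_mul, pow_succ]
        calc _ ≤ W := p3
          _ ≤ _ := by
              simp only [W]
              have : (4 * B) ^ l.length ≤ (4 * B) ^ l.length * (4 * B) :=
                le_mul_of_one_le_right (by positivity) (by linarith)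
              exact mul_le_mul_of_nonneg_right this (by positivity)
      · rw [qf_mul h hx p2, pow_succ]
        calc _ ≤ 4 * B * W := mul_le_mul hxq p4 (qf_nonneg h0 _) (by linarith)
          _ = _ := by simp only [W]; ring
      · rw [show xc * ev xc ec w - cx ^ L * ev (cx ^ L) ec w
          = (xc - cx ^ L) * ev xc ec w + cx ^ L * (ev xc ec w - ev (cx ^ L) ec w) by noncomm_ring]
        refine (qf_add_le h0 _ _).trans ?_
        rw [qf_mul h (hom_sub hx (hom_cx_pow L)) p2, qf_mul h (hom_cx_pow L) (hom_sub p2 p1),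
          qf_cx_pow, one_mul, pow_succ]
        have := mul_le_mul bx p4 (qf_nonneg h0 _) (by positivity)
        have : W * h ≤ B * h * W := by nlinarith [mul_nonneg hW h0]
        simp only [W] at *
        nlinarith
      · refine (card_mul_le _ _).trans ?_
        rw [pow_succ']
        exact Nat.mul_le_mul ((card_cx_pow L).trans (by omega)) p6
      · intro u hu hne
        classical
        obtain ⟨u0, hu0, u2, hu2, rfl⟩ : ∃ u0 ∈ (cx ^ L).coeff.support,
            ∃ u2 ∈ (ev (cx ^ L) ec w).coeff.support, u0 * u2 = u := by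
          obtain ⟨u0, h1, u2, h2, e⟩ := mem_support_mul hu
          exact ⟨u0, h1, u2, h2, e.symm⟩
        obtain ⟨u1, hu1, hle⟩ := p7 u2 hu2 hne
        refine ⟨u1, hu1, hle.trans ?_⟩
        simp
    · simp only [show single (FreeMonoid.of true) (1 : ℝ) = ce from rfl, ev_ce,
        List.count_cons_self]
      refine ⟨hom_mul he p1, hom_mul he p2, ?_, ?_, ?_, ?_, ?_⟩
      · rw [qf_mul h he p1]
        calc _ ≤ B * hh * W := mul_le_mul be p3 (qf_nonneg h0 _) (by positivity)
          _ ≤ 4 * B * hh * W := by nlinarith [mul_nonneg (mul_nonneg (by linarith : 0 ≤ B) hh0) hW]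
          _ = _ := by simp only [W]; ring
      · rw [qf_mul h he p2]
        calc _ ≤ B * hh * W := mul_le_mul be p4 (qf_nonneg h0 _) (by positivity)
          _ ≤ 4 * B * hh * W := by nlinarith [mul_nonneg (mul_nonneg (by linarith : 0 ≤ B) hh0) hW]
          _ = _ := by simp only [W]; ring
      · rw [← mul_sub, qf_mul h he (hom_sub p2 p1)]
        calc _ ≤ B * hh * (W * h) := mul_le_mul be p5 (qf_nonneg h0 _) (by positivity)
          _ ≤ 4 * B * hh * (W * h) := by
              nlinarith [mul_nonneg (mul_nonneg (by linarith : 0 ≤ B) hh0) (mul_nonneg hW h0)]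
          _ = _ := by simp only [W]; ring
      · refine (card_mul_le _ _).trans ?_
        rw [pow_succ']
        exact Nat.mul_le_mul (hS.trans (by omega)) p6
      · intro u hu _
        classical
        obtain ⟨u0, hu0, u2, hu2, rfl⟩ : ∃ u0 ∈ ec.coeff.support,
            ∃ u2 ∈ (ev (cx ^ L) ec w).coeff.support, u0 * u2 = u := by
          obtain ⟨u0, h1, u2, h2, e⟩ := mem_support_mul hu
          exact ⟨u0, h1, u2, h2, e.symm⟩
        exact ⟨u0, hu0, by simp⟩

lemma ev_as_sum {M : Type*} [Monoid M] (X G : MonoidAlgebra ℝ M) (U : Cf) :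
    ev X G U = ∑ u ∈ U.coeff.support, U.coeff u • ev X G (single u 1) := by
  conv_lhs => rw [← sum_coeff_single U, Finsupp.sum, map_sum]
  exact sum_congr rfl fun u _ => by rw [← map_smul, smul_single', mul_one]

/-- Bounds for substituting a level into the difference of the next one. -/
lemma subst_diff {n : ℕ} {U : Cf} (hU : Hom n U)
    (hU2 : ∀ w ∈ U.coeff.support, 2 ≤ (FreeMonoid.toList w).count true) (B : ℝ) (S : ℕ)
    (hB : 1 ≤ B) : ∃ C : ℝ, ∃ S' : ℕ, 1 ≤ C ∧
    ∀ (L : ℕ) (xc ec : Cf) (h hh : ℝ), Hom L xc → Hom L ec → 0 ≤ h → h ≤ 1 → 0 ≤ hh → hh ≤ 1 →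
      qf h (xc - cx ^ L) ≤ B * h → qf h ec ≤ B * hh → ec.coeff.support.card ≤ S →
      (∀ u ∈ ec.coeff.support, 1 ≤ (FreeMonoid.toList u).count true) →
      Hom (n * L) (ev (cx ^ L) ec U) ∧ Hom (n * L) (ev xc ec U)
        ∧ qf h (ev (cx ^ L) ec U) ≤ C * hh ^ 2 ∧ qf h (ev xc ec U) ≤ C * hh ^ 2
        ∧ qf h (ev xc ec U - ev (cx ^ L) ec U) ≤ C * (hh ^ 2 * h)
        ∧ (ev (cx ^ L) ec U).coeff.support.card ≤ S'
        ∧ ∀ u ∈ (ev (cx ^ L) ec U).coeff.support, 1 ≤ (FreeMonoid.toList u).count true := by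
  classical
  set s := U.coeff.support
  refine ⟨1 + s.card * ((∑ u ∈ s, U.coeff u ^ 2) * (4 * B) ^ n), s.card * (S + 1) ^ n,
    le_add_of_nonneg_right (by positivity),
    fun L xc ec h hh hx he h0 h1 hh0 hh1 bx be hS hec => ?_⟩
  have facts : ∀ u ∈ s, (FreeMonoid.toList u).length = n ∧ hh ^ (FreeMonoid.toList u).count true
      ≤ hh ^ 2 := fun u hu => ⟨hU u hu, pow_le_pow_of_le_one hh0 hh1 (hU2 u hu)⟩
  have sw := fun u : FreeMonoid Bool =>
    subst_word hx he h0 h1 hh0 hB bx be hS (FreeMonoid.toList u)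
  simp only [FreeMonoid.ofList_toList] at sw
  have bound : ∀ (f : FreeMonoid Bool → Cf) (y : ℝ), 0 ≤ y →
      (∀ u ∈ s, qf h (f u) ≤ (4 * B) ^ n * y) →
      qf h (∑ u ∈ s, U.coeff u • f u)
        ≤ (1 + s.card * ((∑ u ∈ s, U.coeff u ^ 2) * (4 * B) ^ n)) * y := by
    intro f y hy hf
    refine (qf_sum_le h0 _ _).trans ?_
    rw [add_mul, one_mul, mul_assoc (s.card : ℝ), sum_mul, sum_mul]
    refine le_trans (mul_le_mul_of_nonneg_left (sum_le_sum fun u hu => ?_) (Nat.cast_nonneg _))
      (le_add_of_nonneg_left hy)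
    rw [qf_smul, mul_assoc]
    exact mul_le_mul_of_nonneg_left (hf u hu) (sq_nonneg _)
  have hp4 : 0 ≤ (4 * B) ^ n := by positivity
  rw [ev_as_sum (cx ^ L) ec U, ev_as_sum xc ec U, ← sum_sub_distrib]
  simp only [← smul_sub]
  refine ⟨hom_sum _ _ fun u hu => hom_smul ((facts u hu).1 ▸ (sw u).1) _,
    hom_sum _ _ fun u hu => hom_smul ((facts u hu).1 ▸ (sw u).2.1) _,
    bound _ _ (sq_nonneg _) fun u hu => ?_, bound _ _ (sq_nonneg _) fun u hu => ?_,
    bound _ _ (by positivity) fun u hu => ?_, ?_, ?_⟩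
  · refine (sw u).2.2.1.trans ?_
    rw [(facts u hu).1]
    exact mul_le_mul_of_nonneg_left (facts u hu).2 hp4
  · refine (sw u).2.2.2.1.trans ?_
    rw [(facts u hu).1]
    exact mul_le_mul_of_nonneg_left (facts u hu).2 hp4
  · refine (sw u).2.2.2.2.1.trans ?_
    rw [(facts u hu).1, mul_assoc]
    exact mul_le_mul_of_nonneg_left (mul_le_mul_of_nonneg_right (facts u hu).2 h0) hp4
  · refine (card_le_card (s := _) ?_).trans ((card_biUnion_le (s := s)
      (t := fun u => (ev (cx ^ L) ec (single u 1)).coeff.support)).trans ?_)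
    · rw [coeff_sum]
      refine (Finsupp.support_finsetSum).trans (biUnion_mono fun u _ => ?_)
      rw [coeff_smul]
      exact Finsupp.support_smul
    · refine (sum_le_card_nsmul _ _ _ fun u hu => ?_).trans_eq (smul_eq_mul _ _)
      exact (facts u hu).1 ▸ (sw u).2.2.2.2.2.1
  · intro v hv
    rw [coeff_sum] at hv
    obtain ⟨u, hu, hv'⟩ := mem_biUnion.1 (Finsupp.support_finsetSum hv)
    rw [coeff_smul] at hv'
    obtain ⟨u1, hu1, hle⟩ := (sw u).2.2.2.2.2.2 v (Finsupp.support_smul hv')
      (by have := hU2 u hu; omega)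
    exact (hec u1 hu1).trans hle

/-- Evaluation is Lipschitz. -/
lemma ev_lipschitz {M : Type*} [Monoid M] {n : ℕ} {U : Cf} (hU : Hom n U) : ∃ C : ℝ, 0 ≤ C ∧
    ∀ (X G X' G' : MonoidAlgebra ℝ M) (β : ℝ), nrm X ≤ 3 → nrm G ≤ 3 → nrm X' ≤ 3 → nrm G' ≤ 3 →
      nrm (X - X') ≤ β → nrm (G - G') ≤ β →
      nrm (ev X G U - ev X' G' U) ≤ C * β ∧ nrm (ev X G U) ≤ C ∧ nrm (ev X' G' U) ≤ C := by
  refine ⟨nrm U * ((n + 1) * 3 ^ n), mul_nonneg (nrm_nonneg _) (by positivity),
    fun X G X' G' β hX hG hX' hG' hbX hbG => ?_⟩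
  have hβ : 0 ≤ β := (nrm_nonneg _).trans hbX
  have word : ∀ l : List Bool,
      nrm (ev X G (single (FreeMonoid.ofList l) 1)) ≤ 3 ^ l.length
      ∧ nrm (ev X' G' (single (FreeMonoid.ofList l) 1)) ≤ 3 ^ l.length
      ∧ nrm (ev X G (single (FreeMonoid.ofList l) 1) - ev X' G' (single (FreeMonoid.ofList l) 1))
          ≤ (l.length + 1) * 3 ^ l.length * β := by
    intro l
    induction l with
    | nil => simp [Prb.one.nrm_eq, hβ]
    | cons a l ih =>
      obtain ⟨i1, i2, i3⟩ := ih
      have e : ∀ (Y H : MonoidAlgebra ℝ M), ev Y H (single (FreeMonoid.ofList (a :: l)) 1)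
          = cond a H Y * ev Y H (single (FreeMonoid.ofList l) 1) := by
        intro Y H; cases a <;> simp
      have ha : nrm (cond a G X) ≤ 3 ∧ nrm (cond a G' X') ≤ 3
          ∧ nrm (cond a G X - cond a G' X') ≤ β := by cases a <;> simp [*]
      obtain ⟨a1, a2, a3⟩ := ha
      simp only [e, List.length_cons, pow_succ']
      refine ⟨(nrm_mul_le _ _).trans (mul_le_mul a1 i1 (nrm_nonneg _) (by norm_num)),
        (nrm_mul_le _ _).trans (mul_le_mul a2 i2 (nrm_nonneg _) (by norm_num)), ?_⟩
      rw [show cond a G X * ev X G (single (FreeMonoid.ofList l) 1)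
          - cond a G' X' * ev X' G' (single (FreeMonoid.ofList l) 1)
        = (cond a G X - cond a G' X') * ev X G (single (FreeMonoid.ofList l) 1)
          + cond a G' X' * (ev X G (single (FreeMonoid.ofList l) 1)
            - ev X' G' (single (FreeMonoid.ofList l) 1)) by noncomm_ring]
      refine (nrm_add_le _ _).trans ((add_le_add
        ((nrm_mul_le _ _).trans (mul_le_mul a3 i1 (nrm_nonneg _) hβ))
        ((nrm_mul_le _ _).trans (mul_le_mul a2 i3 (nrm_nonneg _) (by norm_num)))).trans ?_)
      push_cast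
      nlinarith [mul_nonneg hβ (show (0:ℝ) ≤ 3 ^ l.length by positivity)]
  have hw : ∀ u ∈ U.coeff.support, (FreeMonoid.toList u).length = n := hU
  rw [ev_as_sum X G U, ev_as_sum X' G' U, ← sum_sub_distrib]
  simp only [← smul_sub]
  have fold : ∀ (f : FreeMonoid Bool → MonoidAlgebra ℝ M) (y : ℝ),
      (∀ u ∈ U.coeff.support, nrm (f u) ≤ y) →
      nrm (∑ u ∈ U.coeff.support, U.coeff u • f u) ≤ nrm U * y := by
    intro f y hf
    refine (nrm_sum_le _ _).trans ?_
    rw [nrm, Finsupp.sum, sum_mul]
    exact sum_le_sum fun u hu => by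
      rw [nrm_smul]; exact mul_le_mul_of_nonneg_left (hf u hu) (abs_nonneg _)
  have h1n : (3 : ℝ) ^ n ≤ (n + 1) * 3 ^ n :=
    le_mul_of_one_le_left (by positivity) (le_add_of_nonneg_left (Nat.cast_nonneg n))
  refine ⟨(fold _ _ fun u hu => ?_).trans_eq (mul_assoc _ _ _).symm,
    (fold _ _ fun u hu => ?_), (fold _ _ fun u hu => ?_)⟩
  · have := (word (FreeMonoid.toList u)).2.2
    rw [hw u hu] at this
    simpa using this
  · have := (word (FreeMonoid.toList u)).1
    rw [hw u hu] at this
    exact (by simpa using this : nrm _ ≤ (3:ℝ) ^ n).trans h1n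
  · have := (word (FreeMonoid.toList u)).2.1
    rw [hw u hu] at this
    exact (by simpa using this : nrm _ ≤ (3:ℝ) ^ n).trans h1n

end Vale.Agent.P321.Super
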