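import Vale.Agent.P321.Super.GainParts

/-! The diluted middle of the second level, at a fixed scale. -/

namespace Vale.Agent.P321.Super

open MonoidAlgebra Finset Filter Poly

lemma Good.mono {q : ℝ} {t w z K K' P E E' : ℕ} {A B : List Bool} (h0 : 0 ≤ q) (h1 : q ≤ 1)
    (ht : 1 ≤ t) (h : Good q t w z K P E A B) (hK : K' ≤ K) (hE : E ≤ E') :
    Good q t w z K' P E' A B := by
  obtain ⟨hl, hA, hAE, hne, hs, ⟨G, hG0, hG, hn⟩, d1, d2⟩ := h
  have hle : 1 / (t : ℝ) ^ K ≤ 1 / (t : ℝ) ^ K' := htK_le (by exact_mod_cast ht) hK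
  exact ⟨hl, hA, hAE.trans (Nat.pow_le_pow_right ht hE), hne, hs, ⟨G, hG0, hG, hn.trans hle⟩,
    d1.mono (prb_law h0 h1 B).1 le_rfl hle, d2.mono (prb_law h0 h1 A).1 le_rfl hle⟩

/-- The pads of a level leave room for the iterated differences. -/
lemma pad_room {t w R : ℕ} (h : 4 * R ≤ t) : R * (4 * t ^ w * t ^ 2) ≤ t ^ (w + 4) := by
  calc R * (4 * t ^ w * t ^ 2) = t ^ (w + 2) * (4 * R) := by rw [pow_add]; ring
    _ ≤ t ^ (w + 2) * (t * t) :=
      Nat.mul_le_mul_left _ (h.trans (Nat.le_mul_self t))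
    _ = _ := by ring

theorem gain_mid (w z m R1 R2 K K'' : ℕ) (hm : 4 * m + 2 ≤ z) (hR1 : K + 2 * m + 8 ≤ R1)
    (hK : K + 2 * m + 9 ≤ K'') : ∃ C : ℝ, 1 ≤ C ∧ ∀ᶠ t : ℕ in atTop, ∀ X Y G : Tr,
    Prb X → Prb Y → Smooth X (t ^ w) → mass G = 0 → Chi G X (1 / (t : ℝ) ^ z) →
    nrm (Y - X - G) ≤ 1 / (t : ℝ) ^ K'' →
    ∀ X1 Y1 : Tr, X1 = X ^ t ^ (w + 4) * (tmP X Y R1).1 * X ^ t ^ (w + 4) →
      Y1 = X ^ t ^ (w + 4) * (tmP X Y R1).2 * X ^ t ^ (w + 4) → Prb X1 → Prb Y1 →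
    nrm (X ^ (2 * t ^ (w + 4) + 2 ^ R1) - X1) ≤ C / (t : ℝ) ^ (2 * m + 1) ∧
    ∃ μ : Tr,
      Chi μ (X ^ (t ^ (2 * m) * (2 * t ^ (w + 4) + 2 ^ R1)
        + 2 ^ R2 * (2 * t ^ (w + 4) + 2 ^ R1)
        + t ^ (2 * m) * (2 * t ^ (w + 4) + 2 ^ R1))) (C / (t : ℝ) ^ (4 * z + m)) ∧
      nrm (X1 ^ t ^ (2 * m) * ev X1 (Y1 - X1) (tmU R2) * X1 ^ t ^ (2 * m) - μ)
        ≤ 2 / (t : ℝ) ^ (K + 3) := by
  obtain ⟨C1, hC1, hfacts⟩ := lv_facts R1
  obtain ⟨B, S, hB, hlev⟩ := level_coef R1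
  obtain ⟨Cm, hCm, hmid⟩ := mid_coef R1 R2
  obtain ⟨Cb, hCb, hbr⟩ := bracket_close (M := FreeMonoid Bool) (hom_tmU R2)
  set r := K + 5 with hr
  refine ⟨B + 1 + Cm * (4 ^ r + 1), ?_, ?_⟩
  · have : 0 ≤ Cm * ((4 : ℝ) ^ r + 1) := mul_nonneg (by linarith) (by positivity)
    linarith
  filter_upwards [eventually_ge_atTop 2, eventually_const_le (2 * C1),
    eventually_const_le (2 * (28 * 2 ^ R1 : ℝ) ^ R1), eventually_const_le (2 * Cb),
    eventually_const_le (56 ^ r * Cm), eventually_const_le Cm,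
    eventually_ge_atTop (4 * R1), eventually_ge_atTop (5 * r)]
    with t ht2 htC1 htR htCb htr htCm htR1 ht5
  intro X Y G hX hY hsm hG0 hG hβ X1 Y1 hX1e hY1e hX1 hY1
  have ht1 : 1 ≤ t := by omega
  have htR2 : (2 : ℝ) ≤ t := by exact_mod_cast ht2
  have ht : (1 : ℝ) ≤ t := by linarith
  have htpos : (0 : ℝ) < t := by linarith
  set a := t ^ (w + 4) with ha
  set d := t ^ (2 * m) with hd
  set L := 2 * a + 2 ^ R1 with hL
  set h : ℝ := 1 / (t : ℝ) ^ z with hh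
  have h0 : 0 ≤ h := by positivity
  have hh1 : h ≤ 1 := by
    rw [hh, div_le_one (by positivity)]; exact one_le_pow₀ ht
  have htK : ∀ {i j : ℕ}, i ≤ j → 1 / (t : ℝ) ^ j ≤ 1 / (t : ℝ) ^ i := htK_le ht
  obtain ⟨f1, f2⟩ := hfacts X Y G h _ (28 / (t : ℝ)) a _ hX hY hG h0 hh1 hβ
    (eta_bound hX ht1 hsm le_rfl) (pad_room htR1)
  rw [← hX1e] at f1
  rw [← hX1e, ← hY1e] at f2
  set xc := xcf a R1 with hxc
  set ec := ecf a R1 with hec
  -- the error of the first level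
  set β1 : ℝ := 1 / (t : ℝ) ^ (K + 2 * m + 6) with hβ1
  have hC1β : C1 * (1 / (t : ℝ) ^ K'') ≤ 1 / (t : ℝ) ^ (K + 2 * m + 8) :=
    absorb ht (by linarith) (by omega)
  have hlinR : (2 ^ R1 * (28 / (t : ℝ))) ^ R1 ≤ 1 / (t : ℝ) ^ (K + 2 * m + 7) := by
    rw [show (2 : ℝ) ^ R1 * (28 / (t : ℝ)) = 28 * 2 ^ R1 / t by ring, div_pow,
      div_eq_mul_one_div]
    exact absorb ht (by linarith [show (0 : ℝ) ≤ (28 * 2 ^ R1) ^ R1 by positivity]) (by omega)
  have hX1c : nrm (X1 - ev X G xc) ≤ β1 :=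
    f1.trans (hC1β.trans (htK (by omega)))
  have hE1c : nrm (Y1 - X1 - ev X G ec) ≤ β1 := by
    refine f2.trans ((add_le_add (hC1β.trans (htK (show K + 2 * m + 7 ≤ _ by omega))) hlinR).trans ?_)
    rw [← two_mul]
    exact absorb ht htR2 (by omega)
  obtain ⟨hxh, -, -, bx, -, -, -⟩ := hlev h a h0 hh1
  -- the slot is close to the pure power
  have hB0 : 0 ≤ B := by linarith
  have hsq : Real.sqrt (B * h) ≤ B / (t : ℝ) ^ (2 * m + 1) := by
    rw [Real.sqrt_le_iff]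
    refine ⟨by positivity, ?_⟩
    rw [div_pow, ← pow_mul, hh, mul_one_div]
    exact div_le_div₀ (sq_nonneg B) (by nlinarith) (by positivity)
      (pow_le_pow_right₀ ht (by omega))
  have hclose : nrm (X ^ L - X1) ≤ (B + 1) / (t : ℝ) ^ (2 * m + 1) := by
    have h2 : nrm (ev X G (xc - cx ^ L)) ≤ B / (t : ℝ) ^ (2 * m + 1) :=
      (((chi_ev hX hG hG0 h0 L _ (hom_sub hxh (hom_cx_pow L))).mono (hX.pow L) bx).nrm_le
        (hX.pow L) (mul_nonneg hB0 h0)).trans hsq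
    rw [map_sub, map_pow, ev_cx] at h2
    rw [show X ^ L - X1 = -((X1 - ev X G xc) + (ev X G xc - X ^ L)) by abel, nrm_neg, add_div]
    refine (nrm_add_le _ _).trans ?_
    linarith [hX1c.trans (htK (show 2 * m + 1 ≤ K + 2 * m + 6 by omega))]
  refine ⟨hclose.trans (div_le_div_of_nonneg_right
    (le_add_of_nonneg_right (mul_nonneg (by linarith) (by positivity))) (by positivity)), ?_⟩
  -- the formal middle
  have hd1 : 1 ≤ d := Nat.one_le_pow _ _ ht1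
  have hM : 1 ≤ t ^ m := Nat.one_le_pow _ _ ht1
  set s := 4 * t ^ w * (t ^ (m + 1)) ^ 2 with hs
  have hroom : r * s + r * t ^ m ≤ d * L := by
    have e1 : t ^ m ≤ t ^ w * (t ^ (m + 1)) ^ 2 := by
      rw [← pow_mul, ← pow_add]; exact Nat.pow_le_pow_right ht1 (by omega)
    calc r * s + r * t ^ m ≤ r * s + r * (t ^ w * (t ^ (m + 1)) ^ 2) :=
          Nat.add_le_add_left (Nat.mul_le_mul_left r e1) _
      _ = 5 * r * t ^ (w + 2 * m + 2) := by
          rw [hs, show w + 2 * m + 2 = w + (m + 1) * 2 by ring, ← pow_mul, pow_add t w]; ring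
      _ ≤ t * t ^ (w + 2 * m + 2) := Nat.mul_le_mul_right _ ht5
      _ ≤ t ^ (2 * m) * t ^ (w + 4) := by
          rw [← pow_succ', ← pow_add]; exact Nat.pow_le_pow_right ht1 (by omega)
      _ ≤ d * L := Nat.mul_le_mul_left _
          ((Nat.le_mul_of_pos_left a two_pos).trans (Nat.le_add_right _ _))
  have hdh : Cm * ((d : ℝ) * h) ≤ 1 := by
    have e : (d : ℝ) * h ≤ 1 / (t : ℝ) ^ 1 := by
      rw [hh, hd, Nat.cast_pow, mul_one_div, div_le_div_iff₀ (by positivity) (by positivity),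
        one_mul, ← pow_add]
      exact pow_le_pow_right₀ ht (by omega)
    exact (mul_le_mul_of_nonneg_left e (by linarith)).trans
      ((absorb (i := 0) ht htCm le_rfl).trans (by simp))
  obtain ⟨u0, rest, heq, hu0, hq0, hhom, hqc⟩ :=
    hmid h a d (t ^ m) r h0 hh1 hM hd1 (le_trans (Nat.le_add_left _ _) hroom) hdh
  refine ⟨_, (chi_ev hX hG hG0 h0 _ _ hhom).mono (hX.pow _) (hqc.trans ?_), ?_⟩
  · have e1 : 4 ^ r / ((t ^ m : ℕ) : ℝ) * h ^ 4 = 4 ^ r * (1 / (t : ℝ) ^ (4 * z + m)) := by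
      rw [hh, Nat.cast_pow, div_pow, one_pow, ← pow_mul, mul_comm z 4, pow_add (t : ℝ) (4 * z)]
      field_simp
    have e2 : (d : ℝ) * h ^ 5 ≤ 1 / (t : ℝ) ^ (4 * z + m) := by
      rw [hh, hd, Nat.cast_pow, div_pow, one_pow, ← pow_mul, mul_one_div,
        div_le_div_iff₀ (by positivity) (by positivity), one_mul, ← pow_add]
      exact pow_le_pow_right₀ ht (by omega)
    rw [e1]
    refine (mul_le_mul_of_nonneg_left (add_le_add le_rfl e2) (by linarith)).trans ?_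
    rw [div_eq_mul_one_div (B + 1 + Cm * (4 ^ r + 1))]
    have h6 : 0 ≤ (B + 1) * (1 / (t : ℝ) ^ (4 * z + m)) := by positivity
    linarith
  -- the two errors
  have hE1n : nrm (Y1 - X1) ≤ 2 :=
    (nrm_sub_le _ _).trans (by rw [hY1.nrm_eq, hX1.nrm_eq]; norm_num)
  have hdβ : ((d : ℝ) + 1) * β1 ≤ 2 / (t : ℝ) ^ (K + 6) := by
    have hd1' : (1 : ℝ) ≤ d := by exact_mod_cast hd1
    calc ((d : ℝ) + 1) * β1 ≤ (2 * d) * β1 :=
          mul_le_mul_of_nonneg_right (by linarith) (by positivity)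
      _ = _ := by
          rw [hβ1, hd, Nat.cast_pow, show K + 2 * m + 6 = K + 6 + 2 * m by ring,
            pow_add (t : ℝ) (K + 6)]
          field_simp
  have hdβ' : (d : ℝ) * β1 ≤ 1 / 2 := by
    have e : (d : ℝ) * β1 = 1 / (t : ℝ) ^ (K + 6) := by
      rw [hβ1, hd, Nat.cast_pow, show K + 2 * m + 6 = K + 6 + 2 * m by ring,
        pow_add (t : ℝ) (K + 6)]
      field_simp
    rw [e]
    have := htK (show 1 ≤ K + 6 by omega)
    rw [pow_one] at this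
    exact this.trans (one_div_le_one_div_of_le two_pos htR2)
  have hb1 : β1 ≤ 1 := (htK (Nat.zero_le _)).trans (by simp)
  have hb := hbr X1 (Y1 - X1) (ev X G xc) (ev X G ec) β1 d hX1 hE1n hX1c hE1c hb1 hdβ'
  have hev : ev X G (xc ^ d * ev xc ec (tmU R2) * xc ^ d)
      = ev X G xc ^ d * ev (ev X G xc) (ev X G ec) (tmU R2) * ev X G xc ^ d := by
    simp only [map_mul, map_pow, ev_comp]
  rw [← hev, heq] at hb
  -- dilution
  have hη : nrm (X ^ s * (X - 1)) ≤ 28 / (t : ℝ) ^ (m + 1) := by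
    have := smoothing hX (Nat.one_le_pow _ _ ht1) hsm (Nat.one_le_pow _ _ ht1)
      (show 4 * t ^ w * (t ^ (m + 1)) ^ 2 ≤ s from le_rfl)
    simpa using this
  have hu0n : nrm (ev X G u0) ≤ Cm :=
    (((chi_ev hX hG hG0 h0 _ _ hu0).mono (hX.pow _) hq0).nrm_le (hX.pow _) (by linarith)).trans
      (Real.sqrt_le_left (by linarith) |>.2 (by nlinarith))
  have hex := extrap_right (r := r) (P := d * L) (Q := d * L) hX (ev X G u0) hM hη
    (le_trans (Nat.le_add_right _ _) hroom) hroom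
  have heta : (2 * ((t ^ m : ℕ) : ℝ) * (28 / (t : ℝ) ^ (m + 1))) ^ r * nrm (ev X G u0)
      ≤ 1 / (t : ℝ) ^ (K + 4) := by
    have e : 2 * ((t ^ m : ℕ) : ℝ) * (28 / (t : ℝ) ^ (m + 1)) = 56 / t := by
      rw [Nat.cast_pow, pow_succ]; field_simp; ring
    rw [e, div_pow]
    refine (mul_le_mul_of_nonneg_left hu0n (by positivity)).trans ?_
    rw [div_mul_eq_mul_div, div_eq_mul_one_div]
    exact absorb ht htr (by omega)
  have happ : ev X G (app (kerP (t ^ m) r) fun l =>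
        cx ^ (d * L + l) * u0 * cx ^ (d * L - l))
      = app (kerP (t ^ m) r) fun l => X ^ (d * L + l) * ev X G u0 * X ^ (d * L - l) := by
    simp only [app, Polynomial.sum_def, map_sum, map_smul, map_mul, map_pow, ev_cx]
  refine le_trans (le_of_eq (congrArg nrm (show _ = (X1 ^ d * ev X1 (Y1 - X1) (tmU R2) * X1 ^ d
      - ev X G (cx ^ (d * L) * u0 * cx ^ (d * L) + rest))
    + (X ^ (d * L) * ev X G u0 * X ^ (d * L)
      - app (kerP (t ^ m) r) fun l => X ^ (d * L + l) * ev X G u0 * X ^ (d * L - l)) by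
    rw [map_add, map_add, happ, map_mul, map_mul, map_pow, ev_cx]; abel))) ?_
  refine (nrm_add_le _ _).trans ((add_le_add hb (hex.trans heta)).trans ?_)
  have h7 : Cb * (((d : ℝ) + 1) * β1) ≤ 1 / (t : ℝ) ^ (K + 3) := by
    refine (mul_le_mul_of_nonneg_left hdβ (by linarith)).trans ?_
    rw [div_eq_mul_one_div, ← mul_assoc]
    exact absorb ht (by linarith) (by omega)
  have h8 := htK (show K + 3 ≤ K + 4 by omega)
  rw [show (2 : ℝ) / (t : ℝ) ^ (K + 3) = 1 / (t : ℝ) ^ (K + 3) + 1 / (t : ℝ) ^ (K + 3) by ring]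
  linarith

end Vale.Agent.P321.Super
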