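import Vale.Agent.P321.Super.Level
import Vale.Agent.P321.Super.GainAlg
import Vale.Agent.P321.Super.Dom

/-! The pieces of the two-level gain. -/

namespace Vale.Agent.P321.Super

open MonoidAlgebra Finset Filter Poly

lemma pureC_tm : ∀ r, pureC (tmP cx (cx + ce) r).1 = 1 ∧ pureC (tmP cx (cx + ce) r).2 = 1
  | 0 => by simp [tmP]
  | r + 1 => by
    obtain ⟨h1, h2⟩ := pureC_tm r
    simp [tmP, h1, h2]

/-- The slot of a level, in the formal algebra. -/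
noncomputable def xcf (a R : ℕ) : Cf := cx ^ a * tmA R * cx ^ a

/-- The perturbation of a slot of a level, in the formal algebra. -/
noncomputable def ecf (a R : ℕ) : Cf := cx ^ a * tmU R * cx ^ a

lemma card_cx_pow_pad (a : ℕ) (c : Cf) :
    (cx ^ a * c * cx ^ a).coeff.support.card ≤ c.coeff.support.card := by
  refine (card_mul_le _ _).trans ?_
  refine (Nat.mul_le_mul (card_mul_le _ _) (card_cx_pow a)).trans ?_
  rw [mul_one]
  exact (Nat.mul_le_mul (card_cx_pow a) le_rfl).trans_eq (one_mul _)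

/-- Formal facts about one level. -/
lemma level_coef (R : ℕ) : ∃ B : ℝ, ∃ S : ℕ, 1 ≤ B ∧ ∀ (h : ℝ) (a : ℕ), 0 ≤ h → h ≤ 1 →
    Hom (2 * a + 2 ^ R) (xcf a R) ∧ Hom (2 * a + 2 ^ R) (ecf a R) ∧ pureC (xcf a R) = 1
      ∧ qf h (xcf a R - cx ^ (2 * a + 2 ^ R)) ≤ B * h ∧ qf h (ecf a R) ≤ B * h ^ 2
      ∧ (ecf a R).coeff.support.card ≤ S
      ∧ ∀ u ∈ (ecf a R).coeff.support, 1 ≤ (FreeMonoid.toList u).count true := by
  obtain ⟨C, hC, hb⟩ := qf_tm R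
  refine ⟨C, (tmU R).coeff.support.card, hC, fun h a h0 h1 => ?_⟩
  obtain ⟨b1, -, -, b4⟩ := hb h h0 h1
  have eL : 2 * a + 2 ^ R = a + 2 ^ R + a := by ring
  obtain ⟨eh, eq⟩ := qf_pad h a (hom_tmU R)
  have exc : xcf a R - cx ^ (2 * a + 2 ^ R) = cx ^ a * (tmA R - cx ^ 2 ^ R) * cx ^ a := by
    rw [xcf, mul_sub, sub_mul, ← pow_add, ← pow_add, eL]
  refine ⟨eL ▸ (qf_pad h a (hom_tmA R)).1, eL ▸ eh, ?_, ?_, eq.trans_le b4,
    card_cx_pow_pad a _, fun u hu => ?_⟩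
  · simp [xcf, tmA, (pureC_tm R).1]
  · rw [exc, (qf_pad h a (hom_sub (hom_tmA R) (hom_cx_pow _))).2]
    exact b1
  · obtain ⟨u1, hu1, u2, -, rfl⟩ := mem_support_mul hu
    obtain ⟨u0, -, v, hv, rfl⟩ := mem_support_mul hu1
    have := two_le_count (by linarith) (fun h h0 h1 => (hb h h0 h1).2.2.2) hv
    simp only [FreeMonoid.toList_mul, List.count_append]
    omega

/-- The diluted middle in the formal algebra. -/
lemma mid_coef (R1 R2 : ℕ) : ∃ C : ℝ, 1 ≤ C ∧ ∀ (h : ℝ) (a d M r : ℕ), 0 ≤ h → h ≤ 1 → 1 ≤ M →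
    1 ≤ d →
    r * M ≤ d * (2 * a + 2 ^ R1) → C * ((d : ℝ) * h) ≤ 1 →
    ∃ u0 rest : Cf,
      xcf a R1 ^ d * ev (xcf a R1) (ecf a R1) (tmU R2) * xcf a R1 ^ d
          = cx ^ (d * (2 * a + 2 ^ R1)) * u0 * cx ^ (d * (2 * a + 2 ^ R1)) + rest
      ∧ Hom (2 ^ R2 * (2 * a + 2 ^ R1)) u0 ∧ qf h u0 ≤ C
      ∧ Hom (d * (2 * a + 2 ^ R1) + 2 ^ R2 * (2 * a + 2 ^ R1) + d * (2 * a + 2 ^ R1))
          ((app (kerP M r) fun l => cx ^ (d * (2 * a + 2 ^ R1) + l) * u0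
            * cx ^ (d * (2 * a + 2 ^ R1) - l)) + rest)
      ∧ qf h ((app (kerP M r) fun l => cx ^ (d * (2 * a + 2 ^ R1) + l) * u0
            * cx ^ (d * (2 * a + 2 ^ R1) - l)) + rest)
          ≤ C * (4 ^ r / (M : ℝ) * h ^ 4 + d * h ^ 5) := by
  classical
  obtain ⟨B, S, hB, hlev⟩ := level_coef R1
  obtain ⟨Cq, hCq, hq2⟩ := qf_tm R2
  obtain ⟨Cs, S', hCs, hsub⟩ := subst_diff (hom_tmU R2)
    (fun w hw => two_le_count (by linarith) (fun h h0 h1 => (hq2 h h0 h1).2.2.2) hw) B S hB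
  set C := max (Cs * (2 * S' + 1)) (48 * B * Cs)
  have hCB : 48 * B * Cs ≤ C := le_max_right _ _
  have hCS : Cs * (2 * S' + 1) ≤ C := le_max_left _ _
  have hBCs : B * 1 ≤ B * Cs := mul_le_mul_of_nonneg_left hCs (by linarith)
  refine ⟨C, by linarith, fun h a d M r h0 h1 hM hdp hr hd => ?_⟩
  obtain ⟨hx, he, hpure, bx, be, hS, hec⟩ := hlev h a h0 h1
  set L := 2 * a + 2 ^ R1
  obtain ⟨u0h, uh, q0, qu, qdiff, hcard, hcnt⟩ := hsub L (xcf a R1) (ecf a R1) h (h ^ 2) hx he h0 h1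
    (sq_nonneg h) (pow_le_one₀ h0 h1) bx be hS hec
  set u0 := ev (cx ^ L) (ecf a R1) (tmU R2)
  set u := ev (xcf a R1) (ecf a R1) (tmU R2)
  rw [← pow_mul] at q0 qu qdiff
  norm_num at q0 qu qdiff
  -- powers of the slot
  set x := qf h (xcf a R1) - 1
  have hx0 : qf h (xcf a R1 - cx ^ L) = x := qf_sub_pure h hx hpure
  have hxn : 0 ≤ x := hx0 ▸ qf_nonneg h0 _
  have hxB : x ≤ B * h := hx0 ▸ bx
  have hxd : (d : ℝ) * x ≤ 1 / 2 := by
    have h2 : (d : ℝ) * x ≤ d * (B * h) := mul_le_mul_of_nonneg_left hxB (Nat.cast_nonneg d)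
    have h3 : 0 ≤ (d : ℝ) * h := by positivity
    have h4 : 48 * B * ((d : ℝ) * h) ≤ C * ((d : ℝ) * h) :=
      mul_le_mul_of_nonneg_right (by linarith) h3
    have h5 : 0 ≤ B * ((d : ℝ) * h) := mul_nonneg (by linarith) h3
    linarith [show (d : ℝ) * (B * h) = B * (d * h) by ring]
  have hpowq : ∀ k, qf h (xcf a R1 ^ k) = (1 + x) ^ k := by
    intro k
    induction k with
    | zero => simp [one_def, qf_single]
    | succ k ih => rw [pow_succ, qf_mul h (hom_pow hx k) hx, ih, pow_succ]; simp [x]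
  have hXd : Hom (d * L) (xcf a R1 ^ d) := hom_pow hx d
  have hPd : Hom (d * L) (cx ^ (d * L)) := hom_cx_pow _
  have hXq : qf h (xcf a R1 ^ d) ≤ 2 := by
    rw [hpowq]; linarith [one_add_pow_le hxn d hxd]
  have hDq : qf h (xcf a R1 ^ d - cx ^ (d * L)) ≤ 2 * B * (d * h) := by
    rw [qf_sub_pure h hXd (by rw [map_pow, hpure, one_pow]), hpowq]
    have := one_add_pow_le hxn d hxd
    have : (d : ℝ) * x ≤ d * (B * h) := mul_le_mul_of_nonneg_left hxB (Nat.cast_nonneg d)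
    linarith [show 2 * ((d : ℝ) * (B * h)) = 2 * B * (d * h) by ring]
  -- the rest
  set pA := (xcf a R1 ^ d - cx ^ (d * L)) * u * xcf a R1 ^ d
  set pB := cx ^ (d * L) * (u - u0) * xcf a R1 ^ d
  set pC := cx ^ (d * L) * u0 * (xcf a R1 ^ d - cx ^ (d * L))
  have hh4 : 0 ≤ h ^ 4 := by positivity
  have hq_pA : qf h pA ≤ 4 * B * Cs * (d * h ^ 5) := by
    rw [qf_mul h (hom_mul (hom_sub hXd hPd) uh) hXd, qf_mul h (hom_sub hXd hPd) uh]
    refine (mul_le_mul (mul_le_mul hDq qu (qf_nonneg h0 _) (by positivity)) hXq (qf_nonneg h0 _)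
      (by positivity)).trans_eq ?_
    ring
  have hq_pB : qf h pB ≤ 2 * Cs * (h ^ 5) := by
    rw [qf_mul h (hom_mul hPd (hom_sub uh u0h)) hXd, qf_mul h hPd (hom_sub uh u0h), qf_cx_pow,
      one_mul]
    refine (mul_le_mul qdiff hXq (qf_nonneg h0 _) (by positivity)).trans_eq ?_
    ring
  have hq_pC : qf h pC ≤ 2 * B * Cs * (d * h ^ 5) := by
    rw [qf_mul h (hom_mul hPd u0h) (hom_sub hXd hPd), qf_mul h hPd u0h, qf_cx_pow, one_mul]
    refine (mul_le_mul q0 hDq (qf_nonneg h0 _) (by positivity)).trans_eq ?_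
    ring
  have hrest : qf h (pA + (pB + pC)) ≤ 24 * B * Cs * (d * h ^ 5) := by
    refine (qf_add_le h0 _ _).trans ?_
    have hsum := qf_add_le h0 pB pC
    have hd1 : h ^ 5 ≤ (d : ℝ) * h ^ 5 :=
      le_mul_of_one_le_left (by positivity) (by exact_mod_cast hdp)
    have hB1 : Cs * h ^ 5 ≤ B * Cs * ((d : ℝ) * h ^ 5) :=
      mul_le_mul (le_mul_of_one_le_left (by linarith) hB) hd1 (by positivity) (by positivity)
    have h6 : 0 ≤ B * Cs * ((d : ℝ) * h ^ 5) := by positivity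
    linarith
  refine ⟨u0, pA + (pB + pC), ?_, u0h, q0.trans ?_, ?_, ?_⟩
  · simp only [pA, pB, pC, sub_mul, mul_sub, mul_assoc]
    abel
  · exact (mul_le_of_le_one_right (by linarith) (pow_le_one₀ h0 h1)).trans
      (le_trans (le_mul_of_one_le_right (by linarith)
        (by linarith [Nat.cast_nonneg (α := ℝ) S'])) hCS)
  · refine hom_add (qf_shift_card h0 u0h hcnt hM hr).1 (hom_add ?_ (hom_add ?_ ?_))
    · exact hom_mul (hom_mul (hom_sub hXd hPd) uh) hXd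
    · exact hom_mul (hom_mul hPd (hom_sub uh u0h)) hXd
    · exact hom_mul (hom_mul hPd u0h) (hom_sub hXd hPd)
  · refine (qf_add_le h0 _ _).trans ?_
    have h2 : 4 ^ r / (M : ℝ) * (u0.coeff.support.card : ℝ) * qf h u0
        ≤ 4 ^ r / (M : ℝ) * S' * (Cs * h ^ 4) :=
      mul_le_mul (mul_le_mul_of_nonneg_left (by exact_mod_cast hcard) (by positivity)) q0
        (qf_nonneg h0 _) (by positivity)
    have h3 := (qf_shift_card (P := d * L) (Q := d * L) h0 u0h hcnt hM hr).2.trans h2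
    have h4 : 0 ≤ 4 ^ r / (M : ℝ) * h ^ 4 := by positivity
    have h5 : 0 ≤ (d : ℝ) * h ^ 5 := by positivity
    have h6 : Cs * (2 * S' + 1) * (4 ^ r / (M : ℝ) * h ^ 4) ≤ C * (4 ^ r / (M : ℝ) * h ^ 4) :=
      mul_le_mul_of_nonneg_right hCS h4
    have h7 : 48 * B * Cs * ((d : ℝ) * h ^ 5) ≤ C * ((d : ℝ) * h ^ 5) :=
      mul_le_mul_of_nonneg_right hCB h5
    have h8 : 0 ≤ Cs * (4 ^ r / (M : ℝ) * h ^ 4) := mul_nonneg (by linarith) h4
    linarith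

/-- Powers of nearly equal elements. -/
lemma pow_close {M : Type*} [Monoid M] {X X' : MonoidAlgebra ℝ M} (hX : Prb X) {β : ℝ}
    (hβ : nrm (X - X') ≤ β) {d : ℕ} (hd : (d : ℝ) * β ≤ 1 / 2) : ∀ k ≤ d,
    nrm (X' ^ k) ≤ 2 ∧ nrm (X ^ k - X' ^ k) ≤ 2 * k * β := by
  have hβ0 : 0 ≤ β := (nrm_nonneg _).trans hβ
  have hn : ∀ k, nrm (X' ^ k) ≤ (1 + β) ^ k := by
    intro k
    induction k with
    | zero => simp [Prb.one.nrm_eq]
    | succ k ih =>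
      rw [pow_succ, pow_succ]
      have h1 : nrm X' ≤ 1 + β := by
        rw [show X' = X - (X - X') by abel]
        exact (nrm_sub_le _ _).trans (by linarith [hX.nrm_eq])
      exact (nrm_mul_le _ _).trans (mul_le_mul ih h1 (nrm_nonneg _) (by positivity))
  have h2 : (1 + β) ^ d ≤ 2 := (one_add_pow_le hβ0 d hd).trans (by linarith)
  intro k hk
  have hk2 : ∀ j ≤ d, nrm (X' ^ j) ≤ 2 := fun j hj =>
    (hn j).trans ((pow_le_pow_right₀ (by linarith) hj).trans h2)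
  refine ⟨hk2 k hk, ?_⟩
  induction k with
  | zero => simp
  | succ k ih =>
    rw [pow_succ, pow_succ, show X ^ k * X - X' ^ k * X'
      = (X ^ k - X' ^ k) * X + X' ^ k * (X - X') by noncomm_ring]
    refine (nrm_add_le _ _).trans ((add_le_add ((nrm_mul_prb_le hX).trans (ih (by omega)))
      ((nrm_mul_le _ _).trans (mul_le_mul (hk2 k (by omega)) hβ (nrm_nonneg _) two_pos.le))).trans ?_)
    push_cast
    linarith

/-- The middle of the second level only depends on the first level up to its error. -/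
lemma bracket_close {M : Type*} [Monoid M] {n : ℕ} {U : Cf} (hU : Hom n U) : ∃ C : ℝ, 1 ≤ C ∧
    ∀ (X1 E1 X' E' : MonoidAlgebra ℝ M) (β : ℝ) (d : ℕ), Prb X1 → nrm E1 ≤ 2 →
      nrm (X1 - X') ≤ β → nrm (E1 - E') ≤ β → β ≤ 1 → (d : ℝ) * β ≤ 1 / 2 →
      nrm (X1 ^ d * ev X1 E1 U * X1 ^ d - X' ^ d * ev X' E' U * X' ^ d)
        ≤ C * (((d : ℝ) + 1) * β) := by
  obtain ⟨C, hC, hlip⟩ := ev_lipschitz (M := M) hU
  refine ⟨6 * C + 1, by linarith, fun X1 E1 X' E' β d hX hE hbX hbE hb1 hbd => ?_⟩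
  have hβ0 : 0 ≤ β := (nrm_nonneg _).trans hbX
  have hX' : nrm X' ≤ 3 := by
    rw [show X' = X1 - (X1 - X') by abel]
    exact (nrm_sub_le _ _).trans (by linarith [hX.nrm_eq])
  have hE' : nrm E' ≤ 3 := by
    rw [show E' = E1 - (E1 - E') by abel]
    exact (nrm_sub_le _ _).trans (by linarith)
  obtain ⟨l1, l2, l3⟩ :=
    hlip X1 E1 X' E' β (by linarith [hX.nrm_eq]) (by linarith) hX' hE' hbX hbE
  obtain ⟨p1, p2⟩ := pow_close hX hbX hbd d le_rfl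
  set U1 := ev X1 E1 U
  set U2 := ev X' E' U
  rw [show X1 ^ d * U1 * X1 ^ d - X' ^ d * U2 * X' ^ d = (X1 ^ d - X' ^ d) * U1 * X1 ^ d
    + (X' ^ d * (U1 - U2) * X1 ^ d + X' ^ d * U2 * (X1 ^ d - X' ^ d)) by noncomm_ring]
  have a1 : nrm ((X1 ^ d - X' ^ d) * U1 * X1 ^ d) ≤ 2 * d * β * C :=
    (nrm_mul_prb_le (hX.pow d)).trans ((nrm_mul_le _ _).trans
      (mul_le_mul p2 l2 (nrm_nonneg _) (by positivity)))
  have a2 : nrm (X' ^ d * (U1 - U2) * X1 ^ d) ≤ 2 * (C * β) :=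
    (nrm_mul_prb_le (hX.pow d)).trans ((nrm_mul_le _ _).trans
      (mul_le_mul p1 l1 (nrm_nonneg _) two_pos.le))
  have a3 : nrm (X' ^ d * U2 * (X1 ^ d - X' ^ d)) ≤ 2 * C * (2 * d * β) :=
    (nrm_mul_le _ _).trans (mul_le_mul ((nrm_mul_le _ _).trans
      (mul_le_mul p1 l3 (nrm_nonneg _) two_pos.le)) p2 (nrm_nonneg _) (by positivity))
  refine (nrm_add_le _ _).trans ((add_le_add a1 ((nrm_add_le _ _).trans (add_le_add a2 a3))).trans ?_)
  have h1 : 0 ≤ C * β := mul_nonneg hC hβ0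
  have h2 : 0 ≤ ((d : ℝ) + 1) * β := by positivity
  linarith [mul_nonneg hC (mul_nonneg (Nat.cast_nonneg (α := ℝ) d) hβ0)]

/-- The reference of the gain is dominated by the second level. -/
lemma ref_dom {M : Type*} [Monoid M] {X X1 Y1 : MonoidAlgebra ℝ M} (hX : Prb X) (hX1 : Prb X1)
    (hY1 : Prb Y1) {D D1 e δ γ : ℝ} (hD : 1 ≤ D) (hD1 : 1 ≤ D1) (he : 0 ≤ e) (hγ : 1 ≤ γ)
    (L d p R lam : ℕ) (hlam : 1 ≤ lam) (hXX : Dom (X ^ L) X1 D e) (hδ : nrm (X ^ L - X1) ≤ δ)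
    (h1 : Dom X1 Y1 D1 e) (h2 : Dom Y1 X1 D1 e) :
    Dom (X1 ^ p * X ^ (d * L + 2 ^ R * L + d * L) * X1 ^ p)
      (X1 ^ (p + d) * (tmP X1 Y1 R).1 * X1 ^ (p + d))
      (γ * (D * D1) ^ 2 ^ R * γ)
      (2 * γ * (D * D1) ^ 2 ^ R * ((d : ℝ) * (2 * e) + (1 + lam * (2 * D) ^ lam * δ) ^ d / γ ^ lam
        + 2 ^ R * e)) := by
  obtain ⟨⟨pt, -⟩, t1, -, -, -⟩ := dom_tm hX1 hY1 hD1 he h1 h2 R
  set N := 2 ^ R
  have hN : ((2 : ℝ) ^ R) = (N : ℝ) := by simp [N]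
  set eA := (d : ℝ) * (2 * e) + (1 + lam * (2 * D) ^ lam * δ) ^ d / γ ^ lam with heA
  have hA := dom_pow_near (hX.pow L) hX1 hD hXX hδ (show (0 : ℝ) < γ by linarith) lam d hlam
  have hB := (hXX.pow (hX.pow L) hX1 hD N).trans t1 (by positivity)
  rw [← mul_pow] at hB
  set Q := (D * D1) ^ N with hQdef
  have hQ : 1 ≤ Q := one_le_pow₀ (one_le_mul_of_one_le_of_one_le hD hD1)
  rw [← heA] at hA
  have hAB := hA.mul hB ((hX.pow L).pow N) (hX1.pow d) (by linarith)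
  have hABA := hAB.mul hA ((hX.pow L).pow d) ((hX1.pow d).mul pt) (mul_nonneg (by linarith) (by linarith))
  have hpad := ((Dom.refl (X1 ^ p)).mul hABA (((hX.pow L).pow d).mul ((hX.pow L).pow N) |>.mul
    ((hX.pow L).pow d)) (hX1.pow p) zero_le_one).mul (Dom.refl (X1 ^ p)) (hX1.pow p)
    ((hX1.pow p).mul (((hX1.pow d).mul pt).mul (hX1.pow d)))
    (mul_nonneg zero_le_one (mul_nonneg (mul_nonneg (by linarith) (by linarith)) (by linarith)))
  have eR : X1 ^ p * X ^ (d * L + N * L + d * L) * X1 ^ p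
      = X1 ^ p * ((X ^ L) ^ d * (X ^ L) ^ N * (X ^ L) ^ d) * X1 ^ p := by
    simp only [← pow_mul, ← pow_add, Nat.mul_comm L]
  have eP : X1 ^ (p + d) * (tmP X1 Y1 R).1 * X1 ^ (p + d)
      = X1 ^ p * (X1 ^ d * (tmP X1 Y1 R).1 * X1 ^ d) * X1 ^ p := by
    rw [pow_add, show X1 ^ p * X1 ^ d * (tmP X1 Y1 R).1 * (X1 ^ p * X1 ^ d)
      = X1 ^ p * (X1 ^ d * (tmP X1 Y1 R).1 * (X1 ^ p * X1 ^ d)) by simp only [mul_assoc],
      ← pow_add, Nat.add_comm p d, pow_add]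
    simp only [mul_assoc]
  rw [eR, eP]
  refine hpad.mono (((hX1.pow p).mul (((hX1.pow d).mul pt).mul (hX1.pow d))).mul (hX1.pow p)).1
    (le_of_eq (by ring)) ?_
  have hA0 : 0 ≤ eA := hA.err_nonneg
  have hγQ : 1 ≤ γ * Q := one_le_mul_of_one_le_of_one_le hγ hQ
  have e1 : (N : ℝ) * D ^ N * e ≤ (N : ℝ) * Q * e := by
    have : D ^ N ≤ Q :=
      pow_le_pow_left₀ (by linarith) (le_mul_of_one_le_right (by linarith) hD1) N
    gcongr
  have e2 : D ^ N * ((N : ℝ) * D1 ^ N * e) = (N : ℝ) * Q * e := by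
    rw [hQdef, mul_pow]; ring
  have e3 : eA ≤ γ * Q * eA := le_mul_of_one_le_left hA0 hγQ
  have e4 := mul_le_mul_of_nonneg_left e1 (show 0 ≤ γ by linarith)
  simp only [zero_add, one_mul, mul_zero, add_zero, hN, e2]
  rw [mul_add γ]
  linarith [show γ * ((N : ℝ) * Q * e) = γ * Q * ((N : ℝ) * e) by ring]

end Vale.Agent.P321.Super
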