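import Vale.Agent.P321.Super.Words
import Vale.Agent.P321.Super.Comb

/-! One level of the construction. -/

namespace Vale.Agent.P321.Super

open MonoidAlgebra Finset Filter Poly

/-- The padded Thue-Morse word of level `R`, first letter. -/
def lvA (a R : ℕ) (A B : List Bool) : List Bool := rep a A ++ (tm A B R).1 ++ rep a A

/-- The padded Thue-Morse word of level `R`, second letter. -/
def lvB (a R : ℕ) (A B : List Bool) : List Bool := rep a A ++ (tm A B R).2 ++ rep a A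

lemma law_lvA {q : ℝ} (a R : ℕ) (A B : List Bool) : law q (lvA a R A B)
    = law q A ^ a * (tmP (law q A) (law q B) R).1 * law q A ^ a := by
  simp [lvA, law_append, law_rep, law_tm, mul_assoc]

lemma law_lvB {q : ℝ} (a R : ℕ) (A B : List Bool) : law q (lvB a R A B)
    = law q A ^ a * (tmP (law q A) (law q B) R).2 * law q A ^ a := by
  simp [lvB, law_append, law_rep, law_tm, mul_assoc]

lemma length_lv {A B : List Bool} {W : ℕ} (hA : A.length = W) (hB : B.length = W) (a R : ℕ) :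
    (lvA a R A B).length = (2 * a + 2 ^ R) * W ∧ (lvB a R A B).length = (2 * a + 2 ^ R) * W := by
  obtain ⟨h1, h2⟩ := tm_length hA hB R
  simp only [lvA, lvB, List.length_append, length_rep, h1, h2, hA]
  constructor <;> ring

lemma lv_ne {A B : List Bool} {W : ℕ} (hA : A.length = W) (hB : B.length = W) (hne : A ≠ B)
    (a R : ℕ) : lvA a R A B ≠ lvB a R A B := fun h =>
  tm_ne hA hB hne R (List.append_cancel_left (List.append_cancel_right h))

/-- The first word's centre in the formal algebra. -/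
noncomputable def tmA (R : ℕ) : Cf := (tmP cx (cx + ce) R).1

/-- The centre of the difference, degree at least two. -/
noncomputable def tmU (R : ℕ) : Cf :=
  (tmP cx (cx + ce) R).2 - (tmP cx (cx + ce) R).1 - lin cx ce R

lemma hom_tmU (R : ℕ) : Hom (2 ^ R) (tmU R) :=
  hom_sub (hom_sub (hom_tm R).2 (hom_tm R).1) (hom_lin R)

lemma hom_tmA (R : ℕ) : Hom (2 ^ R) (tmA R) := (hom_tm R).1

lemma qf_pad (h : ℝ) (a : ℕ) {n : ℕ} {c : Cf} (hc : Hom n c) :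
    Hom (a + n + a) (cx ^ a * c * cx ^ a) ∧ qf h (cx ^ a * c * cx ^ a) = qf h c := by
  refine ⟨hom_mul (hom_mul (hom_cx_pow a) hc) (hom_cx_pow a), ?_⟩
  rw [qf_mul h (hom_mul (hom_cx_pow a) hc) (hom_cx_pow a), qf_mul h (hom_cx_pow a) hc,
    qf_cx_pow, one_mul, mul_one]

lemma nrm_pad_le {M : Type*} [Monoid M] {X : MonoidAlgebra ℝ M} (hX : Prb X) (a : ℕ)
    (Ω : MonoidAlgebra ℝ M) : nrm (X ^ a * Ω * X ^ a) ≤ nrm Ω :=
  (nrm_mul_prb_le (hX.pow a)).trans (nrm_prb_mul_le (hX.pow a))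

/-- Comparison of a padded level with its formal expansion. -/
lemma lv_facts (R : ℕ) : ∃ C : ℝ, 1 ≤ C ∧ ∀ (X Y G : Tr) (h β η : ℝ) (a s : ℕ),
    Prb X → Prb Y → Chi G X h → 0 ≤ h → h ≤ 1 → nrm (Y - X - G) ≤ β →
    nrm (X ^ s * (X - 1)) ≤ η → R * s ≤ a →
    nrm (X ^ a * (tmP X Y R).1 * X ^ a - ev X G (cx ^ a * tmA R * cx ^ a)) ≤ C * β
      ∧ nrm (X ^ a * (tmP X Y R).2 * X ^ a - X ^ a * (tmP X Y R).1 * X ^ a
          - ev X G (cx ^ a * tmU R * cx ^ a)) ≤ C * β + (2 ^ R * η) ^ R := by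
  obtain ⟨C0, hC0, hlip⟩ := tmP_lipschitz (M := FreeMonoid Bool) R
  refine ⟨2 * C0 + 1, by linarith, fun X Y G h β η a s hX hY hG h0 h1 hβ hη has => ?_⟩
  have hGn : nrm G ≤ 1 := (hG.nrm_le hX h0).trans (Real.sqrt_le_one.2 h1)
  have hXG : nrm (X + G) ≤ 3 := (nrm_add_le _ _).trans (by linarith [hX.nrm_eq])
  obtain ⟨d1, d2, -⟩ := hlip X Y (X + G) (by linarith [hX.nrm_eq]) (by linarith [hY.nrm_eq]) hXG
  rw [show Y - (X + G) = Y - X - G by abel] at d1 d2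
  have e1 : nrm ((tmP X Y R).1 - (tmP X (X + G) R).1) ≤ C0 * β :=
    d1.trans (mul_le_mul_of_nonneg_left hβ hC0)
  have e2 : nrm ((tmP X Y R).2 - (tmP X (X + G) R).2) ≤ C0 * β :=
    d2.trans (mul_le_mul_of_nonneg_left hβ hC0)
  have m1 : ev X G (tmA R) = (tmP X (X + G) R).1 := by
    rw [tmA, (map_tmP (ev X G) _ _ R).1, map_add, ev_cx, ev_ce]
  have m2 : ev X G ((tmP cx (cx + ce) R).2) = (tmP X (X + G) R).2 := by
    rw [(map_tmP (ev X G) _ _ R).2, map_add, ev_cx, ev_ce]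
  have hβ0 : 0 ≤ β := (nrm_nonneg _).trans hβ
  constructor
  · rw [map_mul, map_mul, map_pow, ev_cx, m1, ← sub_mul, ← mul_sub]
    refine (nrm_pad_le hX a _).trans (e1.trans ?_)
    nlinarith
  · rw [map_mul, map_mul, map_pow, ev_cx, tmU, map_sub, map_sub, m2, map_lin, ev_cx, ev_ce,
      show ev X G (tmP cx (cx + ce) R).1 = (tmP X (X + G) R).1 from m1]
    rw [show X ^ a * (tmP X Y R).2 * X ^ a - X ^ a * (tmP X Y R).1 * X ^ a
        - X ^ a * ((tmP X (X + G) R).2 - (tmP X (X + G) R).1 - lin X G R) * X ^ a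
      = X ^ a * ((tmP X Y R).2 - (tmP X (X + G) R).2) * X ^ a
        - X ^ a * ((tmP X Y R).1 - (tmP X (X + G) R).1) * X ^ a
        + X ^ a * lin X G R * X ^ a by noncomm_ring]
    refine (nrm_add_le _ _).trans (add_le_add ((nrm_sub_le _ _).trans ((add_le_add
      ((nrm_pad_le hX a _).trans e2) ((nrm_pad_le hX a _).trans e1)).trans ?_)) ?_)
    · nlinarith
    · simpa using lin_shrink (R := R) hX hGn hη R le_rfl a has

/-- Domination between a padded level and the pure power. -/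
lemma lv_dom {X Y : Tr} (hX : Prb X) (hY : Prb Y) {C e : ℝ} (hC : 1 ≤ C) (he : 0 ≤ e)
    (h1 : Dom X Y C e) (h2 : Dom Y X C e) (a R : ℕ) :
    Prb (X ^ a * (tmP X Y R).1 * X ^ a) ∧ Prb (X ^ a * (tmP X Y R).2 * X ^ a)
      ∧ Dom (X ^ (2 * a + 2 ^ R)) (X ^ a * (tmP X Y R).1 * X ^ a) (C ^ 2 ^ R)
          (2 ^ R * C ^ 2 ^ R * e)
      ∧ Dom (X ^ (2 * a + 2 ^ R)) (X ^ a * (tmP X Y R).2 * X ^ a) (C ^ 2 ^ R)
          (2 ^ R * C ^ 2 ^ R * e)
      ∧ Dom (X ^ a * (tmP X Y R).1 * X ^ a) (X ^ (2 * a + 2 ^ R)) (C ^ 2 ^ R)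
          (2 ^ R * C ^ 2 ^ R * e)
      ∧ Dom (X ^ a * (tmP X Y R).2 * X ^ a) (X ^ (2 * a + 2 ^ R)) (C ^ 2 ^ R)
          (2 ^ R * C ^ 2 ^ R * e) := by
  obtain ⟨⟨p1, p2⟩, a1, a2, b1, b2⟩ := dom_tm hX hY hC he h1 h2 R
  have hp := hX.pow a
  have hpad : ∀ {U V : Tr} {K E : ℝ}, Prb U → Prb V → 0 ≤ K → Dom U V K E →
      Dom (X ^ a * U * X ^ a) (X ^ a * V * X ^ a) K E := by
    intro U V K E hU hV hK hUV
    have s1 := (Dom.refl (X ^ a)).mul hUV hU hp zero_le_one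
    rw [one_mul, zero_add, one_mul] at s1
    have s2 := s1.mul (Dom.refl (X ^ a)) hp (hp.mul hV) hK
    rwa [mul_one, mul_zero, add_zero] at s2
  have hXm := hX.pow (2 ^ R)
  have hK : 0 ≤ C ^ 2 ^ R := by positivity
  rw [show X ^ (2 * a + 2 ^ R) = X ^ a * X ^ 2 ^ R * X ^ a by
    rw [← pow_add, ← pow_add]; congr 1; ring]
  exact ⟨(hp.mul p1).mul hp, (hp.mul p2).mul hp, hpad hXm p1 hK a1, hpad hXm p2 hK a2,
    hpad p1 hXm hK b1, hpad p2 hXm hK b2⟩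

lemma cfPure_zero (R : ℕ) :
    (tmA R - cx ^ 2 ^ R).coeff (FreeMonoid.ofList (List.replicate (2 ^ R) false)) = 0 := by
  obtain ⟨C, -, hC⟩ := qf_tm R
  have h := (hC 0 le_rfl zero_le_one).1
  rw [mul_zero] at h
  set w := FreeMonoid.ofList (List.replicate (2 ^ R) false)
  by_contra hne
  have hmem : w ∈ (tmA R - cx ^ 2 ^ R).coeff.support := Finsupp.mem_support_iff.2 hne
  have hle : (tmA R - cx ^ 2 ^ R).coeff w ^ 2 * (0 : ℝ) ^ (FreeMonoid.toList w).count true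
      ≤ qf 0 (tmA R - cx ^ 2 ^ R) :=
    single_le_sum (f := fun u => (tmA R - cx ^ 2 ^ R).coeff u ^ 2
      * (0 : ℝ) ^ (FreeMonoid.toList u).count true) (fun u _ => by positivity) hmem
  have hcnt : (FreeMonoid.toList w).count true = 0 := by
    simp [w, List.count_replicate]
  rw [hcnt, pow_zero, mul_one] at hle
  exact hne (pow_eq_zero_iff two_ne_zero |>.1 (le_antisymm (hle.trans h) (sq_nonneg _)))

/-- Basic facts at a fixed scale that both levels use. -/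
lemma eta_bound {X : Tr} (hX : Prb X) {t w : ℕ} (ht : 1 ≤ t) (hs : Smooth X (t ^ w)) {s : ℕ}
    (h4 : 4 * t ^ w * t ^ 2 ≤ s) : nrm (X ^ s * (X - 1)) ≤ 28 / (t : ℝ) :=
  smoothing hX (Nat.one_le_pow _ _ ht) hs ht h4

lemma htK_le {t : ℝ} (ht : 1 ≤ t) {i j : ℕ} (hij : i ≤ j) : 1 / t ^ j ≤ 1 / t ^ i :=
  one_div_le_one_div_of_le (by positivity) (pow_le_pow_right₀ ht hij)

/-- A constant costs one power of `t`. -/
lemma absorb {t c : ℝ} (ht : 1 ≤ t) (hc : c ≤ t) {i j : ℕ} (hij : i + 1 ≤ j) :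
    c * (1 / t ^ j) ≤ 1 / t ^ i := by
  obtain ⟨d, rfl⟩ := Nat.exists_eq_add_of_le hij
  have ht0 : 0 < t := by linarith
  refine (mul_le_mul_of_nonneg_right hc (by positivity)).trans ?_
  rw [show t * (1 / t ^ (i + 1 + d)) = 1 / t ^ (i + d) by
    rw [show i + 1 + d = i + d + 1 by ring, pow_succ]; field_simp]
  exact htK_le ht (Nat.le_add_right _ _)

lemma lg_arith {Cq D t : ℝ} {R : ℕ} (hCq : 1 ≤ Cq) (hD : 1 ≤ D)
    (h : 4 * Cq * 2 ^ (R + 2) * (D * D) ≤ t) :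
    2 * D * Cq ≤ t ∧ 2 * Cq * 2 ^ R * D ≤ t ∧ 2 ^ R * D + D * (2 ^ R * D) ≤ t := by
  have hp : (1 : ℝ) ≤ 2 ^ R := one_le_pow₀ one_le_two
  have hDD : D ≤ D * D := le_mul_of_one_le_left (by linarith) hD
  have e : 4 * Cq * 2 ^ (R + 2) * (D * D) = 16 * (Cq * 2 ^ R * (D * D)) := by
    rw [pow_add]; ring
  rw [e] at h
  have a1 : D * Cq ≤ Cq * 2 ^ R * (D * D) := by
    calc D * Cq = Cq * 1 * D := by ring
      _ ≤ Cq * 2 ^ R * (D * D) := by gcongr
  have a2 : Cq * 2 ^ R * D ≤ Cq * 2 ^ R * (D * D) := by gcongr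
  have a3 : 1 * 2 ^ R * (D * D) ≤ Cq * 2 ^ R * (D * D) := by gcongr
  have a4 : (2 : ℝ) ^ R * D ≤ 2 ^ R * (D * D) := by gcongr
  have a5 : 0 ≤ Cq * 2 ^ R * (D * D) := by positivity
  refine ⟨by linarith, by linarith, by linarith⟩

lemma shift_small {X : Tr} (hX : Prb X) {t w L T : ℕ} (ht : 18000000 ≤ t)
    (hs : Smooth X (t ^ w)) (hL : 2 * t ^ (w + 4) ≤ L) (hL3 : L ≤ 3 * t ^ (w + 4))
    (hT : T = t ^ (2 * w + 5)) : nrm (X ^ (L * T) * (X ^ L - 1)) ≤ 1 / 32 := by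
  have ht1 : 1 ≤ t := by omega
  refine (nrm_pow_mul_pow_sub_one_le hX _ L).trans ?_
  have hlam : 4 * t ^ w * (3000 * t ^ (w + 4)) ^ 2 ≤ L * T := by
    have e : 4 * t ^ w * (3000 * t ^ (w + 4)) ^ 2
        = 36000000 * (t ^ (w + 4) * t ^ (2 * w + 4)) := by
      rw [show 2 * w + 4 = w + w + 4 by ring]; simp only [pow_add]; ring
    rw [e, hT, show 2 * w + 5 = 2 * w + 4 + 1 by ring, pow_succ]
    calc 36000000 * (t ^ (w + 4) * t ^ (2 * w + 4))
        ≤ 2 * t * (t ^ (w + 4) * t ^ (2 * w + 4)) := Nat.mul_le_mul_right _ (by omega)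
      _ = 2 * t ^ (w + 4) * (t ^ (2 * w + 4) * t) := by ring
      _ ≤ _ := Nat.mul_le_mul_right _ hL
  refine (mul_le_mul_of_nonneg_left (smoothing hX (Nat.one_le_pow _ _ ht1) hs
    (Nat.one_le_iff_ne_zero.2 (by positivity)) hlam) (Nat.cast_nonneg _)).trans ?_
  have hLt : (L : ℝ) ≤ 3 * (t : ℝ) ^ (w + 4) := by exact_mod_cast hL3
  push_cast
  rw [mul_div_assoc', div_le_iff₀ (by positivity)]
  have : (0 : ℝ) ≤ (t : ℝ) ^ (w + 4) := by positivity
  linarith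

lemma smooth_of_close {X X1 : Tr} (hX : Prb X) (p1 : Prb X1) {L T : ℕ}
    (hTX : nrm (X1 ^ T - X ^ (L * T)) ≤ 1 / 32) (hclose : nrm (X1 - X ^ L) ≤ 1 / 32)
    (hshift : nrm (X ^ (L * T) * (X ^ L - 1)) ≤ 1 / 32) : Smooth X1 T := by
  rw [Smooth, pow_succ, ← mul_sub_one]
  rw [show X1 ^ T * (X1 - 1) = (X1 ^ T - X ^ (L * T)) * (X1 - 1)
    + (X ^ (L * T) * (X ^ L - 1) + X ^ (L * T) * (X1 - X ^ L)) by noncomm_ring]
  have h2 : nrm (X1 - 1) ≤ 2 :=
    (nrm_sub_le _ _).trans (by rw [p1.nrm_eq, Prb.one.nrm_eq]; norm_num)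
  exact (nrm_add_le _ _).trans ((add_le_add
    ((nrm_mul_le _ _).trans (mul_le_mul hTX h2 (nrm_nonneg _) (by norm_num)))
    ((nrm_add_le _ _).trans (add_le_add hshift
      ((nrm_prb_mul_le (hX.pow _)).trans hclose)))).trans (by norm_num))

lemma dom_level {R1 R2 X1 Y1 : Tr} {D β t : ℝ} {R K K' : ℕ} (hY1 : ∀ a, 0 ≤ Y1.coeff a)
    (h1 : Dom X1 R1 D (2 ^ R * D * β)) (h2 : Dom R1 Y1 D (2 ^ R * D * β)) (hR : R2 = Y1)
    (hD : 1 ≤ D) (ht : 1 ≤ t) (hq : 2 ^ R * D + D * (2 ^ R * D) ≤ t) (hK : K + 1 ≤ K')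
    (hβ : β = 1 / t ^ K') {D' : ℝ} (hD' : D * D = D') :
    Dom X1 R2 D' (1 / t ^ K) := by
  subst hR
  refine (h1.trans h2 (by linarith)).mono hY1 hD'.le ?_
  rw [show 2 ^ R * D * β + D * (2 ^ R * D * β) = (2 ^ R * D + D * (2 ^ R * D)) * β by ring, hβ]
  exact absorb ht hq hK

theorem level_core (q : ℝ) (h0 : 0 ≤ q) (h1 : q ≤ 1) {w z : ℕ} (hz : w + 4 ≤ z) (K R : ℕ)
    (hR : K + 4 ≤ R) :
    ∃ K' : ℕ, ∀ P E : ℕ, ∃ P' : ℕ, ∀ᶠ t : ℕ in atTop, ∀ A B : List Bool,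
      Good q t w z K' P E A B →
      Good q t (2 * w + 5) (2 * z - 1) K P' (E + w + 5)
        (lvA (t ^ (w + 4)) R A B) (lvB (t ^ (w + 4)) R A B) := by
  obtain ⟨C1, hC1, hfacts⟩ := lv_facts R
  obtain ⟨Cq, hCq, hqf⟩ := qf_tm R
  set N := 2 ^ R with hN
  set K' := 2 * K + 2 * w + 12 with hK'
  refine ⟨K', fun P E => ⟨P * 2 ^ (R + 1), ?_⟩⟩
  have hcomb := comb N w z (nrm (tmA R - cx ^ N)) (by omega) (show (0 : ℝ) < 1 / 32 by norm_num)
  filter_upwards [hcomb, eventually_ge_atTop 2, eventually_const_le (2 * C1),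
    eventually_const_le ((28 * 2 ^ R : ℝ) ^ R), eventually_const_le (2 * Cq),
    eventually_const_le ((N : ℝ) + 3), eventually_const_le (16 * R + 36000000),
    lg_pow_le (P * 2 ^ (R + 1)) (4 * Cq * 2 ^ (R + 2)),
    eventually_const_le (4096 * Cq * 2 ^ 20)] with t hcomb ht2 htC1 htR htCq htN htbig htlg htCq2
  intro A B hgood
  obtain ⟨hlen, htA, hAE, hne, hsm, ⟨G, hG0, hG, hB⟩, hAB, hBA⟩ := hgood
  set X := law q A
  set Y := law q B
  have hX : Prb X := prb_law h0 h1 A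
  have hY : Prb Y := prb_law h0 h1 B
  have htR' : (2 : ℝ) ≤ t := by exact_mod_cast ht2
  have ht1 : 1 ≤ t := by omega
  have htpos : (0 : ℝ) < t := by linarith
  set h : ℝ := 1 / (t : ℝ) ^ z with hh
  have hh0 : 0 ≤ h := by positivity
  have hh1 : h ≤ 1 := by
    rw [hh, div_le_one (by positivity)]; exact one_le_pow₀ (by linarith)
  set β : ℝ := 1 / (t : ℝ) ^ K'
  set a := t ^ (w + 4) with ha
  set s := 4 * t ^ w * t ^ 2 with hs
  have hbig : 16 * R + 36000000 ≤ t := by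
    have : ((16 * R + 36000000 : ℕ) : ℝ) ≤ t := by push_cast; linarith
    exact_mod_cast this
  have has : R * s ≤ a := by
    calc R * s = t ^ (w + 2) * (4 * R) := by rw [hs, pow_add]; ring
      _ ≤ t ^ (w + 2) * (t * t) := Nat.mul_le_mul_left _ (by nlinarith)
      _ = a := by rw [ha, show w + 4 = w + 2 + 1 + 1 by ring, pow_succ, pow_succ]; ring
  obtain ⟨f1, f2⟩ := hfacts X Y G h β (28 / (t : ℝ)) a s hX hY hG hh0 hh1 hB
    (eta_bound hX ht1 hsm le_rfl) has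
  obtain ⟨p1, p2, da, db, dca, dcb⟩ := lv_dom hX hY (one_le_pow₀ (one_le_lg t))
    (show (0 : ℝ) ≤ β by positivity) hAB hBA a R
  set X1 := X ^ a * (tmP X Y R).1 * X ^ a with hX1
  set Y1 := X ^ a * (tmP X Y R).2 * X ^ a with hY1
  have eA : law q (lvA a R A B) = X1 := law_lvA a R A B
  have eB : law q (lvB a R A B) = Y1 := law_lvB a R A B
  set L := 2 * a + N with hL
  obtain ⟨la, lb⟩ := length_lv rfl hlen.symm a R (A := A) (B := B)
  set Λ := lg t ^ P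
  have hΛ : 1 ≤ Λ := one_le_pow₀ (one_le_lg t)
  -- the error terms
  have hlinR : (2 ^ R * (28 / (t : ℝ))) ^ R ≤ 1 / (t : ℝ) ^ (K + 3) := by
    rw [show (2 : ℝ) ^ R * (28 / (t : ℝ)) = 28 * 2 ^ R / t by ring, div_pow,
      div_le_div_iff₀ (by positivity) (by positivity), one_mul]
    calc (28 * 2 ^ R : ℝ) ^ R * (t : ℝ) ^ (K + 3) ≤ t * (t : ℝ) ^ (K + 3) :=
          mul_le_mul_of_nonneg_right htR (by positivity)
      _ = (t : ℝ) ^ (K + 4) := by ring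
      _ ≤ (t : ℝ) ^ R := pow_le_pow_right₀ (by linarith) hR
  have htK : ∀ {i j : ℕ}, i ≤ j → 1 / (t : ℝ) ^ j ≤ 1 / (t : ℝ) ^ i := htK_le (by linarith)
  have hCβ : C1 * β ≤ 1 / (t : ℝ) ^ (K' - 1) :=
    absorb (by linarith) (by linarith) (by omega)
  -- the new chi-square part
  set U := cx ^ a * tmU R * cx ^ a
  obtain ⟨hUh, hUq⟩ := qf_pad h a (hom_tmU R)
  set μ := ev X G U
  have hμ : Chi μ (X ^ L) (Cq * h ^ 2) := by
    have h2 := chi_ev hX hG hG0 hh0 _ _ hUh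
    rw [show a + 2 ^ R + a = L by simp only [L, N]; ring, hUq] at h2
    exact h2.mono (hX.pow L) (hqf h hh0 hh1).2.2.2
  have herr : nrm (Y1 - X1 - μ) ≤ 2 / (t : ℝ) ^ (K + 3) := by
    refine f2.trans ?_
    have := htK (show K + 3 ≤ K' - 1 by omega)
    rw [show (2 : ℝ) / (t : ℝ) ^ (K + 3) = 1 / (t : ℝ) ^ (K + 3) + 1 / (t : ℝ) ^ (K + 3) by ring]
    linarith
  have hmass : |mass μ| ≤ 2 / (t : ℝ) ^ (K + 3) := by
    have h2 := (abs_mass_le (Y1 - X1 - μ)).trans herr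
    rwa [mass_sub, mass_sub, p1.2, p2.2, sub_self, zero_sub, abs_neg] at h2
  set CΛ := Λ ^ 2 ^ R
  have hCΛ : 1 ≤ CΛ := one_le_pow₀ hΛ
  have hCΛlg : CΛ ≤ lg t ^ (P * 2 ^ (R + 1)) := by
    simp only [CΛ, Λ, ← pow_mul]
    exact pow_le_pow_right₀ (one_le_lg t) (Nat.mul_le_mul_left _ (Nat.pow_le_pow_right two_pos
      (Nat.le_succ R)))
  have hΛ2 : CΛ * CΛ = lg t ^ (P * 2 ^ (R + 1)) := by
    simp only [CΛ, Λ, ← pow_mul, ← pow_add]
    congr 1; ring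
  obtain ⟨G1, hG10, hG1, hG1e⟩ := dom_convert hμ (by positivity) (hX.pow L) p1
    hCΛ da
  have hlgC : 4 * Cq * 2 ^ (R + 2) * (CΛ * CΛ) ≤ t := by rw [hΛ2]; exact htlg
  obtain ⟨q1, q2, q3⟩ := lg_arith hCq hCΛ hlgC
  have hh2 : h ^ 2 = 1 / (t : ℝ) ^ (2 * z) := by
    rw [hh, div_pow, one_pow, ← pow_mul, Nat.mul_comm]
  have hchi : Chi G1 X1 (1 / (t : ℝ) ^ (2 * z - 1)) := by
    refine hG1.mono p1 ?_
    rw [hh2, ← mul_assoc]
    exact absorb (by linarith) q1 (by omega)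
  have hsqrt : Real.sqrt (2 * (Cq * h ^ 2) * (2 ^ R * CΛ * β)) ≤ 1 / (t : ℝ) ^ (K + 3) := by
    rw [Real.sqrt_le_iff]
    refine ⟨by positivity, ?_⟩
    calc 2 * (Cq * h ^ 2) * (2 ^ R * CΛ * β) = h ^ 2 * (2 * Cq * 2 ^ R * CΛ * β) := by ring
      _ ≤ 1 * (2 * Cq * 2 ^ R * CΛ * β) :=
          mul_le_mul_of_nonneg_right (pow_le_one₀ hh0 hh1) (by positivity)
      _ ≤ 1 / (t : ℝ) ^ (2 * (K + 3)) := by
          rw [one_mul]; exact absorb (by linarith) q2 (by omega)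
      _ = (1 / (t : ℝ) ^ (K + 3)) ^ 2 := by rw [div_pow, one_pow, ← pow_mul, Nat.mul_comm]
  have hnear : nrm (Y1 - X1 - G1) ≤ 1 / (t : ℝ) ^ K := by
    rw [show Y1 - X1 - G1 = (Y1 - X1 - μ) + (μ - G1) by abel]
    refine (nrm_add_le _ _).trans ((add_le_add herr hG1e).trans ?_)
    rw [show (2 : ℝ) / (t : ℝ) ^ (K + 3) = 2 * (1 / (t : ℝ) ^ (K + 3)) by ring] at hmass ⊢
    have h6 : 6 * (1 / (t : ℝ) ^ (K + 3)) ≤ 1 / (t : ℝ) ^ K :=
      absorb (by linarith) (by linarith) (by omega)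
    linarith
  -- smoothing
  set T := t ^ (2 * w + 5) with hT
  have hω := hcomb X X1 G (tmA R - cx ^ N) hX p1 hsm hG0 hG (hom_sub (hom_tmA R) (hom_cx_pow N))
    (cfPure_zero R) le_rfl
  have hX1' : ev X G (cx ^ a * tmA R * cx ^ a)
      = X ^ L + X ^ a * ev X G (tmA R - cx ^ N) * X ^ a := by
    simp only [map_mul, map_pow, map_sub, ev_cx, hL]
    rw [mul_sub, sub_mul, ← pow_add, ← pow_add, show a + N + a = 2 * a + N by ring]
    abel
  have hTX : nrm (X1 ^ T - X ^ (L * T)) ≤ 1 / 32 := by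
    refine hω ?_
    rw [← hX1']
    exact f1.trans (hCβ.trans (htK (by omega)))
  have hCq0 : 0 ≤ Cq := by linarith
  have hclose : nrm (X1 - X ^ L) ≤ 1 / 32 := by
    have h2 : nrm (ev X G (tmA R - cx ^ N)) ≤ Real.sqrt (Cq * h) :=
      ((chi_ev hX hG hG0 hh0 _ _ (hom_sub (hom_tmA R) (hom_cx_pow N))).mono (hX.pow _)
        (hqf h hh0 hh1).1).nrm_le (hX.pow _) (by positivity)
    rw [show X1 - X ^ L = (X1 - ev X G (cx ^ a * tmA R * cx ^ a))
      + X ^ a * ev X G (tmA R - cx ^ N) * X ^ a by rw [hX1']; abel]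
    refine (nrm_add_le _ _).trans ((add_le_add (f1.trans hCβ)
      ((nrm_pad_le hX a _).trans h2)).trans ?_)
    have h4 : h ≤ 1 / (t : ℝ) := by
      have := htK (show 1 ≤ z by omega)
      rwa [pow_one] at this
    have h5 : Real.sqrt (Cq * h) ≤ 1 / 64 := by
      rw [Real.sqrt_le_iff]
      refine ⟨by norm_num, (mul_le_mul_of_nonneg_left h4 hCq0).trans ?_⟩
      rw [mul_one_div, div_le_iff₀ htpos]
      linarith
    have h6 : 1 / (t : ℝ) ^ (K' - 1) ≤ 1 / 64 := by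
      have := htK (show 1 ≤ K' - 1 by omega)
      rw [pow_one] at this
      refine this.trans (one_div_le_one_div_of_le (by norm_num) ?_)
      have : (64 : ℕ) ≤ t := by omega
      exact_mod_cast this
    linarith
  have hshift : nrm (X ^ (L * T) * (X ^ L - 1)) ≤ 1 / 32 := by
    refine shift_small hX ?_ hsm (Nat.le_add_right _ _) ?_ rfl
    · have : ((18000000 : ℕ) : ℝ) ≤ (t : ℝ) := by push_cast; linarith
      exact_mod_cast this
    · have hN' : N ≤ t ^ (w + 4) := by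
        have : (N : ℝ) ≤ (t : ℝ) ^ (w + 4) :=
          le_trans (by linarith) (le_self_pow₀ (by linarith) (by omega))
        exact_mod_cast this
      omega
  refine ⟨?_, ?_, ?_, lv_ne rfl hlen.symm hne a R, ?_, ?_, ?_, ?_⟩
  · rw [la, lb]
  · rw [la]
    exact htA.trans (Nat.le_mul_of_pos_left _ (by positivity))
  · rw [la]
    have hN2 : N + 3 ≤ t := by
      have : ((N + 3 : ℕ) : ℝ) ≤ t := by push_cast; linarith
      exact_mod_cast this
    calc (2 * a + 2 ^ R) * A.length ≤ (t * a) * t ^ E := by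
          refine Nat.mul_le_mul ?_ hAE
          have ha1 : 1 ≤ a := Nat.one_le_pow _ _ ht1
          nlinarith
      _ = _ := by rw [ha]; simp only [pow_add]; ring
  · rw [eA]
    exact smooth_of_close hX p1 hTX hclose hshift
  · rw [eA, eB]
    exact ⟨G1, hG10, hchi, hnear⟩
  · rw [eA, eB]
    exact dom_level p2.1 dca db rfl hCΛ (by linarith) q3 (by omega) rfl hΛ2
  · rw [eA, eB]
    exact dom_level p1.1 dcb da rfl hCΛ (by linarith) q3 (by omega) rfl hΛ2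

end Vale.Agent.P321.Super
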