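import Vale.Agent.P321.Super.BasePair
import Vale.Agent.P321.Super.Gain
import Vale.Agent.P321.Poly.Main

/-! Rounds of the construction: worst-case trace reconstruction needs superpolynomially many
traces for every fixed deletion probability. -/

namespace Vale.Agent.P321.Super

open MonoidAlgebra Finset Filter Poly

/-- After enough rounds the divergence exponent beats any multiple of the smoothing exponent. -/
lemma state_rounds {q : ℝ} (h0 : 0 ≤ q) (h1 : q ≤ 1) (hb : State q 101 140) : ∀ j : ℕ,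
    ∃ w z : ℕ, State q w z ∧ 101 + j ≤ w ∧ w + 5 ≤ z ∧ (50 + j) * w ≤ 100 * z
  | 0 => ⟨101, 140, hb, le_rfl, by norm_num, by norm_num⟩
  | j + 1 => by
    obtain ⟨w, z, hs, hw, hz, hzw⟩ := state_rounds h0 h1 hb j
    obtain ⟨m, hm⟩ : ∃ m, m = w / 5 := ⟨_, rfl⟩
    have hm1 : 5 * m ≤ w := by omega
    have hm2 : w ≤ 5 * m + 4 := by omega
    refine ⟨4 * w + 15, 4 * z + m - 4, gain_state q h0 h1 hz (by omega) (by omega) hs,
      by omega, by omega, ?_⟩
    have hj : (50 + (j + 1)) * (4 * w + 15) = 4 * ((50 + j) * w) + 4 * w + 15 * j + 765 := by ring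
    rw [hj]
    omega

/-- The largest base whose power is at most `n`. -/
lemma exists_root {e T n : ℕ} (he : 1 ≤ e) (hT : T ^ e ≤ n) :
    ∃ t, T ≤ t ∧ t ^ e ≤ n ∧ n < (t + 1) ^ e := by
  obtain ⟨t, ht⟩ : ∃ t, t = Nat.findGreatest (fun s => s ^ e ≤ n) n := ⟨_, rfl⟩
  have hTn : T ≤ n := (Nat.le_self_pow (by omega) T).trans hT
  refine ⟨t, ht ▸ Nat.le_findGreatest hTn hT,
    ht ▸ Nat.findGreatest_spec (P := fun s => s ^ e ≤ n) hTn hT, ?_⟩
  by_contra h
  rw [not_lt] at h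
  have h2 := Nat.le_findGreatest (P := fun s => s ^ e ≤ n)
    ((Nat.le_self_pow (by omega) (t + 1)).trans h) h
  omega

/-- Close pairs of every large length. -/
lemma close_pairs {q : ℝ} (h0 : 0 ≤ q) (h1 : q ≤ 1) (hb : State q 101 140) (A : ℕ) :
    ∃ n0 : ℕ, ∀ n : ℕ, n0 ≤ n → ∃ x y : List Bool, x.length = n ∧ y.length = n ∧ x ≠ y
      ∧ nrm (law q x - law q y) ≤ 1 / (2 * (n : ℝ) ^ A) := by
  obtain ⟨w, z, hs, hw, hz, hzw⟩ := state_rounds h0 h1 hb (100 * (8 * A + 1))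
  obtain ⟨Z, hZ⟩ : ∃ Z, Z = z / 2 := ⟨_, rfl⟩
  have hexp : 4 * w * A + 1 ≤ Z := by
    have h2 : 100 * (8 * (A * w) + w) ≤ (50 + 100 * (8 * A + 1)) * w := by
      rw [show (50 + 100 * (8 * A + 1)) * w = 50 * w + 100 * (8 * (A * w) + w) by ring]
      exact Nat.le_add_left _ _
    have h3 : 4 * w * A = 4 * (A * w) := by ring
    omega
  obtain ⟨P, hP⟩ := hs z
  rw [eventually_atTop] at hP
  obtain ⟨t0, ht0⟩ := hP
  refine ⟨(max t0 4) ^ (2 * w), fun n hn => ?_⟩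
  obtain ⟨t, htT, htn, hnt⟩ := exists_root (e := 2 * w) (by omega) hn
  have ht4 : 4 ≤ t := (le_max_right _ _).trans htT
  obtain ⟨X, Y, hlen, -, hXn, hne, -, ⟨G, -, hchi, hβ⟩, -, -⟩ :=
    ht0 t ((le_max_left _ _).trans htT)
  obtain ⟨x, y, hx, hy, hxy, hd⟩ :=
    Poly.pad_pair (n := n) h0 h1 rfl hlen.symm hne (hXn.trans htn)
  refine ⟨x, y, hx, hy, hxy, hd.trans ?_⟩
  have htpos : (0 : ℝ) < t := by exact_mod_cast (show 0 < t by omega)
  have ht1 : (1 : ℝ) ≤ t := by exact_mod_cast (show 1 ≤ t by omega)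
  have hG : nrm G ≤ 1 / (t : ℝ) ^ Z := by
    refine (hchi.nrm_le (prb_law h0 h1 X) (by positivity)).trans ?_
    rw [Real.sqrt_le_left (by positivity), one_div_pow]
    refine one_div_le_one_div_of_le (by positivity) ?_
    rw [← pow_mul]
    exact pow_le_pow_right₀ ht1 (by omega)
  have hK : 1 / (t : ℝ) ^ z ≤ 1 / (t : ℝ) ^ Z :=
    one_div_le_one_div_of_le (by positivity) (pow_le_pow_right₀ ht1 (by omega))
  have hnA : (n : ℝ) ^ A ≤ (t : ℝ) ^ (4 * w * A) := by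
    have hnn : n ≤ t ^ (4 * w) := by
      refine hnt.le.trans ((Nat.pow_le_pow_left (show t + 1 ≤ t ^ 2 by nlinarith) _).trans ?_)
      rw [← pow_mul]
      exact le_of_eq (by congr 1; ring)
    rw [pow_mul]
    exact_mod_cast Nat.pow_le_pow_left hnn A
  have hn0 : 0 < n := lt_of_lt_of_le (pow_pos (by omega) _) htn
  calc nrm (law q Y - law q X) ≤ nrm (law q Y - law q X - G) + nrm G := by
        simpa using nrm_add_le (law q Y - law q X - G) G
    _ ≤ 2 / (t : ℝ) ^ Z := by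
        rw [show (2 : ℝ) / (t : ℝ) ^ Z = 1 / (t : ℝ) ^ Z + 1 / (t : ℝ) ^ Z by ring]
        exact add_le_add (hβ.trans hK) hG
    _ ≤ 1 / (2 * (n : ℝ) ^ A) := by
        have hn1 : (0 : ℝ) < n := by exact_mod_cast hn0
        rw [div_le_div_iff₀ (by positivity) (by positivity), one_mul]
        calc 2 * (2 * (n : ℝ) ^ A) ≤ (t : ℝ) * (t : ℝ) ^ (4 * w * A) := by
              have h4 : (4 : ℝ) ≤ t := by exact_mod_cast ht4
              have hp : 0 ≤ (n : ℝ) ^ A := by positivity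
              nlinarith
          _ ≤ (t : ℝ) ^ Z := by
              rw [← pow_succ']
              exact pow_le_pow_right₀ ht1 hexp

/-- Superpolynomially many traces are necessary. -/
theorem superpolynomial : ∀ q : ℝ, 0 < q → q < 1 →
    ∀ A : ℕ, ∃ n0 : ℕ, ∀ n : ℕ, n0 ≤ n → ∀ m : ℕ,
    ∀ est : (Fin m → List Bool) → (Fin n → Bool) → ℝ, (∀ T y, 0 ≤ est T y) →
    (∀ T, ∑ y, est T y = 1) →
    (∀ x : Fin n → Bool, 2 / 3 ≤ ∑ T ∈ Fintype.piFinset (fun _ : Fin m => traces n),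
      (∏ i, traceProb q (List.ofFn x) (T i)) * est T x) →
    n ^ A ≤ m := by
  intro q hq hlt A
  have h0 : 0 ≤ q := hq.le
  obtain ⟨n0, hn0⟩ := close_pairs h0 hlt.le (base_state hq hlt) A
  refine ⟨max n0 1, fun n hn m est he hs hc => ?_⟩
  obtain ⟨x, y, hx, hy, hxy, hd⟩ := hn0 n ((le_max_left _ _).trans hn)
  obtain ⟨f, hf⟩ := Poly.exists_ofFn hx
  obtain ⟨g, hg⟩ := Poly.exists_ofFn hy
  have key := two_point_tv h0 hlt.le est he hs hc (x := f) (y := g)
    (fun e => hxy (by rw [← hf, ← hg, e])) (d := 1 / (2 * (n : ℝ) ^ A)) (by rw [hf, hg]; exact hd)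
  have hn1 : (0 : ℝ) < n := by exact_mod_cast (le_max_right n0 1).trans hn
  rw [mul_one_div, le_div_iff₀ (by positivity)] at key
  have : (n : ℝ) ^ A ≤ m := by nlinarith [pow_pos hn1 A]
  exact_mod_cast this

end Vale.Agent.P321.Super
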