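import Vale.Agent.P321.Super.Dom
import Vale.Agent.P321.Poly.Step
import Mathlib.Analysis.SpecificLimits.Normed
import Mathlib.Order.Filter.AtTopBot.Archimedean

/-! Thue-Morse words in the formal algebra and in trace laws. -/

namespace Vale.Agent.P321.Super

open MonoidAlgebra Finset Filter Poly

lemma map_tmP {S S' F : Type*} [Mul S] [Mul S'] [FunLike F S S'] [MulHomClass F S S'] (f : F)
    (a b : S) : ∀ r, f (tmP a b r).1 = (tmP (f a) (f b) r).1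
      ∧ f (tmP a b r).2 = (tmP (f a) (f b) r).2
  | 0 => ⟨rfl, rfl⟩
  | r + 1 => by
    obtain ⟨h1, h2⟩ := map_tmP f a b r
    simp [tmP, h1, h2]

lemma map_lin {S S' F : Type*} [Ring S] [Ring S'] [FunLike F S S'] [RingHomClass F S S'] (f : F)
    (x e : S) : ∀ r, f (lin x e r) = lin (f x) (f e) r
  | 0 => rfl
  | r + 1 => by simp [lin, map_lin f x e r]

lemma law_tm {q : ℝ} (A B : List Bool) : ∀ r,
    law q (tm A B r).1 = (tmP (law q A) (law q B) r).1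
      ∧ law q (tm A B r).2 = (tmP (law q A) (law q B) r).2
  | 0 => ⟨rfl, rfl⟩
  | r + 1 => by
    obtain ⟨h1, h2⟩ := law_tm (q := q) A B r
    simp [tm, tmP, law_append, h1, h2]

lemma hom_tm : ∀ r, Hom (2 ^ r) (tmP cx (cx + ce) r).1 ∧ Hom (2 ^ r) (tmP cx (cx + ce) r).2
  | 0 => ⟨hom_cx, hom_add hom_cx hom_ce⟩
  | r + 1 => by
    obtain ⟨h1, h2⟩ := hom_tm r
    rw [show 2 ^ (r + 1) = 2 ^ r + 2 ^ r by ring]
    exact ⟨hom_mul h1 h2, hom_mul h2 h1⟩

lemma hom_cx_pow (n : ℕ) : Hom n (cx ^ n) := by simpa using hom_pow hom_cx n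

lemma hom_lin : ∀ r, Hom (2 ^ r) (lin cx ce r)
  | 0 => hom_ce
  | r + 1 => by
    have h := hom_lin r
    rw [show 2 ^ (r + 1) = 2 ^ r + 2 ^ r by ring]
    exact hom_sub (hom_mul h (hom_cx_pow _)) (hom_mul (hom_cx_pow _) h)

/-- The degree bounds for the Thue-Morse expansion. -/
lemma qf_tm : ∀ r, ∃ C : ℝ, 1 ≤ C ∧ ∀ h : ℝ, 0 ≤ h → h ≤ 1 →
    qf h ((tmP cx (cx + ce) r).1 - cx ^ 2 ^ r) ≤ C * h
      ∧ qf h ((tmP cx (cx + ce) r).2 - cx ^ 2 ^ r) ≤ C * h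
      ∧ qf h (lin cx ce r) ≤ C * h
      ∧ qf h ((tmP cx (cx + ce) r).2 - (tmP cx (cx + ce) r).1 - lin cx ce r) ≤ C * h ^ 2
  | 0 => ⟨1, le_rfl, fun h h0 _ => by
      simp [tmP, lin, qf_ce, qf_neg]
      exact ⟨h0, sq_nonneg h⟩⟩
  | r + 1 => by
    obtain ⟨C, hC, hb⟩ := qf_tm r
    refine ⟨48 * C ^ 2, by nlinarith, fun h h0 h1 => ?_⟩
    obtain ⟨b1, b2, b3, b4⟩ := hb h h0 h1
    set M := 2 ^ r
    set v := (tmP cx (cx + ce) r).1
    set v' := (tmP cx (cx + ce) r).2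
    set φ := lin cx ce r
    obtain ⟨hv, hv'⟩ := hom_tm r
    have hφ : Hom M φ := hom_lin r
    have hx := hom_cx_pow M
    have hC0 : 0 ≤ C := by linarith
    have hh : C * h ≤ C := by nlinarith
    have qv : ∀ u : Cf, qf h (u - cx ^ M) ≤ C * h → qf h u ≤ 4 * C := by
      intro u hu
      have h2 := qf_add_le h0 (u - cx ^ M) (cx ^ M)
      rw [sub_add_cancel, qf_cx_pow] at h2
      linarith
    have close : ∀ u u' : Cf, Hom M u → Hom M u' → qf h (u - cx ^ M) ≤ C * h →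
        qf h (u' - cx ^ M) ≤ C * h → qf h (u * u' - cx ^ 2 ^ (r + 1)) ≤ 48 * C ^ 2 * h := by
      intro u u' hu hu' c1 c2
      rw [show u * u' - cx ^ 2 ^ (r + 1) = (u - cx ^ M) * u' + cx ^ M * (u' - cx ^ M) by
        rw [show 2 ^ (r + 1) = M + M by simp only [M]; ring, pow_add]; noncomm_ring]
      refine (qf_add_le h0 _ _).trans ?_
      rw [qf_mul h (hom_sub hu hx) hu', qf_mul h hx (hom_sub hu' hx), qf_cx_pow, one_mul]
      have := mul_le_mul c1 (qv u' c2) (qf_nonneg h0 _) (by positivity)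
      have h3 : C * h ≤ C ^ 2 * h := by nlinarith [mul_nonneg h0 (mul_nonneg hC0 (sub_nonneg.2 hC))]
      nlinarith [mul_nonneg h0 (sq_nonneg C)]
    refine ⟨close v v' hv hv' b1 b2, close v' v hv' hv b2 b1, ?_, ?_⟩
    · simp only [lin]
      refine (qf_sub_le h0 _ _).trans ?_
      rw [qf_mul h hφ hx, qf_mul h hx hφ, qf_cx_pow, mul_one, one_mul]
      nlinarith [mul_nonneg h0 (mul_nonneg hC0 (sub_nonneg.2 hC)), mul_nonneg h0 hC0]
    · have key : (tmP cx (cx + ce) (r + 1)).2 - (tmP cx (cx + ce) (r + 1)).1 - lin cx ce (r + 1)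
          = ((v' - v - φ) * cx ^ M - cx ^ M * (v' - v - φ))
            + ((v' - v) * (v - cx ^ M) - (v - cx ^ M) * (v' - v)) := by
        simp only [tmP, lin]
        change v' * v - v * v' - (φ * cx ^ M - cx ^ M * φ) = _
        noncomm_ring
      rw [key]
      have hd : qf h (v' - v) ≤ 4 * C * h := by
        rw [show v' - v = (v' - cx ^ M) - (v - cx ^ M) by abel]
        exact (qf_sub_le h0 _ _).trans (by linarith)
      have hu : Hom M (v' - v - φ) := hom_sub (hom_sub hv' hv) hφ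
      refine (qf_add_le h0 _ _).trans ?_
      have t1 := qf_sub_le h0 ((v' - v - φ) * cx ^ M) (cx ^ M * (v' - v - φ))
      rw [qf_mul h hu hx, qf_mul h hx hu, qf_cx_pow, mul_one, one_mul] at t1
      have t2 := qf_sub_le h0 ((v' - v) * (v - cx ^ M)) ((v - cx ^ M) * (v' - v))
      rw [qf_mul h (hom_sub hv' hv) (hom_sub hv hx), qf_mul h (hom_sub hv hx) (hom_sub hv' hv)]
        at t2
      have t3 := mul_le_mul hd b1 (qf_nonneg h0 _) (by positivity)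
      have h3 : C * h ^ 2 ≤ C ^ 2 * h ^ 2 := by
        nlinarith [mul_nonneg (sq_nonneg h) (mul_nonneg hC0 (sub_nonneg.2 hC))]
      nlinarith [mul_nonneg (sq_nonneg h) (sq_nonneg C)]

/-- The degree-one part is killed by padding. -/
lemma lin_shrink {M : Type*} [Monoid M] {X G : MonoidAlgebra ℝ M} (hX : Prb X) {δ η : ℝ}
    {R s : ℕ} (hδ : nrm G ≤ δ) (hη : nrm (X ^ s * (X - 1)) ≤ η) :
    ∀ r ≤ R, ∀ a, r * s ≤ a → nrm (X ^ a * lin X G r * X ^ a) ≤ δ * (2 ^ R * η) ^ r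
  | 0, _, a, _ => by
    simpa [lin] using ((nrm_mul_prb_le (hX.pow a)).trans (nrm_prb_mul_le (hX.pow a))).trans hδ
  | r + 1, hr, a, ha => by
    obtain ⟨b, rfl⟩ : ∃ b, a = b + s := ⟨a - s, by rw [add_mul] at ha; omega⟩
    have ih := lin_shrink (R := R) hX hδ hη r (by omega) b (by rw [add_mul] at ha; omega)
    set D := lin X G r
    set m := 2 ^ r
    have hδ0 : 0 ≤ δ := (nrm_nonneg _).trans hδ
    have hη0 : 0 ≤ η := (nrm_nonneg _).trans hη
    have split : X ^ (b + s) * lin X G (r + 1) * X ^ (b + s)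
        = X ^ s * ((X ^ b * D * X ^ b) * (X ^ s * (X ^ m - 1)))
          - (X ^ s * (X ^ m - 1)) * (X ^ b * D * X ^ b) * X ^ s := by
      have c3' : ∀ Y, X ^ m * (X ^ b * Y) = X ^ b * (X ^ m * Y) := fun Y => by
        rw [← mul_assoc, ← pow_add, Nat.add_comm, pow_add, mul_assoc]
      have c4 : X ^ m * X ^ s = X ^ s * X ^ m := by rw [← pow_add, ← pow_add, add_comm]
      have c1 : X ^ (b + s) = X ^ s * X ^ b := by rw [← pow_add, add_comm]
      have c2 : X ^ (b + s) = X ^ b * X ^ s := pow_add _ _ _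
      simp only [lin]
      change X ^ (b + s) * (D * X ^ m - X ^ m * D) * X ^ (b + s) = _
      conv_lhs => enter [1, 1]; rw [c1]
      conv_lhs => enter [2]; rw [c2]
      simp only [mul_sub, sub_mul, mul_assoc, mul_one]
      simp only [c3', c4]
      abel
    have bM : nrm (X ^ s * (X ^ m - 1)) ≤ 2 ^ r * η := by
      refine (nrm_pow_mul_pow_sub_one_le hX s m).trans ?_
      simp only [m, Nat.cast_pow, Nat.cast_ofNat]
      exact mul_le_mul_of_nonneg_left hη (by positivity)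
    have hβ : 0 ≤ δ * (2 ^ R * η) ^ r := by positivity
    rw [split]
    refine (nrm_sub_le _ _).trans ((add_le_add
      ((nrm_prb_mul_le (hX.pow s)).trans ((nrm_mul_le _ _).trans
        (mul_le_mul ih bM (nrm_nonneg _) hβ)))
      ((nrm_mul_prb_le (hX.pow s)).trans ((nrm_mul_le _ _).trans
        (mul_le_mul bM ih (nrm_nonneg _) (by positivity))))).trans ?_)
    have h2r : 2 * (2 ^ r * η) ≤ 2 ^ R * η := by
      rw [← mul_assoc, ← pow_succ']
      exact mul_le_mul_of_nonneg_right (pow_le_pow_right₀ (by norm_num) hr) hη0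
    have := mul_le_mul_of_nonneg_right h2r hβ
    rw [pow_succ (2 ^ R * η)]
    linarith

/-- Thue-Morse products depend continuously on the second letter. -/
lemma tmP_lipschitz {M : Type*} [Monoid M] : ∀ r, ∃ C : ℝ, 0 ≤ C ∧
    ∀ X Y Y' : MonoidAlgebra ℝ M, nrm X ≤ 3 → nrm Y ≤ 3 → nrm Y' ≤ 3 →
      nrm ((tmP X Y r).1 - (tmP X Y' r).1) ≤ C * nrm (Y - Y')
        ∧ nrm ((tmP X Y r).2 - (tmP X Y' r).2) ≤ C * nrm (Y - Y')
        ∧ nrm (tmP X Y r).1 ≤ 3 ^ 2 ^ r ∧ nrm (tmP X Y r).2 ≤ 3 ^ 2 ^ r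
        ∧ nrm (tmP X Y' r).1 ≤ 3 ^ 2 ^ r ∧ nrm (tmP X Y' r).2 ≤ 3 ^ 2 ^ r
  | 0 => ⟨1, zero_le_one, fun X Y Y' hX hY hY' => by
      simp [tmP, hX, hY, hY', nrm_nonneg]⟩
  | r + 1 => by
    obtain ⟨C, hC, hb⟩ := tmP_lipschitz (M := M) r
    refine ⟨2 * C * 3 ^ 2 ^ r, by positivity, fun X Y Y' hX hY hY' => ?_⟩
    obtain ⟨d1, d2, a1, a2, b1, b2⟩ := hb X Y Y' hX hY hY'
    have prod : ∀ {a b a' b' : MonoidAlgebra ℝ M}, nrm (a - a') ≤ C * nrm (Y - Y') →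
        nrm (b - b') ≤ C * nrm (Y - Y') → nrm b ≤ 3 ^ 2 ^ r → nrm a' ≤ 3 ^ 2 ^ r →
        nrm (a * b - a' * b') ≤ 2 * C * 3 ^ 2 ^ r * nrm (Y - Y') := by
      intro a b a' b' e1 e2 f1 f2
      rw [show a * b - a' * b' = (a - a') * b + a' * (b - b') by noncomm_ring]
      refine (nrm_add_le _ _).trans ?_
      have k0 : 0 ≤ C * nrm (Y - Y') := mul_nonneg hC (nrm_nonneg _)
      have := (nrm_mul_le (a - a') b).trans (mul_le_mul e1 f1 (nrm_nonneg _) k0)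
      have := (nrm_mul_le a' (b - b')).trans (mul_le_mul f2 e2 (nrm_nonneg _) (by positivity))
      linarith
    have e3 : (3 : ℝ) ^ 2 ^ (r + 1) = 3 ^ 2 ^ r * 3 ^ 2 ^ r := by
      rw [← pow_add]; congr 1; ring
    have p0 : (0 : ℝ) ≤ 3 ^ 2 ^ r := by positivity
    simp only [tmP]
    refine ⟨prod d1 d2 a2 b1, prod d2 d1 a1 b2, ?_, ?_, ?_, ?_⟩ <;> rw [e3] <;>
      refine (nrm_mul_le _ _).trans (mul_le_mul ?_ ?_ (nrm_nonneg _) p0) <;> assumption

/-- Domination passes to Thue-Morse products. -/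
lemma dom_tm {M : Type*} [Monoid M] {X Y : MonoidAlgebra ℝ M} (hX : Prb X) (hY : Prb Y)
    {C e : ℝ} (hC : 1 ≤ C) (he : 0 ≤ e) (h1 : Dom X Y C e) (h2 : Dom Y X C e) : ∀ r,
    (Prb (tmP X Y r).1 ∧ Prb (tmP X Y r).2)
      ∧ Dom (X ^ 2 ^ r) (tmP X Y r).1 (C ^ 2 ^ r) (2 ^ r * C ^ 2 ^ r * e)
      ∧ Dom (X ^ 2 ^ r) (tmP X Y r).2 (C ^ 2 ^ r) (2 ^ r * C ^ 2 ^ r * e)
      ∧ Dom (tmP X Y r).1 (X ^ 2 ^ r) (C ^ 2 ^ r) (2 ^ r * C ^ 2 ^ r * e)
      ∧ Dom (tmP X Y r).2 (X ^ 2 ^ r) (C ^ 2 ^ r) (2 ^ r * C ^ 2 ^ r * e)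
  | 0 => by
    have hR : Dom X X C (C * e) :=
      (Dom.refl X).mono hX.1 hC (by positivity)
    have hle : e ≤ C * e := le_mul_of_one_le_left he hC
    simp only [tmP, pow_zero, pow_one, one_mul]
    exact ⟨⟨hX, hY⟩, hR, h1.mono hY.1 le_rfl hle, hR, h2.mono hX.1 le_rfl hle⟩
  | r + 1 => by
    obtain ⟨⟨p1, p2⟩, a1, a2, b1, b2⟩ := dom_tm hX hY hC he h1 h2 r
    set Cr := C ^ 2 ^ r
    set er := 2 ^ r * Cr * e
    have hCr : 1 ≤ Cr := one_le_pow₀ hC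
    have her : 0 ≤ er := by positivity
    have hC2 : C ^ 2 ^ (r + 1) = Cr * Cr := by
      simp only [Cr, ← pow_add]; congr 1; ring
    have hE : er + Cr * er ≤ 2 ^ (r + 1) * C ^ 2 ^ (r + 1) * e := by
      rw [hC2, pow_succ]
      simp only [er]
      have h3 : Cr * (2 ^ r * e) ≤ Cr * Cr * (2 ^ r * e) :=
        mul_le_mul_of_nonneg_right (le_mul_of_one_le_left (by positivity) hCr) (by positivity)
      nlinarith
    have hpow : X ^ 2 ^ (r + 1) = X ^ 2 ^ r * X ^ 2 ^ r := by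
      rw [← pow_add]; congr 1; ring
    have hXr := hX.pow (2 ^ r)
    simp only [tmP]
    rw [hpow, hC2]
    rw [hC2] at hE
    exact ⟨⟨p1.mul p2, p2.mul p1⟩,
      (a1.mul a2 hXr p1 (by positivity)).mono (p1.mul p2).1 le_rfl hE,
      (a2.mul a1 hXr p2 (by positivity)).mono (p2.mul p1).1 le_rfl hE,
      (b1.mul b2 p2 hXr (by positivity)).mono (hXr.mul hXr).1 le_rfl hE,
      (b2.mul b1 p1 hXr (by positivity)).mono (hXr.mul hXr).1 le_rfl hE⟩

/-- Powers of the logarithmic scale are negligible. -/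
lemma lg_pow_le (P : ℕ) (C : ℝ) : ∀ᶠ t : ℕ in atTop, C * lg t ^ P ≤ t := by
  have h := (tendsto_pow_const_div_const_pow_of_one_lt P (show (1 : ℝ) < 2 by norm_num))
  have hsmall : ∀ᶠ k : ℕ in atTop, |C| * ((k : ℝ) + 2) ^ P ≤ 2 ^ k := by
    have h' : ∀ᶠ k : ℕ in atTop, ((k + 2 : ℕ) : ℝ) ^ P / 2 ^ (k + 2) ≤ 1 / (4 * (|C| + 1)) :=
      ((tendsto_add_atTop_iff_nat 2).2 h).eventually_le_const (by positivity)
    filter_upwards [h'] with k hk
    push_cast at hk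
    rw [div_le_div_iff₀ (by positivity) (by positivity), pow_add] at hk
    have : (0 : ℝ) ≤ ((k : ℝ) + 2) ^ P := by positivity
    nlinarith
  obtain ⟨k0, hk⟩ := eventually_atTop.1 hsmall
  refine eventually_atTop.2 ⟨2 ^ k0, fun t ht => ?_⟩
  have h2 : (2 : ℝ) ^ Nat.log 2 t ≤ t := by
    exact_mod_cast Nat.pow_log_le_self 2 (by
      have : 0 < 2 ^ k0 := Nat.two_pow_pos k0
      omega)
  have h3 := hk (Nat.log 2 t) (Nat.le_log_of_pow_le one_lt_two ht)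
  have : C * lg t ^ P ≤ |C| * lg t ^ P :=
    mul_le_mul_of_nonneg_right (le_abs_self C) (by simp only [lg]; positivity)
  simp only [lg] at this h3 ⊢
  linarith

lemma one_le_lg (t : ℕ) : (1 : ℝ) ≤ lg t := by
  simp only [lg]; linarith [Nat.cast_nonneg (α := ℝ) (Nat.log 2 t)]

lemma eventually_const_le (C : ℝ) : ∀ᶠ t : ℕ in atTop, C ≤ (t : ℝ) :=
  tendsto_natCast_atTop_atTop.eventually_ge_atTop C

end Vale.Agent.P321.Super
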